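import Crest.Agent.H1.BorChain

/-! Ky Fan's alternating counts. -/

set_option autoImplicit false

noncomputable section

namespace Crest.Agent.H1.Bor

open Classical

def altL : List F2 → F2
  | [] => 0
  | [_] => 1
  | a :: b :: r => (a + b) * altL (b :: r)

lemma altL_cons_add (a b : F2) (r : List F2) :
    altL (a :: r) + altL (b :: r) = (a + b) * altL r := by
  cases r with
  | nil => simp [altL]; rfl
  | cons u r =>
    simp only [altL]
    have h2 : (2 : F2) = 0 := rfl
    linear_combination (u * altL (u :: r)) * h2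

lemma altL_map_add (b : F2) (l : List F2) : altL (l.map (· + b)) = altL l := by
  induction l with
  | nil => rfl
  | cons a l ih =>
    cases l with
    | nil => rfl
    | cons u r =>
      simp only [List.map_cons, altL] at ih ⊢
      rw [ih]
      have h2 : (2 : F2) = 0 := rfl
      linear_combination (b * altL (u :: r)) * h2

variable {V W : Type*}

lemma stokesL (s : V → F2) (G : Multiset V → F2) :
    ∀ (l p : List V) (a w : F2),
      (∀ l', l'.Sublist l → G ((p ++ l' : List V) : Multiset V) = w * altL (a :: l'.map s)) →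
      lift G (bas (p : Multiset V) * d (bas (l : Multiset V))) = w * altL (l.map s) := by
  intro l
  induction l with
  | nil =>
    intro p a w _
    have : bas (([] : List V) : Multiset V) = 1 := rfl
    rw [this, d_one]
    simp [altL]
  | cons v r ih =>
    intro p a w h
    have h1 : bas (p : Multiset V) * d (bas ((v :: r : List V) : Multiset V)) =
        bas ((p ++ r : List V) : Multiset V) +
          bas ((p ++ [v] : List V) : Multiset V) * d (bas (r : Multiset V)) := by
      rw [← Multiset.cons_coe, d_cons, ← Multiset.coe_add, ← Multiset.coe_add, bas_add, bas_add,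
        Multiset.coe_singleton]
      ring
    rw [h1, map_add, lift_bas, h r (List.sublist_cons_self v r),
      ih (p ++ [v]) (s v) (w * (a + s v)) (fun l' hl' => by
        rw [List.append_assoc, List.singleton_append, h _ (hl'.cons_cons v), List.map_cons, altL,
          mul_assoc])]
    have h3 := altL_cons_add a (s v) (r.map s)
    have h2 : (2 : F2) = 0 := rfl
    rw [List.map_cons]
    linear_combination w * h3 + (w * (a + s v) * altL (r.map s) - w * altL (s v :: r.map s)) * h2

variable {L : Type*} [LinearOrder L]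

lemma exists_sorted (c : V → L) (m : Multiset V) :
    ∃ l : List V, (l : Multiset V) = m ∧ l.Pairwise (fun a b => c a ≤ c b) := by
  induction m using Quotient.inductionOn with
  | h l0 =>
    have : Std.Total (fun a b : V => c a ≤ c b) := ⟨fun a b => le_total _ _⟩
    have : IsTrans V (fun a b : V => c a ≤ c b) := ⟨fun a b e => le_trans⟩
    exact ⟨l0.insertionSort (fun a b => c a ≤ c b),
      Multiset.coe_eq_coe.2 (List.perm_insertionSort _ _), List.pairwise_insertionSort _ _⟩

def srt (c : V → L) (m : Multiset V) : List V := (exists_sorted c m).choose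

lemma srt_coe (c : V → L) (m : Multiset V) : (srt c m : Multiset V) = m :=
  (exists_sorted c m).choose_spec.1

lemma srt_sorted (c : V → L) (m : Multiset V) : (srt c m).Pairwise (fun a b => c a ≤ c b) :=
  (exists_sorted c m).choose_spec.2

lemma mem_srt (c : V → L) (m : Multiset V) {p : V} : p ∈ srt c m ↔ p ∈ m := by
  rw [← Multiset.mem_coe, srt_coe]

def NC {L : Type*} (c : V → L) (s : V → F2) (m : Multiset V) : Prop :=
  ∀ p ∈ m, ∀ q ∈ m, c p = c q → s p = s q

def alt (c : V → L) (s : V → F2) (m : Multiset V) : F2 := altL ((srt c m).map s)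

def altP (c : V → L) (s : V → F2) (m : Multiset V) : F2 := altL (0 :: (srt c m).map s)

lemma map_s_eq {L : Type*} (c : V → L) (s : V → F2) (c' : W → L) (s' : W → F2) (b : F2) :
    ∀ (l : List V) (l' : List W), l.map c = l'.map c' →
      (∀ p ∈ l, ∀ p' ∈ l', c p = c' p' → s p = s' p' + b) → l.map s = (l'.map s').map (· + b) := by
  intro l
  induction l with
  | nil =>
    intro l' h _
    cases l' with
    | nil => rfl
    | cons _ _ => simp at h
  | cons a l ih =>
    intro l' h h2
    cases l' with
    | nil => simp at h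
    | cons a' l' =>
      simp only [List.map_cons, List.cons.injEq] at h ⊢
      exact ⟨h2 a (by simp) a' (by simp) h.1,
        ih l' h.2 fun p hp p' hp' => h2 p (by simp [hp]) p' (by simp [hp'])⟩

lemma sorted_map_s (c : V → L) (s : V → F2) (c' : W → L) (s' : W → F2) (b : F2)
    {l : List V} {l' : List W} (hl : l.Pairwise (fun a b => c a ≤ c b))
    (hl' : l'.Pairwise (fun a b => c' a ≤ c' b))
    (h : (l : Multiset V).map c = (l' : Multiset W).map c')
    (h2 : ∀ p ∈ l, ∀ p' ∈ l', c p = c' p' → s p = s' p' + b) :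
    l.map s = (l'.map s').map (· + b) := by
  refine map_s_eq c s c' s' b l l' ?_ h2
  rw [Multiset.map_coe, Multiset.map_coe, Multiset.coe_eq_coe] at h
  exact List.Perm.eq_of_pairwise (le := (· ≤ ·)) (fun a b _ _ => le_antisymm)
    (List.pairwise_map.2 hl) (List.pairwise_map.2 hl') h

lemma srt_map_s (c : V → L) (s : V → F2) (c' : W → L) (s' : W → F2) (b : F2)
    {m : Multiset V} {m' : Multiset W} (h : m.map c = m'.map c')
    (h2 : ∀ p ∈ m, ∀ p' ∈ m', c p = c' p' → s p = s' p' + b) :
    (srt c m).map s = ((srt c' m').map s').map (· + b) :=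
  sorted_map_s c s c' s' b (srt_sorted c m) (srt_sorted c' m') (by rw [srt_coe, srt_coe, h])
    (fun p hp p' hp' => h2 p ((mem_srt c m).1 hp) p' ((mem_srt c' m').1 hp'))

lemma alt_congr (c : V → L) (s : V → F2) (c' : W → L) (s' : W → F2) (b : F2)
    {m : Multiset V} {m' : Multiset W} (h : m.map c = m'.map c')
    (h2 : ∀ p ∈ m, ∀ p' ∈ m', c p = c' p' → s p = s' p' + b) : alt c s m = alt c' s' m' := by
  rw [alt, alt, srt_map_s c s c' s' b h h2, altL_map_add]

lemma srt_eq_of_sorted {c : V → L} {s : V → F2} {l : List V} (hl : l.Pairwise (fun a b => c a ≤ c b))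
    (h : NC c s (l : Multiset V)) : (srt c (l : Multiset V)).map s = l.map s := by
  have := sorted_map_s c s c s 0 (srt_sorted c (l : Multiset V)) hl (by rw [srt_coe])
    (fun p hp p' hp' hc => by
      rw [add_zero]
      exact h p ((mem_srt c _).1 hp) p' (by simpa using hp') hc)
  simpa [Function.comp_def] using this

lemma NC.mono {L : Type*} {c : V → L} {s : V → F2} {m n : Multiset V} (h : NC c s m)
    (hn : ∀ p ∈ n, p ∈ m) : NC c s n :=
  fun p hp q hq => h p (hn p hp) q (hn q hq)

lemma NC.of_cons {L : Type*} {c : V → L} {s : V → F2} {v : V} {m : Multiset V}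
    (h : NC c s (v ::ₘ m)) : NC c s m :=
  h.mono fun _ hp => Multiset.mem_cons_of_mem hp

lemma stokes {c : V → L} {s : V → F2} {m : Multiset V} (h : NC c s m) :
    lift (altP c s) (d (bas m)) = alt c s m := by
  have := stokesL s (altP c s) (srt c m) [] 0 1 (fun l' hl' => by
    rw [List.nil_append, one_mul, altP, srt_eq_of_sorted ((srt_sorted c m).sublist hl')]
    exact h.mono fun p hp => (mem_srt c m).1 (hl'.subset (by simpa using hp)))
  rw [srt_coe] at this
  have h0 : bas (([] : List V) : Multiset V) = 1 := rfl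
  rw [h0, one_mul, one_mul] at this
  exact this

lemma stokes' {c : V → L} {s : V → F2} {x : Ch V} (h : x ∈ Supp (NC c s)) :
    lift (altP c s) (d x) = lift (alt c s) x :=
  eq_on (lift (altP c s) ∘ₗ d) _ (fun m hm => by simpa using stokes hm) h

lemma altP_zero (c : V → L) (s : V → F2) : altP c s 0 = 1 := by
  have : srt c (0 : Multiset V) = [] := by
    have := srt_coe c (0 : Multiset V)
    simpa using this
  rw [altP, this]; rfl

lemma alt_single (c : V → L) (s : V → F2) (v : V) : alt c s {v} = 1 := by
  have h : NC c s {v} := fun p hp q hq _ => by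
    rw [Multiset.mem_singleton.1 hp, Multiset.mem_singleton.1 hq]
  rw [← stokes h, d_single, ← bas_zero, lift_bas, altP_zero]

lemma altL_chain : ∀ l : List F2, altL l ≠ 0 → l.IsChain (· ≠ ·)
  | [], _ => List.isChain_nil
  | [_], _ => List.isChain_singleton _
  | a :: b :: r, h => by
    rw [altL] at h
    refine List.isChain_cons_cons.2 ⟨?_, altL_chain (b :: r) (right_ne_zero_of_mul h)⟩
    rintro rfl
    exact left_ne_zero_of_mul h (f2_add_self a)

lemma nodup_of_chain {c : V → L} {s : V → F2} {m : Multiset V} (h : NC c s m)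
    (h2 : ((srt c m).map s).IsChain (· ≠ ·)) : (m.map c).Nodup := by
  have h3 : ∀ l : List V, (∀ p ∈ l, p ∈ m) → l.Pairwise (fun a b => c a ≤ c b) →
      (l.map s).IsChain (· ≠ ·) → l.IsChain (fun a b => c a < c b) := by
    intro l
    induction l with
    | nil => intros; exact List.isChain_nil
    | cons a l ih =>
      intro hm hp hc
      cases l with
      | nil => exact List.isChain_singleton _
      | cons b r =>
        rw [List.map_cons, List.map_cons, List.isChain_cons_cons] at hc
        rw [List.pairwise_cons] at hp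
        refine List.isChain_cons_cons.2 ⟨lt_of_le_of_ne (hp.1 b (by simp)) fun he =>
          hc.1 (h a (hm a (by simp)) b (hm b (by simp)) he), ?_⟩
        exact ih (fun p hp => hm p (by simp [hp])) hp.2 hc.2
  have h4 := h3 (srt c m) (fun p hp => (mem_srt c m).1 hp) (srt_sorted c m) h2
  have : IsTrans V (fun a b : V => c a < c b) := ⟨fun a b e => lt_trans⟩
  rw [List.isChain_iff_pairwise] at h4
  rw [← srt_coe c m, Multiset.map_coe, Multiset.coe_nodup]
  exact List.pairwise_map.2 (h4.imp fun h => h.ne)

lemma nodup_of_alt {c : V → L} {s : V → F2} {m : Multiset V} (h : NC c s m)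
    (h2 : alt c s m ≠ 0) : (m.map c).Nodup :=
  nodup_of_chain h (altL_chain _ h2)

lemma nodup_of_altP {c : V → L} {s : V → F2} {m : Multiset V} (h : NC c s m)
    (h2 : altP c s m ≠ 0) : (m.map c).Nodup :=
  nodup_of_chain h (altL_chain _ h2).tail

lemma altP_const {c : V → L} {s : V → F2} {m : Multiset V} (h : ∀ p ∈ m, s p = 1)
    (h2 : 2 ≤ m.card) : altP c s m = 0 := by
  by_contra h0
  have h3 := (altL_chain _ h0).tail
  have h4 : (srt c m).length = m.card := by rw [← Multiset.coe_card, srt_coe]
  have h5 : ∀ p ∈ srt c m, s p = 1 := fun p hp => h p ((mem_srt c m).1 hp)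
  generalize srt c m = l at h3 h4 h5
  match l, h3, h4, h5 with
  | [], _, h4, _ => simp at h4; omega
  | [_], _, h4, _ => simp at h4; omega
  | a :: b :: r, h3, _, h5 =>
    simp only [List.map_cons, List.tail_cons, List.isChain_cons_cons] at h3
    exact h3.1 (by rw [h5 a (by simp), h5 b (by simp)])

/-- computable evaluation -/
def altC (l : List (L × F2)) : F2 :=
  altL ((l.insertionSort (fun a b => a.1 ≤ b.1)).map Prod.snd)

lemma alt_eq_altC {l : List (L × F2)} (h : NC Prod.fst Prod.snd (l : Multiset (L × F2))) :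
    alt Prod.fst Prod.snd (l : Multiset (L × F2)) = altC l := by
  have : Std.Total (fun a b : L × F2 => a.1 ≤ b.1) := ⟨fun a b => le_total _ _⟩
  have : IsTrans (L × F2) (fun a b : L × F2 => a.1 ≤ b.1) := ⟨fun a b e => le_trans⟩
  have h1 : ((l.insertionSort (fun a b => a.1 ≤ b.1) : List _) : Multiset (L × F2)) = l :=
    Multiset.coe_eq_coe.2 (List.perm_insertionSort _ _)
  rw [alt, altC, ← srt_eq_of_sorted (c := Prod.fst) (List.pairwise_insertionSort _ l) (h1 ▸ h), h1]

/-! ### Equivariant labellings -/

def Equi {L : Type*} (τ : V → V) (c : V → L) (s : V → F2) : Prop :=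
  (∀ v, c (τ v) = c v) ∧ ∀ v, s (τ v) = s v + 1

variable {τ : V → V}

lemma altP_add_map {c : V → L} {s : V → F2} (he : Equi τ c s) {m : Multiset V} (h : NC c s m) :
    altP c s m + altP c s (m.map τ) = alt c s m := by
  have h1 := srt_map_s c s c s 1 (m := m.map τ) (m' := m)
    (by rw [Multiset.map_map]; exact Multiset.map_congr rfl fun v _ => he.1 v)
    (fun p hp p' hp' hc => by
      obtain ⟨q, hq, rfl⟩ := Multiset.mem_map.1 hp
      rw [he.2, h q hq p' hp' (by rw [← hc, he.1])])
  rw [altP, altP, h1, alt]
  have h2 := altL_map_add 1 (1 :: (srt c m).map s)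
  rw [List.map_cons, f2_add_self] at h2
  rw [h2, altL_cons_add]
  simp

lemma altP_add_push {c : V → L} {s : V → F2} (he : Equi τ c s) {w : Ch V}
    (h : w ∈ Supp (NC c s)) : lift (altP c s) (w + push τ w) = lift (alt c s) w := by
  refine eq_on (lift (altP c s) ∘ₗ (push τ + LinearMap.id)) _ (fun m hm => ?_) h |>.symm ▸ ?_
  · simp [← altP_add_map he hm, add_comm]
  · simp [add_comm]

lemma map_ne_of_NC {L : Type*} {c : V → L} {s : V → F2} (he : Equi τ c s) {m : Multiset V}
    (h : NC c s m) (h0 : 0 < m.card) : m.map τ ≠ m := by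
  obtain ⟨p, hp⟩ := Multiset.card_pos_iff_exists_mem.1 h0
  intro hm
  have h1 : τ p ∈ m := hm ▸ Multiset.mem_map_of_mem τ hp
  have h2 := h _ h1 p hp (he.1 p)
  rw [he.2] at h2
  revert h2
  generalize s p = x
  revert x; decide

lemma invol_map (hτ : Function.Involutive τ) : Function.Involutive (Multiset.map τ) := fun m => by
  rw [Multiset.map_map, hτ.comp_self, Multiset.map_id]

def pos (τ : V → V) : Multiset V → F2 :=
  if h : Function.Involutive τ then (exists_sign (Multiset.map τ) (invol_map h)).choose else 0

lemma pos_map (hτ : Function.Involutive τ) {m : Multiset V} (h : m.map τ ≠ m) :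
    pos τ (m.map τ) = pos τ m + 1 := by
  rw [pos, dif_pos hτ]
  exact (exists_sign (Multiset.map τ) (invol_map hτ)).choose_spec m h

/-- half of a chain -/
def H (τ : V → V) : Ch V →ₗ[F2] Ch V := sel (pos τ)

lemma H_mem {P : Multiset V → Prop} {x : Ch V} (hx : x ∈ Supp P) : H τ x ∈ Supp P :=
  sel_mem' _ hx

lemma H_split' (hτ : Function.Involutive τ) {x : Ch V} (hx : x ∈ Supp (fun m => m.map τ ≠ m)) :
    H τ x + push τ (H τ (push τ x)) = x :=
  sel_split hτ (fun _ hm => pos_map hτ hm) hx

lemma H_split (hτ : Function.Involutive τ) {x : Ch V} (hx : x ∈ Supp (fun m => m.map τ ≠ m))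
    (hT : push τ x = x) : H τ x + push τ (H τ x) = x := by
  have := H_split' hτ hx
  rwa [hT] at this

lemma eq_of_add_eq_zero {x y : Ch V} (h : x + y = 0) : x = y := by
  have := add_self y
  linear_combination h - this

lemma push_d_of_split {w z : Ch V} (h : w + push τ w = z) (hz : d z = 0) :
    push τ (d w) = d w := by
  rw [← d_push]
  refine (eq_of_add_eq_zero ?_).symm
  rw [← map_add, h, hz]

lemma push_even_add {c : V → W} (hc : ∀ v, c (τ v) = c v) (w : Ch V) :
    push c (push τ w) = push c w := by
  rw [push_push]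
  congr 2
  exact funext hc

lemma push_inv_eq_zero (hτ : Function.Involutive τ) {c : V → W} (hc : ∀ v, c (τ v) = c v)
    {x : Ch V} (hx : x ∈ Supp (fun m => m.map τ ≠ m)) (hT : push τ x = x) : push c x = 0 := by
  rw [← H_split hτ hx hT, map_add, push_even_add hc, add_self]

lemma push_H_add (hτ : Function.Involutive τ) {c : V → W} (hc : ∀ v, c (τ v) = c v)
    {y : Ch V} (hy : y ∈ Supp (fun m => m.map τ ≠ m)) :
    push c (H τ (y + push τ y)) = push c y := by
  conv_rhs => rw [← H_split' hτ hy]
  rw [map_add, map_add, map_add, push_even_add hc]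

/-- Ky Fan comparison lemma. -/
theorem kyFan {L' : Type*} [LinearOrder L'] (hτ : Function.Involutive τ)
    {c : V → L} {s : V → F2} (he : Equi τ c s) {c' : V → L'} {s' : V → F2} (he' : Equi τ c' s')
    (j : ℕ) : ∀ G ∈ Supp (fun m => m.card = j ∧ NC c s m ∧ NC c' s' m), push τ G = G → d G = 0 →
      lift (altP c s) G = lift (altP c' s') G := by
  induction j with
  | zero =>
    intro G hG _ _
    refine lift_congr (fun m hm => ?_) hG
    rw [Multiset.card_eq_zero.1 hm.1, altP_zero, altP_zero]
  | succ j ih =>
    intro G hG hT hd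
    have h1 := H_split hτ (Supp_mono (fun m hm => map_ne_of_NC he hm.2.1 (by omega)) hG) hT
    have h2 : H τ G ∈ Supp (fun m => m.card = j + 1 ∧ NC c s m ∧ NC c' s' m) := H_mem hG
    have h3 : H τ G ∈ Supp (NC c s) := Supp_mono (fun m hm => hm.2.1) h2
    have h4 : H τ G ∈ Supp (NC c' s') := Supp_mono (fun m hm => hm.2.2) h2
    rw [← h1, altP_add_push he h3, altP_add_push he' h4, ← stokes' h3, ← stokes' h4]
    refine ih _ (d_mem (fun v e h => ⟨?_, h.2.1.of_cons, h.2.2.of_cons⟩) h2)
      (push_d_of_split h1 hd) (d_d _)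
    have := h.1
    rw [Multiset.card_cons] at this
    omega

end Crest.Agent.H1.Bor
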