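import Mathlib

/-! Chains mod 2 on multisets of vertices: the algebra `F₂[Multiset V]` with the derivation `d`. -/

set_option autoImplicit false

noncomputable section

namespace Crest.Agent.H1.Bor

open Classical

abbrev F2 := ZMod 2

abbrev Ch (V : Type*) := AddMonoidAlgebra F2 (Multiset V)

variable {V W : Type*}

def bas (m : Multiset V) : Ch V := AddMonoidAlgebra.single m 1

lemma bas_add (m n : Multiset V) : bas (m + n) = bas m * bas n := by
  simp [bas, AddMonoidAlgebra.single_mul_single]

lemma bas_zero : bas (0 : Multiset V) = 1 := rfl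

lemma bas_cons (v : V) (m : Multiset V) : bas (v ::ₘ m) = bas {v} * bas m := by
  rw [← bas_add, Multiset.singleton_add]

lemma two_eq_zero : (2 : Ch V) = 0 := by
  have h : (2 : Ch V) = algebraMap F2 (Ch V) 2 := by simp [map_ofNat]
  rw [h]
  have : (2 : F2) = 0 := rfl
  rw [this, map_zero]

lemma add_self (x : Ch V) : x + x = 0 := by
  rw [← two_mul, two_eq_zero, zero_mul]

lemma f2_add_self (x : F2) : x + x = 0 := by
  revert x; decide

lemma f2_cases (x : F2) : x = 0 ∨ x = 1 := by
  revert x; decide

lemma f2_ne_zero {x : F2} (h : x ≠ 0) : x = 1 := by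
  rcases f2_cases x with h' | h'
  · exact absurd h' h
  · exact h'

section lift
variable {M : Type*} [AddCommMonoid M] [Module F2 M]

def lift (f : Multiset V → M) : Ch V →ₗ[F2] M :=
  (Finsupp.linearCombination F2 f) ∘ₗ (AddMonoidAlgebra.coeffLinearEquiv F2).toLinearMap

@[simp] lemma lift_bas (f : Multiset V → M) (m : Multiset V) : lift f (bas m) = f m := by
  simp [lift, bas]

lemma lift_apply (f : Multiset V → M) (x : Ch V) : lift f x = x.coeff.sum fun m a => a • f m := by
  simp [lift, Finsupp.linearCombination_apply]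

end lift

def Supp (P : Multiset V → Prop) : Submodule F2 (Ch V) :=
  Submodule.span F2 (bas '' {m | P m})

lemma mem_Supp {P : Multiset V → Prop} {x : Ch V} : x ∈ Supp P ↔ ∀ m, x.coeff m ≠ 0 → P m := by
  have := AddMonoidAlgebra.supported_eq_span_single (R := F2) (s := {m | P m})
  have h2 : Supp P = AddMonoidAlgebra.supported F2 F2 {m | P m} := this.symm
  rw [h2, AddMonoidAlgebra.mem_supported']
  constructor
  · intro h m hm
    by_contra hP
    exact hm (h m hP)
  · intro h m hm
    by_contra h0
    exact hm (h m h0)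

lemma bas_mem {P : Multiset V → Prop} {m : Multiset V} (h : P m) : bas m ∈ Supp P :=
  Submodule.subset_span ⟨m, h, rfl⟩

lemma Supp_mono {P Q : Multiset V → Prop} (h : ∀ m, P m → Q m) {x : Ch V} (hx : x ∈ Supp P) :
    x ∈ Supp Q := by
  rw [mem_Supp] at hx ⊢
  exact fun m hm => h m (hx m hm)

lemma Supp_and {P Q : Multiset V → Prop} {x : Ch V} (hx : x ∈ Supp P) (hy : x ∈ Supp Q) :
    x ∈ Supp (fun m => P m ∧ Q m) := by
  rw [mem_Supp] at hx hy ⊢
  exact fun m hm => ⟨hx m hm, hy m hm⟩

lemma mem_Supp_true (x : Ch V) : x ∈ Supp (fun _ => True) := by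
  rw [mem_Supp]; intros; trivial

lemma mem_Supp_self (x : Ch V) : x ∈ Supp (fun m => x.coeff m ≠ 0) := by
  rw [mem_Supp]; exact fun m hm => hm

section maps
variable {M : Type*} [AddCommMonoid M] [Module F2 M]

lemma map_mem {P : Multiset V → Prop} (T : Ch V →ₗ[F2] M) (U : Submodule F2 M)
    (h : ∀ m, P m → T (bas m) ∈ U) {x : Ch V} (hx : x ∈ Supp P) : T x ∈ U := by
  induction hx using Submodule.span_induction with
  | mem x hx => obtain ⟨m, hm, rfl⟩ := hx; exact h m hm
  | zero => simp
  | add x y _ _ hx hy => rw [map_add]; exact U.add_mem hx hy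
  | smul a x _ hx => rw [map_smul]; exact U.smul_mem a hx

lemma eq_on {P : Multiset V → Prop} (T T' : Ch V →ₗ[F2] M)
    (h : ∀ m, P m → T (bas m) = T' (bas m)) {x : Ch V} (hx : x ∈ Supp P) : T x = T' x := by
  induction hx using Submodule.span_induction with
  | mem x hx => obtain ⟨m, hm, rfl⟩ := hx; exact h m hm
  | zero => simp
  | add x y _ _ hx hy => rw [map_add, map_add, hx, hy]
  | smul a x _ hx => rw [map_smul, map_smul, hx]

lemma eq_all (T T' : Ch V →ₗ[F2] M) (h : ∀ m, T (bas m) = T' (bas m)) (x : Ch V) : T x = T' x :=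
  eq_on T T' (fun m _ => h m) (mem_Supp_true x)

lemma exists_of_ne_zero {P : Multiset V → Prop} (T : Ch V →ₗ[F2] M) {x : Ch V} (hx : x ∈ Supp P)
    (h : T x ≠ 0) : ∃ m, P m ∧ T (bas m) ≠ 0 := by
  by_contra hc
  push Not at hc
  exact h (eq_on T 0 (fun m hm => by simpa using hc m hm) hx)

lemma map_lift {M' : Type*} [AddCommMonoid M'] [Module F2 M'] (T : M →ₗ[F2] M')
    (f : Multiset V → M) (x : Ch V) : T (lift f x) = lift (fun m => T (f m)) x :=
  eq_all (T ∘ₗ lift f) _ (fun m => by simp) x

lemma lift_congr {P : Multiset V → Prop} {f g : Multiset V → M} (h : ∀ m, P m → f m = g m)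
    {x : Ch V} (hx : x ∈ Supp P) : lift f x = lift g x :=
  eq_on _ _ (fun m hm => by simpa using h m hm) hx

lemma lift_add (f g : Multiset V → M) (x : Ch V) :
    lift (fun m => f m + g m) x = lift f x + lift g x :=
  eq_all _ (lift f + lift g) (fun m => by simp) x

lemma lift_smul (a : F2) (f : Multiset V → M) (x : Ch V) :
    lift (fun m => a • f m) x = a • lift f x :=
  eq_all _ (a • lift f) (fun m => by simp) x

lemma lift_zero (x : Ch V) : lift (fun _ => (0 : M)) x = 0 :=
  eq_all _ 0 (fun m => by simp) x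

lemma lift_eq (T : Ch V →ₗ[F2] M) (x : Ch V) : lift (fun m => T (bas m)) x = T x :=
  eq_all _ _ (fun m => by simp) x

lemma lift_comm (f : Multiset V → Multiset W → M) (x : Ch V) (y : Ch W) :
    lift (fun a => lift (fun b => f a b) y) x = lift (fun b => lift (fun a => f a b) x) y := by
  simp only [lift_apply, Finsupp.sum, Finset.smul_sum]
  rw [Finset.sum_comm]
  refine Finset.sum_congr rfl fun b _ => Finset.sum_congr rfl fun a _ => ?_
  rw [smul_comm]

end maps

lemma mul_mem {P Q R : Multiset V → Prop} (h : ∀ m n, P m → Q n → R (m + n)) {x y : Ch V}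
    (hx : x ∈ Supp P) (hy : y ∈ Supp Q) : x * y ∈ Supp R := by
  refine map_mem (LinearMap.mulRight F2 y) (Supp R) (fun m hm => ?_) hx
  refine map_mem (LinearMap.mulLeft F2 (bas m)) (Supp R) (fun n hn => ?_) hy
  simp only [LinearMap.mulLeft_apply]
  rw [← bas_add]
  exact bas_mem (h m n hm hn)

/-- The boundary operator. -/
def d : Ch V →ₗ[F2] Ch V := lift fun m => (m.map fun v => bas (m.erase v)).sum

lemma d_bas (m : Multiset V) : d (bas m) = (m.map fun v => bas (m.erase v)).sum := by
  simp [d]

lemma d_one : d (1 : Ch V) = 0 := by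
  rw [← bas_zero, d_bas]; simp

lemma d_cons (v : V) (m : Multiset V) : d (bas (v ::ₘ m)) = bas m + bas {v} * d (bas m) := by
  rw [d_bas, d_bas, Multiset.map_cons, Multiset.sum_cons, Multiset.erase_cons_head,
    ← Multiset.sum_map_mul_left]
  congr 2
  refine Multiset.map_congr rfl fun w hw => ?_
  rw [← bas_cons]
  congr 1
  by_cases h : v = w
  · subst h
    rw [Multiset.erase_cons_head, Multiset.cons_erase hw]
  · rw [Multiset.erase_cons_tail _ h]

lemma d_single (v : V) : d (bas {v}) = 1 := by
  have := d_cons v 0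
  rw [bas_zero, d_one] at this
  simpa using this

lemma d_single_mul (v : V) (x : Ch V) : d (bas {v} * x) = x + bas {v} * d x := by
  have := eq_all (d ∘ₗ LinearMap.mulLeft F2 (bas ({v} : Multiset V)))
    (LinearMap.mulLeft F2 (bas ({v} : Multiset V)) ∘ₗ d + LinearMap.id)
    (fun m => by simp [← bas_cons, d_cons, add_comm]) x
  rw [add_comm]
  exact this

lemma d_bas_mul (m : Multiset V) (x : Ch V) : d (bas m * x) = d (bas m) * x + bas m * d x := by
  induction m using Multiset.induction_on with
  | empty => simp [bas_zero, d_one]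
  | cons v m ih =>
    rw [d_cons, bas_cons, mul_assoc, d_single_mul, ih]
    ring

lemma d_mul (x y : Ch V) : d (x * y) = d x * y + x * d y :=
  eq_all (d ∘ₗ LinearMap.mulRight F2 y)
    (LinearMap.mulRight F2 y ∘ₗ d + LinearMap.mulRight F2 (d y))
    (fun m => by simp [d_bas_mul]) x

lemma d_d (x : Ch V) : d (d x) = 0 := by
  refine eq_all (d ∘ₗ d) 0 (fun m => ?_) x
  simp only [LinearMap.comp_apply, LinearMap.zero_apply]
  induction m using Multiset.induction_on with
  | empty => simp [bas_zero, d_one]
  | cons v m ih =>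
    rw [d_cons, map_add, d_single_mul, ih]
    simp [add_self]

lemma d_bas_mem (m : Multiset V) : d (bas m) ∈ Supp (fun e => ∃ v, m = v ::ₘ e) := by
  rw [d_bas]
  refine multiset_sum_mem _ fun x hx => ?_
  obtain ⟨v, hv, rfl⟩ := Multiset.mem_map.1 hx
  exact bas_mem ⟨v, (Multiset.cons_erase hv).symm⟩

lemma d_mem {P Q : Multiset V → Prop} (h : ∀ v e, P (v ::ₘ e) → Q e) {x : Ch V}
    (hx : x ∈ Supp P) : d x ∈ Supp Q :=
  map_mem d _ (fun m hm => Supp_mono (fun e ⟨v, hv⟩ => h v e (hv ▸ hm)) (d_bas_mem m)) hx

/-- Push-forward along a vertex map. -/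
def push (f : V → W) : Ch V →ₗ[F2] Ch W := lift fun m => bas (m.map f)

@[simp] lemma push_bas (f : V → W) (m : Multiset V) : push f (bas m) = bas (m.map f) := by
  simp [push]

lemma push_mul (f : V → W) (x y : Ch V) : push f (x * y) = push f x * push f y := by
  refine eq_all (push f ∘ₗ LinearMap.mulRight F2 y) (LinearMap.mulRight F2 (push f y) ∘ₗ push f)
    (fun m => ?_) x
  refine eq_all (push f ∘ₗ LinearMap.mulLeft F2 (bas m))
    (LinearMap.mulLeft F2 (push f (bas m)) ∘ₗ push f) (fun n => ?_) y
  simp [← bas_add]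

lemma d_push (f : V → W) (x : Ch V) : d (push f x) = push f (d x) := by
  refine eq_all (d ∘ₗ push f) (push f ∘ₗ d) (fun m => ?_) x
  simp only [LinearMap.comp_apply, push_bas]
  induction m using Multiset.induction_on with
  | empty => simp [bas_zero, d_one]
  | cons v m ih =>
    rw [Multiset.map_cons, d_cons, d_cons, map_add, push_mul, ih]
    simp

lemma push_push {U : Type*} (f : V → W) (g : W → U) (x : Ch V) :
    push g (push f x) = push (g ∘ f) x :=
  eq_all (push g ∘ₗ push f) _ (fun m => by simp) x

lemma push_id (x : Ch V) : push id x = x :=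
  eq_all _ LinearMap.id (fun m => by simp) x

lemma push_mem {P : Multiset V → Prop} {Q : Multiset W → Prop} (f : V → W)
    (h : ∀ m, P m → Q (m.map f)) {x : Ch V} (hx : x ∈ Supp P) : push f x ∈ Supp Q :=
  map_mem (push f) _ (fun m hm => by simpa using bas_mem (h m hm)) hx

lemma lift_push {M : Type*} [AddCommMonoid M] [Module F2 M] (g : Multiset W → M) (f : V → W)
    (x : Ch V) : lift g (push f x) = lift (fun m => g (m.map f)) x :=
  eq_all (lift g ∘ₗ push f) _ (fun m => by simp) x

/-- Selecting part of a chain. -/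
def sel (S : Multiset V → F2) : Ch V →ₗ[F2] Ch V := lift fun m => S m • bas m

@[simp] lemma sel_bas (S : Multiset V → F2) (m : Multiset V) : sel S (bas m) = S m • bas m := by
  simp [sel]

lemma sel_mem {P : Multiset V → Prop} (S : Multiset V → F2) {x : Ch V} (hx : x ∈ Supp P) :
    sel S x ∈ Supp (fun m => P m ∧ S m = 1) := by
  refine map_mem (sel S) _ (fun m hm => ?_) hx
  rcases f2_cases (S m) with h | h
  · simp [h]
  · simpa [h] using bas_mem (P := fun m => P m ∧ S m = 1) ⟨hm, h⟩

lemma sel_mem' {P : Multiset V → Prop} (S : Multiset V → F2) {x : Ch V} (hx : x ∈ Supp P) :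
    sel S x ∈ Supp P :=
  Supp_mono (fun _ h => h.1) (sel_mem S hx)

lemma sel_add_one (S : Multiset V → F2) (x : Ch V) : sel (fun m => S m + 1) x = sel S x + x :=
  eq_all _ (sel S + LinearMap.id) (fun m => by simp [add_smul]) x

lemma sel_split {P : Multiset V → Prop} {τ : V → V} (hτ : Function.Involutive τ)
    {S : Multiset V → F2} (hS : ∀ m, P m → S (m.map τ) = S m + 1) {x : Ch V} (hx : x ∈ Supp P) :
    sel S x + push τ (sel S (push τ x)) = x := by
  refine eq_on (sel S + push τ ∘ₗ sel S ∘ₗ push τ) LinearMap.id (fun m hm => ?_) hx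
  have h1 : (m.map τ).map τ = m := by
    rw [Multiset.map_map, hτ.comp_self, Multiset.map_id]
  simp only [LinearMap.add_apply, LinearMap.comp_apply, push_bas, sel_bas, map_smul, h1,
    LinearMap.id_apply, hS m hm]
  rw [← add_smul, ← add_assoc, f2_add_self, zero_add, one_smul]

lemma exists_sign {Q : Type*} (ρ : Q → Q) (hρ : Function.Involutive ρ) :
    ∃ s : Q → F2, ∀ q, ρ q ≠ q → s (ρ q) = s q + 1 := by
  obtain ⟨inst, -⟩ := exists_wellFoundedLT Q
  refine ⟨fun q => if q < ρ q then 1 else 0, fun q hq => ?_⟩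
  simp only [hρ q]
  rcases lt_or_gt_of_ne hq with h | h
  · simp [h, not_lt.2 h.le]
  · simp [h, not_lt.2 h.le]
    rfl

/-- The coefficient functional. -/
def co (T : Multiset V) : Ch V →ₗ[F2] F2 := lift fun m => if m = T then 1 else 0

lemma co_bas (T m : Multiset V) : co T (bas m) = if m = T then 1 else 0 := by simp [co]

lemma co_eq (T : Multiset V) (x : Ch V) : co T x = x.coeff T := by
  refine eq_all (co T) (Finsupp.lapply T ∘ₗ (AddMonoidAlgebra.coeffLinearEquiv F2).toLinearMap)
    (fun m => ?_) x
  rw [co_bas]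
  simp [bas, Finsupp.single_apply]

/-- Coefficient of a squarefree monomial in a boundary. -/
lemma co_d [Fintype V] {E : Multiset V} (hE : E.Nodup) (x : Ch V) :
    co E (d x) = ∑ q ∈ Finset.univ.filter (fun q => q ∉ E), co (q ::ₘ E) x := by
  have key : ∀ m : Multiset V, co E (d (bas m)) =
      ∑ q ∈ Finset.univ.filter (fun q => q ∉ E), co (q ::ₘ E) (bas m) := by
    intro m
    rw [d_bas, map_multiset_sum, Multiset.map_map]
    by_cases hm : ∃ q, m = q ::ₘ E
    · obtain ⟨q, rfl⟩ := hm
      have h1 : ∀ v ∈ q ::ₘ E, (co E ∘ fun v => bas ((q ::ₘ E).erase v)) v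
          = if v = q then 1 else 0 := by
        intro v hv
        simp only [Function.comp, co_bas]
        congr 1
        apply propext
        constructor
        · intro h
          have h2 := Multiset.cons_erase hv
          rw [h] at h2
          exact (Multiset.cons_inj_left E).1 h2
        · rintro rfl
          simp
      rw [Multiset.map_congr rfl h1]
      have h2 : ∀ r : V, co (r ::ₘ E) (bas (q ::ₘ E)) = if r = q then 1 else 0 := by
        intro r
        rw [co_bas]
        congr 1
        apply propext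
        rw [Multiset.cons_inj_left, eq_comm]
      simp only [h2, Finset.sum_ite_eq', Finset.mem_filter, Finset.mem_univ, true_and]
      have h3 : ∀ s : Multiset V, (s.map fun v => if v = q then (1 : F2) else 0).sum
          = (s.count q : F2) := by
        intro s
        induction s using Multiset.induction_on with
        | empty => simp
        | cons a s ih =>
          rw [Multiset.map_cons, Multiset.sum_cons, ih, Multiset.count_cons]
          by_cases h : a = q
          · simp [h, add_comm]
          · simp [h, Ne.symm h]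
      rw [h3, Multiset.count_cons_self]
      by_cases hq : q ∈ E
      · rw [Multiset.count_eq_one_of_mem hE hq]
        simp [hq]
        rfl
      · simp [hq]
    · push Not at hm
      rw [Finset.sum_eq_zero fun q _ => by simp [co_bas, hm q]]
      refine Multiset.sum_eq_zero fun y hy => ?_
      obtain ⟨v, hv, rfl⟩ := Multiset.mem_map.1 hy
      simp only [Function.comp, co_bas]
      rw [if_neg]
      intro h
      exact hm v (by rw [← h, Multiset.cons_erase hv])
  have := eq_all (co E ∘ₗ d) (∑ q ∈ Finset.univ.filter (fun q => q ∉ E), co (q ::ₘ E))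
    (fun m => by simpa [LinearMap.sum_apply] using key m) x
  simpa [LinearMap.sum_apply] using this

/-! ### Prisms -/

def prism (f g : V → W) : ℕ → (Ch V →ₗ[F2] Ch W)
  | 0 => 0
  | k + 1 => lift fun m => if h : ∃ p, p ∈ m then
      bas {f h.choose} * (push f (bas m) + push g (bas m) + prism f g k (d (bas m))) else 0

lemma d_prism (f g : V → W) (k : ℕ) : ∀ x ∈ Supp (fun m : Multiset V => m.card = k),
    d (prism f g k x) = push f x + push g x + prism f g (k - 1) (d x) := by
  induction k with
  | zero =>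
    intro x hx
    refine eq_on (d ∘ₗ prism f g 0) (push f + push g + prism f g 0 ∘ₗ d) (fun m hm => ?_) hx
    obtain rfl := Multiset.card_eq_zero.1 hm
    simp [prism, add_self]
  | succ k ih =>
    intro x hx
    refine eq_on (d ∘ₗ prism f g (k + 1)) (push f + push g + prism f g k ∘ₗ d) (fun m hm => ?_) hx
    have hex : ∃ p, p ∈ m := Multiset.card_pos_iff_exists_mem.1 (by omega)
    have hd : d (bas m) ∈ Supp (fun m : Multiset V => m.card = k) :=
      d_mem (P := fun e => e = m) (fun v e h => by
        have := congrArg Multiset.card h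
        rw [Multiset.card_cons, hm] at this
        omega) (bas_mem rfl)
    have h1 := ih _ hd
    simp only [LinearMap.comp_apply, LinearMap.add_apply, prism, lift_bas, dif_pos hex]
    rw [d_single_mul, map_add, map_add, h1, d_push, d_push, d_d, map_zero, add_zero, add_self,
      mul_zero, add_zero]

lemma prism_mem (f g : V → W) (k : ℕ) : ∀ m : Multiset V, m.card = k →
    prism f g k (bas m) ∈
      Supp (fun n => n.card = k + 1 ∧ ∀ v ∈ n, ∃ p ∈ m, v = f p ∨ v = g p) := by
  induction k with
  | zero => intro m _; simp [prism]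
  | succ k ih =>
    intro m hm
    have hex : ∃ p, p ∈ m := Multiset.card_pos_iff_exists_mem.1 (by omega)
    simp only [prism, lift_bas, dif_pos hex]
    refine mul_mem (P := fun e => e = {f hex.choose})
      (Q := fun n => n.card = k + 1 ∧ ∀ v ∈ n, ∃ p ∈ m, v = f p ∨ v = g p) ?_ (bas_mem rfl) ?_
    · rintro _ n rfl ⟨hn, hn'⟩
      refine ⟨by simp [hn, add_comm], fun v hv => ?_⟩
      rcases Multiset.mem_add.1 hv with h | h
      · exact ⟨_, hex.choose_spec, Or.inl (Multiset.mem_singleton.1 h)⟩
      · exact hn' v h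
    · refine Submodule.add_mem _ (Submodule.add_mem _ ?_ ?_) ?_
      · rw [push_bas]
        refine bas_mem ⟨by simp [hm], fun v hv => ?_⟩
        obtain ⟨p, hp, rfl⟩ := Multiset.mem_map.1 hv
        exact ⟨p, hp, Or.inl rfl⟩
      · rw [push_bas]
        refine bas_mem ⟨by simp [hm], fun v hv => ?_⟩
        obtain ⟨p, hp, rfl⟩ := Multiset.mem_map.1 hv
        exact ⟨p, hp, Or.inr rfl⟩
      · refine map_mem (prism f g k) _ (fun e ⟨v, hv⟩ => ?_) (d_bas_mem m)
        have he : e.card = k := by
          have := congrArg Multiset.card hv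
          rw [Multiset.card_cons, hm] at this
          omega
        refine Supp_mono (fun n ⟨hn, hn'⟩ => ⟨hn, fun w hw => ?_⟩) (ih e he)
        obtain ⟨p, hp, h⟩ := hn' w hw
        exact ⟨p, hv ▸ Multiset.mem_cons_of_mem hp, h⟩

lemma exists_prism (f g : V → W) {k : ℕ} {P : Multiset V → Prop} {Q : Multiset W → Prop}
    (hQ : ∀ m n, P m → (∀ v ∈ n, ∃ p ∈ m, v = f p ∨ v = g p) → Q n)
    {z : Ch V} (hz : z ∈ Supp (fun m => m.card = k ∧ P m)) (hd : d z = 0) :
    ∃ u ∈ Supp (fun n => n.card = k + 1 ∧ Q n), d u = push f z + push g z := by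
  refine ⟨prism f g k z, ?_, ?_⟩
  · refine map_mem (prism f g k) _ (fun m hm => ?_) hz
    exact Supp_mono (fun n hn => ⟨hn.1, hQ m n hm.2 hn.2⟩) (prism_mem f g k m hm.1)
  · rw [d_prism f g k z (Supp_mono (fun m hm => hm.1) hz), hd, map_zero, add_zero]

end Crest.Agent.H1.Bor
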