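import Mathlib

/-! A small resolution checker, and the finite clauses about the nerve of a ten-colouring. -/

set_option autoImplicit false

noncomputable section

namespace Crest.Agent.H1.Bor

inductive Tr where
  | lf : ℕ → ℕ → Tr
  | nd : Tr → Tr → Tr

def Tr.get (t : Tr) : ℕ → ℕ × ℕ :=
  Tr.rec (fun c j _ => (c, j))
    (fun _ _ fl fr i => cond (Nat.beq (Nat.mod i 2) 0) (fl (Nat.div i 2)) (fr (Nat.div i 2))) t

def mkM (n : ℕ) : ℕ :=
  Nat.rec (motive := fun _ => ℕ → ℕ) (fun _ => 0)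
    (fun _ r n => cond (Nat.beq n 0) 0
      (Nat.lor (Nat.shiftLeft 1 (Nat.mod n 4096)) (r (Nat.div n 4096)))) 64 n

def db (t : Tr) (i : ℕ) : ℕ := mkM (t.get i).1

def clr (a l : ℕ) : ℕ := Nat.xor (Nat.lor a (Nat.shiftLeft 1 l)) (Nat.shiftLeft 1 l)

def res (a b l : ℕ) : ℕ := Nat.lor (clr a (Nat.xor l 1)) (clr b l)

def runC (t : Tr) (i : ℕ) (fuel : ℕ) : ℕ → ℕ → Bool :=
  Nat.rec (motive := fun _ => ℕ → ℕ → Bool) (fun _ _ => false)
    (fun _ r n acc => cond (Nat.beq n 0) (Nat.beq (Nat.lor acc (db t i)) (db t i))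
      (and (Nat.blt (Nat.mod n 65536) i)
        (r (Nat.div n 268435456) (res acc (db t (Nat.mod n 65536))
          (Nat.mod (Nat.div n 65536) 4096))))) fuel

def chk1 (ok : ℕ → Bool) (ax : ℕ → ℕ) (t : Tr) (K i : ℕ) : Bool :=
  cond (Nat.ble K i) true
    (cond (Nat.beq (Nat.mod (t.get i).2 2) 0)
      (and (ok (Nat.div (t.get i).2 2))
        (Nat.beq (Nat.lor (ax (Nat.div (t.get i).2 2)) (db t i)) (db t i)))
      (and (Nat.blt (Nat.mod (Nat.div (t.get i).2 2) 65536) i)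
        (runC t i 1000 (Nat.div (t.get i).2 131072) (db t (Nat.mod (Nat.div (t.get i).2 2) 65536)))))

def allR (f : ℕ → Bool) (dep : ℕ) : ℕ → Bool :=
  Nat.rec (motive := fun _ => ℕ → Bool) f
    (fun _ r lo => and (r (Nat.mul 2 lo)) (r (Nat.succ (Nat.mul 2 lo)))) dep

lemma allR_spec (f : ℕ → Bool) (dep : ℕ) : ∀ lo, allR f dep lo = true →
    ∀ i, i / 2 ^ dep = lo → f i = true := by
  induction dep with
  | zero => intro lo h i hi; simp at hi; exact hi ▸ h
  | succ n ih =>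
    intro lo h i hi
    have h' : (allR f n (2 * lo) && allR f n (2 * lo + 1)) = true := h
    rw [Bool.and_eq_true] at h'
    rw [pow_succ, ← Nat.div_div_eq_div_mul] at hi
    rcases Nat.mod_two_eq_zero_or_one (i / 2 ^ n) with h2 | h2
    · exact ih _ h'.1 i (by omega)
    · exact ih _ h'.2 i (by omega)

def lit (v : ℕ → Prop) (l : ℕ) : Prop := if l % 2 = 0 then v (l / 2) else ¬ v (l / 2)

def Sat (v : ℕ → Prop) (c : ℕ) : Prop := ∃ l, c.testBit l = true ∧ lit v l

lemma lit_xor {v : ℕ → Prop} {l : ℕ} (h : lit v l) (h' : lit v (l ^^^ 1)) : False := by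
  have h1 : (l ^^^ 1) / 2 = l / 2 := by rw [Nat.xor_div_two]; simp
  have h2 : (l ^^^ 1) % 2 = 1 ↔ ¬ (l % 2 = 1) := by
    rw [Nat.xor_mod_two_eq_one]; simp
  unfold lit at h h'
  rw [h1] at h'
  split_ifs at h h' with a b b
  · omega
  · exact h' h
  · exact h h'
  · omega

lemma testBit_clr {a l k : ℕ} (h : a.testBit k = true) (hk : k ≠ l) : (clr a l).testBit k = true := by
  have : clr a l = (a ||| 1 <<< l) ^^^ 1 <<< l := rfl
  rw [this, Nat.one_shiftLeft, Nat.testBit_xor, Nat.testBit_or, h, Nat.testBit_two_pow_of_ne hk.symm]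
  rfl

lemma Sat.res {v : ℕ → Prop} {a b : ℕ} (ha : Sat v a) (hb : Sat v b) (l : ℕ) :
    Sat v (res a b l) := by
  obtain ⟨x, hx, hx'⟩ := ha
  obtain ⟨y, hy, hy'⟩ := hb
  have : Bor.res a b l = clr a (l ^^^ 1) ||| clr b l := rfl
  by_cases h1 : x = l ^^^ 1
  · by_cases h2 : y = l
    · exact (lit_xor (h2 ▸ hy') (h1 ▸ hx')).elim
    · exact ⟨y, by rw [this, Nat.testBit_or, testBit_clr hy h2, Bool.or_true], hy'⟩
  · exact ⟨x, by rw [this, Nat.testBit_or, testBit_clr hx h1, Bool.true_or], hx'⟩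

lemma Sat.sub {v : ℕ → Prop} {a b : ℕ} (ha : Sat v a) (h : Nat.beq (Nat.lor a b) b = true) :
    Sat v b := by
  obtain ⟨x, hx, hx'⟩ := ha
  have h1 : a ||| b = b := Nat.eq_of_beq_eq_true h
  exact ⟨x, by rw [← h1, Nat.testBit_or, hx, Bool.true_or], hx'⟩

lemma runC_sound {v : ℕ → Prop} {t : Tr} {i : ℕ} (ih : ∀ j < i, Sat v (db t j)) (fuel : ℕ) :
    ∀ n acc, Sat v acc → runC t i fuel n acc = true → Sat v (db t i) := by
  induction fuel with
  | zero => intro n acc _ h; exact absurd h (by simp [runC])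
  | succ f ihf =>
    intro n acc ha h
    have h' : (cond (Nat.beq n 0) (Nat.beq (Nat.lor acc (db t i)) (db t i))
      (and (Nat.blt (Nat.mod n 65536) i)
        (runC t i f (Nat.div n 268435456) (Bor.res acc (db t (Nat.mod n 65536))
          (Nat.mod (Nat.div n 65536) 4096))))) = true := h
    cases hn : Nat.beq n 0
    · rw [hn, cond_false, Bool.and_eq_true, Nat.blt_eq] at h'
      exact ihf _ _ (ha.res (ih _ h'.1) _) h'.2
    · rw [hn, cond_true] at h'
      exact ha.sub h'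

theorem chk_sound {v : ℕ → Prop} {ok : ℕ → Bool} {ax : ℕ → ℕ}
    (hax : ∀ code, ok code = true → Sat v (ax code)) {t : Tr} {K : ℕ}
    (h : ∀ i < K, chk1 ok ax t K i = true) : ∀ i < K, Sat v (db t i) := by
  intro i
  induction i using Nat.strong_induction_on with
  | _ i ih =>
    intro hi
    have h1 := h i hi
    have h2 : Nat.ble K i = false := by
      rw [← Bool.not_eq_true, Nat.ble_eq]; omega
    rw [chk1, h2, cond_false] at h1
    have ih' : ∀ j < i, Sat v (db t j) := fun j hj => ih j hj (by omega)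
    cases hn : Nat.beq (Nat.mod (t.get i).2 2) 0
    · rw [hn, cond_false, Bool.and_eq_true, Nat.blt_eq] at h1
      exact runC_sound ih' _ _ _ (ih' _ h1.1) h1.2
    · rw [hn, cond_true, Bool.and_eq_true] at h1
      exact (hax _ h1.1).sub h1.2

lemma not_Sat_zero (v : ℕ → Prop) : ¬ Sat v 0 := by
  rintro ⟨l, h, -⟩
  simp at h

/-! ### The clauses -/

def Cov (a b c d e f g h i j : Fin 10) : Prop := ∀ x, x ∈ [a, b, c, d, e, f, g, h, i, j]

structure Hyp (N : Finset (Fin 10) → Prop) : Prop where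
  h0 : ∀ a b c d, N {a, b, c, d} → N {a, b, c}
  h1 : ∀ a b c d e f g h i j, Cov a b c d e f g h i j → N {a, b, c, d} → ¬ N {e, f, g, h}
  h2 : ∀ a b c d e f g h i j, Cov a b c d e f g h i j → N {a, b, c, d} → N {e, f, g} ∨ N {h, i, j}
  h3 : ∀ a b c d e f g h i j, Cov a b c d e f g h i j → N {a, b, c, d} → N {e, f, g} →
    ¬ N {h, i, j}
  h4 : ∀ a b c d e f g h i j, Cov a b c d e f g h i j → N {a, b, c, d} → N {e, f, g} →
    N {e, f, h} ∨ N {e, f, i} ∨ N {e, f, j}
  h5 : ∀ a b c d e f g h i j, Cov a b c d e f g h i j → N {a, b, c, d} → N {e, f, g} →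
    N {e, f, h} → N {e, f, i} → N {e, f, j}
  h6 : ∀ a b c d e f g h i j, Cov a b c d e f g h i j → N {a, b, c, d} → N {e, f, g} →
    N {e, f, g, a} ∨ N {e, f, g, b} ∨ N {e, f, g, c} ∨ N {e, f, g, d}

def Hyp7 (N : Finset (Fin 10) → Prop) : Prop :=
  ∀ a b c d e f g h i j, Cov a b c d e f g h i j → N {a, b, c, d} → ¬ N {a, b, e, f}

def toSet (n : ℕ) : Finset (Fin 10) := Finset.univ.filter fun x => n.testBit x.val = true

def bt (a : Fin 10) : ℕ := Nat.shiftLeft 1 a.val

def m3 (a b c : Fin 10) : ℕ := Nat.lor (bt a) (Nat.lor (bt b) (bt c))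

def m4 (a b c d : Fin 10) : ℕ := Nat.lor (bt a) (m3 b c d)

lemma testBit_bt (a x : Fin 10) : (bt a).testBit x.val = decide (x = a) := by
  have : bt a = 1 <<< a.val := rfl
  rw [this, Nat.one_shiftLeft, Nat.testBit_two_pow]
  simp [Fin.ext_iff, eq_comm]

lemma lor_eq (a b : ℕ) : Nat.lor a b = a ||| b := rfl

lemma toSet_m3 (a b c : Fin 10) : toSet (m3 a b c) = {a, b, c} := by
  ext x; simp [toSet, m3, testBit_bt]

lemma toSet_m4 (a b c d : Fin 10) : toSet (m4 a b c d) = {a, b, c, d} := by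
  ext x; simp [toSet, m4, m3, testBit_bt]

def pl (m : ℕ) : ℕ := Nat.shiftLeft 1 (Nat.mul 2 m)

def nl (m : ℕ) : ℕ := Nat.shiftLeft 1 (Nat.succ (Nat.mul 2 m))

lemma Sat_lor {v : ℕ → Prop} {a b : ℕ} (h : Sat v a ∨ Sat v b) : Sat v (Nat.lor a b) := by
  rcases h with ⟨x, hx, hx'⟩ | ⟨x, hx, hx'⟩
  · exact ⟨x, by rw [lor_eq, Nat.testBit_or, hx, Bool.true_or], hx'⟩
  · exact ⟨x, by rw [lor_eq, Nat.testBit_or, hx, Bool.or_true], hx'⟩

lemma Sat_pl {v : ℕ → Prop} {m : ℕ} (h : v m) : Sat v (pl m) := by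
  refine ⟨2 * m, ?_, ?_⟩
  · have : pl m = 1 <<< (2 * m) := rfl
    rw [this, Nat.one_shiftLeft, Nat.testBit_two_pow_self]
  · simpa [lit] using h

lemma Sat_nl {v : ℕ → Prop} {m : ℕ} (h : ¬ v m) : Sat v (nl m) := by
  refine ⟨2 * m + 1, ?_, ?_⟩
  · have : nl m = 1 <<< (2 * m + 1) := rfl
    rw [this, Nat.one_shiftLeft, Nat.testBit_two_pow_self]
  · have h1 : (2 * m + 1) / 2 = m := by omega
    simpa [lit, h1] using h

lemma Sat_imp {v : ℕ → Prop} {m a : ℕ} (h : v m → Sat v a) : Sat v (Nat.lor (nl m) a) := by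
  by_cases hm : v m
  · exact Sat_lor (Or.inr (h hm))
  · exact Sat_lor (Or.inl (Sat_nl hm))

def axc (t : ℕ) (a b c d e f g h i j : Fin 10) : ℕ :=
  cond (Nat.beq t 0) (Nat.lor (nl (m4 a b c d)) (pl (m3 a b c))) <|
  cond (Nat.beq t 1) (Nat.lor (nl (m4 a b c d)) (nl (m4 e f g h))) <|
  cond (Nat.beq t 2) (Nat.lor (nl (m4 a b c d)) (Nat.lor (pl (m3 e f g)) (pl (m3 h i j)))) <|
  cond (Nat.beq t 3) (Nat.lor (nl (m4 a b c d)) (Nat.lor (nl (m3 e f g)) (nl (m3 h i j)))) <|
  cond (Nat.beq t 4) (Nat.lor (nl (m4 a b c d)) (Nat.lor (nl (m3 e f g))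
    (Nat.lor (pl (m3 e f h)) (Nat.lor (pl (m3 e f i)) (pl (m3 e f j)))))) <|
  cond (Nat.beq t 5) (Nat.lor (nl (m4 a b c d)) (Nat.lor (nl (m3 e f g))
    (Nat.lor (nl (m3 e f h)) (Nat.lor (nl (m3 e f i)) (pl (m3 e f j)))))) <|
  cond (Nat.beq t 6) (Nat.lor (nl (m4 a b c d)) (Nat.lor (nl (m3 e f g))
    (Nat.lor (pl (m4 e f g a)) (Nat.lor (pl (m4 e f g b))
      (Nat.lor (pl (m4 e f g c)) (pl (m4 e f g d))))))) <|
  cond (Nat.beq t 7) (pl (m4 0 1 2 3)) <|
  cond (Nat.beq t 8) (pl (m4 0 1 4 5)) (Nat.lor (nl (m4 a b c d)) (nl (m4 a b e f)))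

def dg (code k : ℕ) : Fin 10 := Fin.ofNat 10 (Nat.mod (Nat.shiftRight code k) 16)

def axF (code : ℕ) : ℕ :=
  axc (Nat.mod code 16) (dg code 4) (dg code 8) (dg code 12) (dg code 16) (dg code 20) (dg code 24)
    (dg code 28) (dg code 32) (dg code 36) (dg code 40)

def okF (bad : ℕ) (code : ℕ) : Bool :=
  and (and (Nat.blt (Nat.mod code 16) 10) (not (Nat.beq (Nat.mod code 16) bad)))
    (Nat.beq (Nat.lor (m4 (dg code 4) (dg code 8) (dg code 12) (dg code 16))
      (Nat.lor (m3 (dg code 20) (dg code 24) (dg code 28))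
        (m3 (dg code 32) (dg code 36) (dg code 40)))) 1023)

lemma cov_of_eq {a b c d e f g h i j : Fin 10}
    (hh : Nat.beq (Nat.lor (m4 a b c d) (Nat.lor (m3 e f g) (m3 h i j))) 1023 = true) :
    Cov a b c d e f g h i j := by
  intro x
  have h1 := Nat.eq_of_beq_eq_true hh
  have h2 : (1023 : ℕ).testBit x.val = true := by revert x; decide
  rw [← h1] at h2
  simpa [m4, m3, lor_eq, testBit_bt, or_assoc] using h2

lemma axc_sound {N : Finset (Fin 10) → Prop} (H : Hyp N) (hu : N {0, 1, 2, 3}) {t : ℕ}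
    (ht : t < 10) (h8 : t = 8 → N {0, 1, 4, 5}) (h9 : t = 9 → Hyp7 N)
    {a b c d e f g h i j : Fin 10} (hc : Cov a b c d e f g h i j) :
    Sat (fun m => N (toSet m)) (axc t a b c d e f g h i j) := by
  have ht' : t = 0 ∨ t = 1 ∨ t = 2 ∨ t = 3 ∨ t = 4 ∨ t = 5 ∨ t = 6 ∨ t = 7 ∨ t = 8 ∨ t = 9 := by
    omega
  rcases ht' with rfl | rfl | rfl | rfl | rfl | rfl | rfl | rfl | rfl | rfl
  · rw [axc, show Nat.beq 0 0 = true from rfl, cond_true]
    refine Sat_imp fun h1 => Sat_pl ?_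
    simp only [toSet_m3, toSet_m4] at *
    exact H.h0 _ _ _ _ h1
  · rw [axc, show Nat.beq 1 0 = false from rfl, cond_false, show Nat.beq 1 1 = true from rfl,
      cond_true]
    refine Sat_imp fun h1 => Sat_nl ?_
    simp only [toSet_m4] at *
    exact H.h1 _ _ _ _ _ _ _ _ _ _ hc h1
  · rw [axc, show Nat.beq 2 0 = false from rfl, cond_false, show Nat.beq 2 1 = false from rfl,
      cond_false, show Nat.beq 2 2 = true from rfl, cond_true]
    refine Sat_imp fun h1 => Sat_lor (Or.imp Sat_pl Sat_pl ?_)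
    simp only [toSet_m3, toSet_m4] at *
    exact H.h2 _ _ _ _ _ _ _ _ _ _ hc h1
  · rw [axc, show Nat.beq 3 0 = false from rfl, cond_false, show Nat.beq 3 1 = false from rfl,
      cond_false, show Nat.beq 3 2 = false from rfl, cond_false, show Nat.beq 3 3 = true from rfl,
      cond_true]
    refine Sat_imp fun h1 => Sat_imp fun h2 => Sat_nl ?_
    simp only [toSet_m3, toSet_m4] at *
    exact H.h3 _ _ _ _ _ _ _ _ _ _ hc h1 h2
  · rw [axc, show Nat.beq 4 0 = false from rfl, cond_false, show Nat.beq 4 1 = false from rfl,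
      cond_false, show Nat.beq 4 2 = false from rfl, cond_false, show Nat.beq 4 3 = false from rfl,
      cond_false, show Nat.beq 4 4 = true from rfl, cond_true]
    refine Sat_imp fun h1 => Sat_imp fun h2 =>
      Sat_lor (Or.imp Sat_pl (fun h => Sat_lor (Or.imp Sat_pl Sat_pl h)) ?_)
    simp only [toSet_m3, toSet_m4] at *
    exact H.h4 _ _ _ _ _ _ _ _ _ _ hc h1 h2
  · rw [axc, show Nat.beq 5 0 = false from rfl, cond_false, show Nat.beq 5 1 = false from rfl,
      cond_false, show Nat.beq 5 2 = false from rfl, cond_false, show Nat.beq 5 3 = false from rfl,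
      cond_false, show Nat.beq 5 4 = false from rfl, cond_false, show Nat.beq 5 5 = true from rfl,
      cond_true]
    refine Sat_imp fun h1 => Sat_imp fun h2 => Sat_imp fun h3 => Sat_imp fun h4 => Sat_pl ?_
    simp only [toSet_m3, toSet_m4] at *
    exact H.h5 _ _ _ _ _ _ _ _ _ _ hc h1 h2 h3 h4
  · rw [axc, show Nat.beq 6 0 = false from rfl, cond_false, show Nat.beq 6 1 = false from rfl,
      cond_false, show Nat.beq 6 2 = false from rfl, cond_false, show Nat.beq 6 3 = false from rfl,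
      cond_false, show Nat.beq 6 4 = false from rfl, cond_false, show Nat.beq 6 5 = false from rfl,
      cond_false, show Nat.beq 6 6 = true from rfl, cond_true]
    refine Sat_imp fun h1 => Sat_imp fun h2 =>
      Sat_lor (Or.imp Sat_pl (fun h => Sat_lor (Or.imp Sat_pl
        (fun h => Sat_lor (Or.imp Sat_pl Sat_pl h)) h)) ?_)
    simp only [toSet_m3, toSet_m4] at *
    exact H.h6 _ _ _ _ _ _ _ _ _ _ hc h1 h2
  · rw [axc, show Nat.beq 7 0 = false from rfl, cond_false, show Nat.beq 7 1 = false from rfl,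
      cond_false, show Nat.beq 7 2 = false from rfl, cond_false, show Nat.beq 7 3 = false from rfl,
      cond_false, show Nat.beq 7 4 = false from rfl, cond_false, show Nat.beq 7 5 = false from rfl,
      cond_false, show Nat.beq 7 6 = false from rfl, cond_false, show Nat.beq 7 7 = true from rfl,
      cond_true]
    refine Sat_pl ?_
    simp only [toSet_m4]
    exact hu
  · rw [axc, show Nat.beq 8 0 = false from rfl, cond_false, show Nat.beq 8 1 = false from rfl,
      cond_false, show Nat.beq 8 2 = false from rfl, cond_false, show Nat.beq 8 3 = false from rfl,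
      cond_false, show Nat.beq 8 4 = false from rfl, cond_false, show Nat.beq 8 5 = false from rfl,
      cond_false, show Nat.beq 8 6 = false from rfl, cond_false, show Nat.beq 8 7 = false from rfl,
      cond_false, show Nat.beq 8 8 = true from rfl, cond_true]
    refine Sat_pl ?_
    simp only [toSet_m4]
    exact h8 rfl
  · rw [axc, show Nat.beq 9 0 = false from rfl, cond_false, show Nat.beq 9 1 = false from rfl,
      cond_false, show Nat.beq 9 2 = false from rfl, cond_false, show Nat.beq 9 3 = false from rfl,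
      cond_false, show Nat.beq 9 4 = false from rfl, cond_false, show Nat.beq 9 5 = false from rfl,
      cond_false, show Nat.beq 9 6 = false from rfl, cond_false, show Nat.beq 9 7 = false from rfl,
      cond_false, show Nat.beq 9 8 = false from rfl, cond_false]
    refine Sat_imp fun h1 => Sat_nl ?_
    simp only [toSet_m4] at h1 ⊢
    exact h9 rfl _ _ _ _ _ _ _ _ _ _ hc h1

lemma okF_sound {N : Finset (Fin 10) → Prop} (H : Hyp N) (hu : N {0, 1, 2, 3}) {bad : ℕ}
    (h8 : bad ≠ 8 → N {0, 1, 4, 5}) (h9 : bad ≠ 9 → Hyp7 N) (code : ℕ)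
    (h : okF bad code = true) : Sat (fun m => N (toSet m)) (axF code) := by
  rw [okF, Bool.and_eq_true, Bool.and_eq_true, Nat.blt_eq] at h
  have h1 : Nat.mod code 16 ≠ bad := by
    intro h2
    have := h.1.2
    rw [h2] at this
    simp at this
  exact axc_sound H hu h.1.1 (fun h2 => h8 (h2 ▸ h1.symm)) (fun h2 => h9 (h2 ▸ h1.symm))
    (cov_of_eq h.2)

end Crest.Agent.H1.Bor
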