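import Crest.Agent.H1.BorDat1
import Crest.Agent.H1.BorDat2

/-! The clauses about the nerve are contradictory. -/

set_option autoImplicit false

namespace Crest.Agent.H1.Bor

lemma Cov.map {σ : Fin 10 → Fin 10} (hσ : Function.Surjective σ) {a b c d e f g h i j : Fin 10}
    (hc : Cov a b c d e f g h i j) :
    Cov (σ a) (σ b) (σ c) (σ d) (σ e) (σ f) (σ g) (σ h) (σ i) (σ j) := by
  intro x
  obtain ⟨y, rfl⟩ := hσ x
  exact List.mem_map_of_mem (f := σ) (hc y)

lemma Hyp.map {N : Finset (Fin 10) → Prop} (H : Hyp N) {σ : Fin 10 → Fin 10}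
    (hσ : Function.Surjective σ) : Hyp (fun s => N (s.image σ)) := by
  constructor <;> simp only [Finset.image_insert, Finset.image_singleton]
  · exact fun a b c d => H.h0 _ _ _ _
  · exact fun a b c d e f g h i j hc => H.h1 _ _ _ _ _ _ _ _ _ _ (hc.map hσ)
  · exact fun a b c d e f g h i j hc => H.h2 _ _ _ _ _ _ _ _ _ _ (hc.map hσ)
  · exact fun a b c d e f g h i j hc => H.h3 _ _ _ _ _ _ _ _ _ _ (hc.map hσ)
  · exact fun a b c d e f g h i j hc => H.h4 _ _ _ _ _ _ _ _ _ _ (hc.map hσ)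
  · exact fun a b c d e f g h i j hc => H.h5 _ _ _ _ _ _ _ _ _ _ (hc.map hσ)
  · exact fun a b c d e f g h i j hc => H.h6 _ _ _ _ _ _ _ _ _ _ (hc.map hσ)

lemma Hyp.hyp7 {N : Finset (Fin 10) → Prop} (H : Hyp N) : Hyp7 N := by
  intro a b c d e f g h i j hc h1 h2
  have hσ : Function.Surjective ![a, b, c, d, e, f, g, h, i, j] := by
    intro x
    have := hc x
    simp only [List.mem_cons, List.not_mem_nil, or_false] at this
    rcases this with rfl | rfl | rfl | rfl | rfl | rfl | rfl | rfl | rfl | rfl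
    exacts [⟨0, rfl⟩, ⟨1, rfl⟩, ⟨2, rfl⟩, ⟨3, rfl⟩, ⟨4, rfl⟩, ⟨5, rfl⟩, ⟨6, rfl⟩, ⟨7, rfl⟩,
      ⟨8, rfl⟩, ⟨9, rfl⟩]
  refine s1_false (okF_sound (H.map hσ) ?_ (fun _ => ?_) (fun h => absurd rfl h))
  · simp only [Finset.image_insert, Finset.image_singleton]
    exact h1
  · simp only [Finset.image_insert, Finset.image_singleton]
    exact h2

theorem Hyp.false {N : Finset (Fin 10) → Prop} (H : Hyp N) {a b c d : Fin 10}
    (hn : [a, b, c, d].Nodup) (h : N {a, b, c, d}) : False := by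
  have hinj : Function.Injective ![a, b, c, d] := List.nodup_ofFn.1 hn
  obtain ⟨σ, hσ⟩ := Equiv.Perm.exists_extending_pair _ _
    (Fin.castLE_injective (by norm_num : 4 ≤ 10)) hinj
  have H' := H.map σ.surjective
  refine s2_false (okF_sound H' ?_ (fun h => absurd rfl h) (fun _ => H'.hyp7))
  simp only [Finset.image_insert, Finset.image_singleton]
  have h0 : σ 0 = a := hσ 0
  have h1 : σ 1 = b := hσ 1
  have h2 : σ 2 = c := hσ 2
  have h3 : σ 3 = d := hσ 3
  rw [h0, h1, h2, h3]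
  exact h

end Crest.Agent.H1.Bor
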