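import Crest.Agent.H1.BorInv

/-! Generalised spheres of small mesh on `S³` and their cuts. -/

set_option autoImplicit false

noncomputable section

namespace Crest.Agent.H1.Bor

open Classical

abbrev E4 := EuclideanSpace ℝ (Fin 4)

abbrev S3 := Metric.sphere (0 : E4) 1

def ip (p q : S3) : ℝ := inner ℝ (p : E4) (q : E4)

lemma nrm (p : S3) : ‖(p : E4)‖ = 1 := by simp

lemma ip_comm (p q : S3) : ip p q = ip q p := real_inner_comm _ _

lemma ip_self (p : S3) : ip p p = 1 := by simp [ip]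

@[simp] lemma ip_neg_left (p q : S3) : ip (-p) q = - ip p q := by simp [ip]

@[simp] lemma ip_neg_right (p q : S3) : ip p (-q) = - ip p q := by simp [ip]

lemma ip_sub_le (a p q : S3) : |ip a p - ip a q| ≤ dist p q := by
  rw [ip, ip, ← inner_sub_right, Subtype.dist_eq, dist_eq_norm]
  simpa [nrm] using abs_real_inner_le_norm (a : E4) ((p : E4) - q)

lemma ip_sub_le2 (a b p q : S3) : |ip a p - ip b q| ≤ dist a b + dist p q := by
  have h1 := ip_sub_le a p q
  have h2 := ip_sub_le q a b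
  rw [ip_comm q a, ip_comm q b] at h2
  rw [abs_le] at *
  constructor <;> linarith

lemma ng_invol : Function.Involutive (Neg.neg : S3 → S3) := neg_neg

lemma neg_ne (p : S3) : -p ≠ p := fun h => by
  have h1 := ip_self p
  have h2 := ip_neg_left p p
  rw [h] at h2
  linarith

def s0 : S3 → F2 := (exists_sign (Neg.neg : S3 → S3) ng_invol).choose

lemma s0_neg (p : S3) : s0 (-p) = s0 p + 1 :=
  (exists_sign (Neg.neg : S3 → S3) ng_invol).choose_spec p (neg_ne p)

def LV : Type := S3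

instance : LinearOrder LV := (exists_wellFoundedLT LV).choose

def c0 (p : S3) : LV := if s0 p = 1 then p else (-p : S3)

lemma equi0 : Equi Neg.neg c0 s0 := by
  refine ⟨fun v => ?_, s0_neg⟩
  simp only [c0, s0_neg]
  rcases f2_cases (s0 v) with h | h
  · simp [h]
  · simp [h]

lemma NC0 {m : Multiset S3} (h : NA Neg.neg m) : NC c0 s0 m := by
  intro p hp q hq hc
  by_contra hne
  have : -p = q := by
    simp only [c0] at hc
    rcases f2_cases (s0 p) with h1 | h1 <;> rcases f2_cases (s0 q) with h2 | h2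
    · exact absurd (h1.trans h2.symm) hne
    · simp only [h1, h2, zero_ne_one, if_false, if_true] at hc
      exact hc
    · simp only [h1, h2, zero_ne_one, if_false, if_true] at hc
      have hc' : p = -q := hc
      rw [hc', neg_neg]
    · exact absurd (h1.trans h2.symm) hne
  exact h p hp (this ▸ hq)

def ind : Ch S3 →ₗ[F2] F2 := lift (altP c0 s0)

def Mesh (δ : ℝ) (m : Multiset S3) : Prop := ∀ p ∈ m, ∀ q ∈ m, dist p q ≤ δ

lemma Mesh.ip_ge {δ : ℝ} {m : Multiset S3} (h : Mesh δ m) {p q : S3} (hp : p ∈ m) (hq : q ∈ m) :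
    1 - δ ≤ ip p q := by
  have h1 := ip_sub_le p p q
  rw [ip_self] at h1
  have := h p hp q hq
  rw [abs_le] at h1
  linarith

lemma Mesh.NA {δ : ℝ} (hδ : δ ≤ 1) {m : Multiset S3} (h : Mesh δ m) : NA Neg.neg m := by
  intro p hp hq
  have := h.ip_ge hp hq
  rw [ip_neg_right, ip_self] at this
  linarith

lemma Mesh.of_cons {δ : ℝ} {v : S3} {m : Multiset S3} (h : Mesh δ (v ::ₘ m)) : Mesh δ m :=
  fun p hp q hq => h p (Multiset.mem_cons_of_mem hp) q (Multiset.mem_cons_of_mem hq)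

lemma Mesh.neg {δ : ℝ} {m : Multiset S3} (h : Mesh δ m) : Mesh δ (m.map Neg.neg) := by
  intro p hp q hq
  obtain ⟨p, hp', rfl⟩ := Multiset.mem_map.1 hp
  obtain ⟨q, hq', rfl⟩ := Multiset.mem_map.1 hq
  have := h p hp' q hq'
  rw [Subtype.dist_eq] at this ⊢
  simpa using this

def Gd (δ : ℝ) (Y : S3 → Prop) (k : ℕ) (m : Multiset S3) : Prop :=
  m.card = k ∧ Mesh δ m ∧ ∀ p ∈ m, Y p

structure Sph (δ : ℝ) (Y : S3 → Prop) (k : ℕ) (z : Ch S3) : Prop where
  supp : z ∈ Supp (Gd δ Y k)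
  inv : push Neg.neg z = z
  cyc : d z = 0
  ind : ind z = 1

lemma Sph.mono {δ : ℝ} {Y Y' : S3 → Prop} {k : ℕ} {z : Ch S3} (h : Sph δ Y k z)
    (hY : ∀ p, Y p → Y' p) : Sph δ Y' k z :=
  ⟨Supp_mono (fun _ hm => ⟨hm.1, hm.2.1, fun p hp => hY p (hm.2.2 p hp)⟩) h.supp, h.inv, h.cyc,
    h.ind⟩

lemma ind_add_push {δ : ℝ} (hδ : δ ≤ 1) {w : Ch S3} (hw : w ∈ Supp (Mesh δ)) :
    ind (w + push Neg.neg w) = ind (d w) := by
  have h : w ∈ Supp (NC c0 s0) := Supp_mono (fun m hm => NC0 (hm.NA hδ)) hw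
  rw [ind, altP_add_push equi0 h, stokes' h]

lemma Sph.free {δ : ℝ} (hδ : δ ≤ 1) {Y : S3 → Prop} {k : ℕ} {z : Ch S3} (h : Sph δ Y (k + 1) z) :
    z ∈ Supp (fun m => m.map Neg.neg ≠ m) :=
  Supp_mono (fun _ hm => (hm.2.1.NA hδ).map_ne (by rw [hm.1]; omega)) h.supp

lemma Sph.split {δ : ℝ} (hδ : δ ≤ 1) {Y : S3 → Prop} {k : ℕ} {z : Ch S3} (h : Sph δ Y (k + 1) z) :
    H Neg.neg z + push Neg.neg (H Neg.neg z) = z :=
  H_split ng_invol (h.free hδ) h.inv

/-- Ky Fan for generalised spheres. -/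
lemma Sph.altP_eq {δ : ℝ} (hδ : δ ≤ 1) {Y : S3 → Prop} {k : ℕ} {z : Ch S3} (h : Sph δ Y k z)
    {L : Type*} [LinearOrder L] {c : S3 → L} {s : S3 → F2} (he : Equi Neg.neg c s)
    (hNC : ∀ m, Gd δ Y k m → NC c s m) : lift (altP c s) z = 1 := by
  rw [← h.ind, Bor.ind]
  exact kyFan ng_invol he equi0 k z
    (Supp_mono (fun m hm => ⟨hm.1, hNC m hm, NC0 (hm.2.1.NA hδ)⟩) h.supp) h.inv h.cyc

lemma Sph.alt_eq {δ : ℝ} (hδ : δ ≤ 1) {Y : S3 → Prop} {k : ℕ} {z : Ch S3} (h : Sph δ Y (k + 1) z)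
    {L : Type*} [LinearOrder L] {c : S3 → L} {s : S3 → F2} (he : Equi Neg.neg c s)
    (hNC : ∀ m, Gd δ Y (k + 1) m → NC c s m) : lift (alt c s) (H Neg.neg z) = 1 := by
  rw [← h.altP_eq hδ he hNC, ← altP_add_push he (H_mem (Supp_mono hNC h.supp)), h.split hδ]

lemma Sph.d_H_one {δ : ℝ} (hδ : δ ≤ 1) {Y : S3 → Prop} {z : Ch S3} (h : Sph δ Y 1 z) :
    d (H Neg.neg z) = 1 := by
  have h1 := h.alt_eq hδ equi0 (fun m hm => NC0 (hm.2.1.NA hδ))
  have h2 := eq_on d ((LinearMap.toSpanSingleton F2 (Ch S3) 1) ∘ₗ lift (alt c0 s0))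
    (P := Gd δ Y 1) (fun m hm => by
      obtain ⟨v, rfl⟩ := Multiset.card_eq_one.1 hm.1
      simp [d_single, alt_single]) (H_mem (τ := Neg.neg) h.supp)
  rw [h2, LinearMap.comp_apply, h1]
  simp

lemma Sph.lift_one {δ : ℝ} (hδ : δ ≤ 1) {Y : S3 → Prop} {z : Ch S3} (h : Sph δ Y 1 z) :
    lift (fun _ => (1 : F2)) (H Neg.neg z) = 1 := by
  refine Eq.trans (lift_congr (fun m hm => ?_) (H_mem h.supp))
    (h.alt_eq hδ equi0 (fun m hm => NC0 (hm.2.1.NA hδ)))
  obtain ⟨v, rfl⟩ := Multiset.card_eq_one.1 hm.1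
  rw [alt_single]

lemma Sph.exists_pt {δ : ℝ} {Y : S3 → Prop} {k : ℕ} {z : Ch S3} (h : Sph δ Y (k + 1) z) :
    ∃ p, Y p := by
  obtain ⟨m, hm, -⟩ := exists_of_ne_zero Bor.ind h.supp (by rw [h.ind]; exact one_ne_zero)
  obtain ⟨p, hp⟩ := Multiset.card_pos_iff_exists_mem.1 (by rw [hm.1]; omega : 0 < m.card)
  exact ⟨p, hm.2.2 p hp⟩

/-! ### Cuts -/

def bary (m : Multiset S3) : E4 := (m.map (fun p : S3 => (p : E4))).sum

lemma bary_neg (m : Multiset S3) : bary (m.map Neg.neg) = - bary m := by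
  induction m using Multiset.induction_on with
  | empty => simp [bary]
  | cons a m ih =>
    simp only [bary, Multiset.map_cons, Multiset.sum_cons] at ih ⊢
    rw [ih]
    simp [add_comm]

lemma exists_nonneg_of_bary (y : E4) (m : Multiset S3) (h0 : 0 < m.card)
    (h : 0 ≤ inner ℝ (bary m) y) : ∃ p ∈ m, 0 ≤ inner ℝ (p : E4) y := by
  induction m using Multiset.induction_on with
  | empty => simp at h0
  | cons a m ih =>
    by_cases ha : 0 ≤ inner ℝ (a : E4) y
    · exact ⟨a, Multiset.mem_cons_self _ _, ha⟩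
    · have h1 : bary (a ::ₘ m) = a + bary m := by simp [bary]
      rw [h1, inner_add_left] at h
      rcases Nat.eq_zero_or_pos m.card with h2 | h2
      · rw [Multiset.card_eq_zero.1 h2] at h
        simp [bary] at h
        exact absurd h ha
      · obtain ⟨p, hp, hp'⟩ := ih h2 (by linarith)
        exact ⟨p, Multiset.mem_cons_of_mem hp, hp'⟩

lemma exists_pair_nonneg {m n : Multiset S3} (hm : 0 < m.card) (hn : 0 < n.card)
    (h : 0 ≤ inner ℝ (bary m) (bary n)) : ∃ p ∈ m, ∃ q ∈ n, 0 ≤ ip p q := by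
  obtain ⟨p, hp, h1⟩ := exists_nonneg_of_bary _ m hm h
  rw [real_inner_comm] at h1
  obtain ⟨q, hq, h2⟩ := exists_nonneg_of_bary _ n hn h1
  exact ⟨p, hp, q, hq, by rwa [ip_comm]⟩

def SS (m n : Multiset S3) : F2 :=
  if 0 < inner ℝ (bary m) (bary n) then 1 else if inner ℝ (bary m) (bary n) < 0 then 0
    else pos Neg.neg m + pos Neg.neg n

lemma SS_comm (m n : Multiset S3) : SS m n = SS n m := by
  simp only [SS, real_inner_comm (bary m) (bary n), add_comm]

lemma SS_neg (m : Multiset S3) {n : Multiset S3} (h : n.map Neg.neg ≠ n) :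
    SS m (n.map Neg.neg) = SS m n + 1 := by
  simp only [SS, bary_neg, inner_neg_right, pos_map ng_invol h]
  rcases lt_trichotomy (inner ℝ (bary m) (bary n)) 0 with h1 | h1 | h1
  · simp [h1, not_lt.2 h1.le]
  · simp [h1, add_assoc]
  · simp [h1, not_lt.2 h1.le, f2_add_self]

lemma SS_Gd {δ : ℝ} (hδ : δ ≤ 1) {Y : S3 → Prop} {k : ℕ} (m n : Multiset S3)
    (h : Gd δ Y (k + 1) n) : SS m (n.map Neg.neg) = SS m n + 1 :=
  SS_neg m ((h.2.1.NA hδ).map_ne (by rw [h.1]; omega))

def cut (σ : Multiset S3) (z : Ch S3) : Ch S3 := d (sel (SS σ) z)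

lemma Sph.sel_split {δ : ℝ} (hδ : δ ≤ 1) {Y : S3 → Prop} {k : ℕ} {z : Ch S3}
    (h : Sph δ Y (k + 1) z) (σ : Multiset S3) :
    sel (SS σ) z + push Neg.neg (sel (SS σ) z) = z := by
  have := Bor.sel_split ng_invol (S := SS σ) (fun m hm => SS_Gd hδ σ m hm) h.supp
  rwa [h.inv] at this

theorem Sph.cut {δ : ℝ} (hδ : δ ≤ 1) {Y : S3 → Prop} {k : ℕ} {z : Ch S3}
    (h : Sph δ Y (k + 1) z) {σ : Multiset S3} (hσ : Mesh δ σ) :
    Sph δ (fun p => Y p ∧ ∀ x ∈ σ, |ip x p| ≤ 2 * δ) k (cut σ z) := by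
  have h1 := h.sel_split hδ σ
  refine ⟨?_, push_d_of_split h1 h.cyc, d_d _, ?_⟩
  · have h2 : Bor.cut σ z ∈ Supp (fun e => Gd δ Y k e ∧ ∀ p ∈ e, ∀ x ∈ σ, -(2 * δ) ≤ ip x p) := by
      refine d_mem (fun v e hve => ⟨⟨?_, hve.1.2.1.of_cons,
        fun p hp => hve.1.2.2 p (Multiset.mem_cons_of_mem hp)⟩, fun p hp x hx => ?_⟩)
        (sel_mem (SS σ) h.supp)
      · have := hve.1.1
        rw [Multiset.card_cons] at this
        omega
      · have h3 : 0 ≤ inner ℝ (bary σ) (bary (v ::ₘ e)) := by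
          by_contra h4
          push Not at h4
          have := hve.2
          simp [SS, h4, not_lt.2 h4.le] at this
        obtain ⟨x0, hx0, q, hq, h4⟩ := exists_pair_nonneg
          (Multiset.card_pos_iff_exists_mem.2 ⟨x, hx⟩) (by simp) h3
        have h5 := ip_sub_le2 x x0 p q
        have h6 := hσ x hx x0 hx0
        have h7 := hve.1.2.1 p (Multiset.mem_cons_of_mem hp) q hq
        rw [abs_le] at h5
        linarith
    have h3 : Bor.cut σ z ∈ Supp (fun e => ∀ p ∈ e, ∀ x ∈ σ, ip x p ≤ 2 * δ) := by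
      rw [Bor.cut, ← push_d_of_split h1 h.cyc]
      refine push_mem _ (fun e he p hp x hx => ?_) h2
      obtain ⟨q, hq, rfl⟩ := Multiset.mem_map.1 hp
      have := he.2 q hq x hx
      rw [ip_neg_right]
      linarith
    refine Supp_mono (fun e he => ⟨he.1.1.1, he.1.1.2.1, fun p hp =>
      ⟨he.1.1.2.2 p hp, fun x hx => abs_le.2 ⟨he.1.2 p hp x hx, he.2 p hp x hx⟩⟩⟩) (Supp_and h2 h3)
  · rw [Bor.cut, ← ind_add_push hδ (Supp_mono (fun m hm => hm.2.1) (sel_mem' _ h.supp)), h1, h.ind]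

/-! ### Existence of a generalised sphere -/

def ev (k : Fin 4) : S3 := ⟨EuclideanSpace.single k 1, by simp⟩

def rot (e : S3) (θ : ℝ) (p : S3) : S3 :=
  if h : ip e p = 0 then ⟨Real.cos θ • (p : E4) + Real.sin θ • (e : E4), by
    have h1 : ‖Real.cos θ • (p : E4) + Real.sin θ • (e : E4)‖ ^ 2 = 1 := by
      rw [norm_add_sq_real, norm_smul, norm_smul, nrm, nrm, inner_smul_left, inner_smul_right,
        real_inner_comm]
      have : inner ℝ (e : E4) (p : E4) = 0 := h
      rw [this]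
      simp [Real.cos_sq_add_sin_sq]
    have := norm_nonneg (Real.cos θ • (p : E4) + Real.sin θ • (e : E4))
    simp only [mem_sphere_iff_norm, sub_zero]
    nlinarith⟩ else p

lemma rot_zero (e p : S3) : rot e 0 p = p := by
  unfold rot
  split_ifs
  · simp
  · rfl

lemma rot_val {e p : S3} (h : ip e p = 0) (θ : ℝ) :
    (rot e θ p : E4) = Real.cos θ • (p : E4) + Real.sin θ • (e : E4) := by
  simp [rot, h]

lemma rot_half {e p : S3} (h : ip e p = 0) : rot e (Real.pi / 2) p = e := by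
  apply Subtype.ext
  simp [rot_val h]

lemma rot_dist {e p q : S3} (hp : ip e p = 0) (hq : ip e q = 0) (θ φ : ℝ) :
    dist (rot e θ p) (rot e φ q) ≤ dist p q + 2 * |θ - φ| := by
  rw [Subtype.dist_eq, Subtype.dist_eq, rot_val hp, rot_val hq, dist_eq_norm, dist_eq_norm]
  have h1 : Real.cos θ • (p : E4) + Real.sin θ • (e : E4) -
      (Real.cos φ • (q : E4) + Real.sin φ • (e : E4)) =
      Real.cos θ • ((p : E4) - q) + (Real.cos θ - Real.cos φ) • (q : E4) +
        (Real.sin θ - Real.sin φ) • (e : E4) := by module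
  rw [h1]
  refine (norm_add₃_le).trans ?_
  rw [norm_smul, norm_smul, norm_smul, nrm, nrm]
  have h2 := Real.abs_cos_sub_cos_le θ φ
  have h3 := Real.abs_sin_sub_sin_le θ φ
  have h4 := Real.abs_cos_le_one θ
  have h5 := norm_nonneg ((p : E4) - q)
  simp only [Real.norm_eq_abs]
  nlinarith

def Yk (k : ℕ) (p : S3) : Prop := ∀ i : Fin 4, k ≤ i.val → ip (ev i) p = 0

lemma ip_ev (i j : Fin 4) (h : i ≠ j) : ip (ev i) (ev j) = 0 := by
  simp [ip, ev, EuclideanSpace.inner_single_left, h]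

lemma exists_Sph (k : ℕ) (hk : k ≤ 4) : ∀ δ : ℝ, 0 < δ → δ ≤ 1 → ∃ z, Sph δ (Yk k) k z := by
  induction k with
  | zero =>
    intro δ _ _
    refine ⟨bas 0, bas_mem ⟨rfl, by simp [Mesh], by simp⟩, by simp, d_one, ?_⟩
    rw [ind, lift_bas, altP_zero]
  | succ k ih =>
    intro δ hδ hδ1
    obtain ⟨z, hz⟩ := ih (by omega) (δ / 2) (by linarith) (by linarith)
    set e := ev ⟨k, by omega⟩ with he
    obtain ⟨N, hN⟩ := exists_nat_gt (2 * Real.pi / δ)
    have hN0 : (0 : ℝ) < N := lt_trans (by positivity) hN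
    set t : ℝ := Real.pi / 2 / N with ht
    have ht0 : 0 ≤ t := by positivity
    have ht1 : 2 * t ≤ δ / 2 := by
      rw [div_lt_iff₀ hδ] at hN
      rw [ht, mul_div_assoc', div_le_iff₀ hN0]
      nlinarith
    have hY : ∀ p, Yk k p → ip e p = 0 := fun p hp => hp ⟨k, by omega⟩ le_rfl
    have hY' : ∀ p θ, Yk k p → Yk (k + 1) (rot e θ p) := by
      intro p θ hp i hi
      have h1 := hp i (by omega)
      have h2 : ip (ev i) e = 0 := ip_ev _ _ (fun h => by rw [h] at hi; simp at hi)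
      rw [ip] at h1 h2 ⊢
      rw [rot_val (hY p hp), inner_add_right, inner_smul_right, inner_smul_right, h1, h2]
      simp
    have hstep : ∀ j : ℕ, ∃ u ∈ Supp (Gd δ (Yk (k + 1)) (k + 1)),
        d u = z + push (rot e (j * t)) z := by
      intro j
      induction j with
      | zero =>
        refine ⟨0, Submodule.zero_mem _, ?_⟩
        have : rot e (((0 : ℕ) : ℝ) * t) = id := by
          funext p; simp [rot_zero]
        rw [this, push_id, add_self, map_zero]
      | succ j ihj =>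
        obtain ⟨u, hu, hdu⟩ := ihj
        obtain ⟨u', hu', hdu'⟩ := exists_prism (rot e (j * t)) (rot e ((j + 1 : ℕ) * t)) (k := k)
          (P := fun m => Mesh (δ / 2) m ∧ ∀ p ∈ m, Yk k p)
          (Q := fun m => Mesh δ m ∧ ∀ p ∈ m, Yk (k + 1) p) (fun m n hm hn => by
            constructor
            · intro v hv w hw
              obtain ⟨p, hp, hv⟩ := hn v hv
              obtain ⟨q, hq, hw⟩ := hn w hw
              have h1 := hm.1 p hp q hq
              have h2 := fun θ φ => rot_dist (hY p (hm.2 p hp)) (hY q (hm.2 q hq)) θ φ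
              have h3 : |(j : ℝ) * t - ((j + 1 : ℕ) : ℝ) * t| = t := by
                push_cast
                rw [abs_sub_comm, show ((j : ℝ) + 1) * t - j * t = t by ring, abs_of_nonneg ht0]
              rcases hv with rfl | rfl <;> rcases hw with rfl | rfl
              · refine (h2 _ _).trans ?_
                simp only [sub_self, abs_zero]; linarith
              · refine (h2 _ _).trans ?_
                rw [h3]; linarith
              · refine (h2 _ _).trans ?_
                rw [abs_sub_comm, h3]; linarith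
              · refine (h2 _ _).trans ?_
                simp only [sub_self, abs_zero]; linarith
            · intro v hv
              obtain ⟨p, hp, hv⟩ := hn v hv
              rcases hv with rfl | rfl <;> exact hY' p _ (hm.2 p hp)) hz.supp hz.cyc
        refine ⟨u + u', Submodule.add_mem _ hu hu', ?_⟩
        rw [map_add, hdu, hdu']
        have := add_self (push (rot e (j * t)) z)
        linear_combination this
    obtain ⟨u, hu, hdu⟩ := hstep N
    have hNt : (N : ℝ) * t = Real.pi / 2 := by rw [ht]; field_simp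
    rw [hNt] at hdu
    have hw : bas {e} * push (rot e (Real.pi / 2)) z ∈ Supp (Gd δ (Yk (k + 1)) (k + 1)) := by
      refine mul_mem (P := fun m => m = {e}) (Q := fun m => m.card = k ∧ ∀ p ∈ m, p = e) ?_
        (bas_mem rfl) (push_mem _ (fun m hm => ⟨by simpa using hm.1, fun p hp => ?_⟩) hz.supp)
      · rintro _ n rfl ⟨hn, hn'⟩
        have h1 : ∀ p ∈ ({e} : Multiset S3) + n, p = e := fun p hp => by
          rcases Multiset.mem_add.1 hp with h | h
          · exact Multiset.mem_singleton.1 h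
          · exact hn' p h
        refine ⟨by simp [hn, add_comm], fun p hp q hq => ?_, fun p hp => ?_⟩
        · rw [h1 p hp, h1 q hq, dist_self]; exact hδ.le
        · rw [h1 p hp]
          intro i hi
          exact ip_ev _ _ (fun h => by rw [h] at hi; simp at hi)
      · obtain ⟨q, hq, rfl⟩ := Multiset.mem_map.1 hp
        exact rot_half (hY q (hm.2.2 q hq))
    set w := u + bas {e} * push (rot e (Real.pi / 2)) z with hwdef
    have hw' : w ∈ Supp (Gd δ (Yk (k + 1)) (k + 1)) := Submodule.add_mem _ hu hw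
    have hdw : d w = z := by
      rw [hwdef, map_add, hdu, d_single_mul, d_push, hz.cyc, map_zero, mul_zero, add_zero,
        add_assoc, add_self, add_zero]
    refine ⟨w + push Neg.neg w, Submodule.add_mem _ hw' (push_mem _ (fun m hm =>
      ⟨by simpa using hm.1, hm.2.1.neg, fun p hp => ?_⟩) hw'), ?_, ?_, ?_⟩
    · rw [map_add, push_push, ng_invol.comp_self, push_id, add_comm]
    · rw [map_add, d_push, hdw, hz.inv, add_self]
    · rw [ind_add_push hδ1 (Supp_mono (fun m hm => hm.2.1) hw'), hdw, hz.ind]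
    · obtain ⟨q, hq, rfl⟩ := Multiset.mem_map.1 hp
      intro i hi
      rw [ip_neg_right, hm.2.2 q hq i hi, neg_zero]

end Crest.Agent.H1.Bor
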