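import Crest.Agent.H1.BorAlt

/-! The invariant of a valid even labelling. -/

set_option autoImplicit false

noncomputable section

namespace Crest.Agent.H1.Bor

open Classical

variable {V W : Type*} {τ : V → V}

def NA (τ : V → V) (m : Multiset V) : Prop := ∀ p ∈ m, τ p ∉ m

lemma NA.of_cons {v : V} {m : Multiset V} (h : NA τ (v ::ₘ m)) : NA τ m :=
  fun p hp hq => h p (Multiset.mem_cons_of_mem hp) (Multiset.mem_cons_of_mem hq)

lemma NA.map_ne {m : Multiset V} (h : NA τ m) (h0 : 0 < m.card) : m.map τ ≠ m := by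
  obtain ⟨p, hp⟩ := Multiset.card_pos_iff_exists_mem.1 h0
  intro hm
  exact h p hp (hm ▸ Multiset.mem_map_of_mem τ hp)

lemma d_mem_NA {k : ℕ} {x : Ch V} (hx : x ∈ Supp (fun m => m.card = k + 1 ∧ NA τ m)) :
    d x ∈ Supp (fun m => m.card = k ∧ NA τ m) :=
  d_mem (fun v e h => ⟨by have := h.1; rw [Multiset.card_cons] at this; omega, h.2.of_cons⟩) hx

lemma free_of_NA {k : ℕ} (hk : 1 ≤ k) {x : Ch V} (hx : x ∈ Supp (fun m => m.card = k ∧ NA τ m)) :
    x ∈ Supp (fun m => m.map τ ≠ m) :=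
  Supp_mono (fun _ hm => hm.2.map_ne (by omega)) hx

def al {L : Type*} [LinearOrder L] (T E : Multiset L) : F2 :=
  alt Prod.fst Prod.snd (T.map (fun t => (t, (1 : F2))) + E.map (fun t => (t, (0 : F2))))

def II {L : Type*} [LinearOrder L] (τ : V → V) (S : Multiset V → Multiset V → F2) (z : Ch V)
    (c : V → L) : F2 :=
  lift (fun σ => lift (fun e => al (σ.map c) (e.map c)) (H τ (d (sel (S σ) z)))) (H τ z)

lemma NC_join {L M : Type*} (g : V → M) (π : M → L) {σ e : Multiset V}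
    (h : ∀ p ∈ σ, ∀ q ∈ e, π (g p) ≠ π (g q)) :
    NC (fun w : M × F2 => π w.1) Prod.snd
      (σ.map (fun v => (g v, (1 : F2))) + e.map (fun v => (g v, (0 : F2)))) := by
  intro a ha b hb hab
  simp only [Multiset.mem_add, Multiset.mem_map] at ha hb
  rcases ha with ⟨p, hp, rfl⟩ | ⟨p, hp, rfl⟩ <;> rcases hb with ⟨q, hq, rfl⟩ | ⟨q, hq, rfl⟩
  · rfl
  · exact absurd hab (h p hp q hq)
  · exact absurd hab.symm (h q hq p hp)
  · rfl

lemma alt_join {L M : Type*} [LinearOrder L] (g : V → M) (π : M → L) {σ e : Multiset V}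
    (h : ∀ p ∈ σ, ∀ q ∈ e, π (g p) ≠ π (g q)) :
    alt (fun w : M × F2 => π w.1) Prod.snd
      (σ.map (fun v => (g v, (1 : F2))) + e.map (fun v => (g v, (0 : F2)))) =
      al (σ.map (π ∘ g)) (e.map (π ∘ g)) := by
  refine alt_congr _ _ _ _ 0 (by simp [Multiset.map_map, Function.comp_def]) ?_
  intro a ha b hb hab
  simp only [Multiset.mem_add, Multiset.mem_map, Function.comp] at ha hb
  rcases ha with ⟨p, hp, rfl⟩ | ⟨p, hp, rfl⟩ <;>
    rcases hb with ⟨_, ⟨q, hq, rfl⟩, rfl⟩ | ⟨_, ⟨q, hq, rfl⟩, rfl⟩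
  · simp
  · exact absurd hab (h p hp q hq)
  · exact absurd hab.symm (h q hq p hp)
  · simp

section
variable {M : Type*} (hτ : Function.Involutive τ) {P : Multiset V → Prop} {k : ℕ} (hk : 1 ≤ k)
  (hP : ∀ σ, P σ → σ.card = k + 1 ∧ NA τ σ) {z : Ch V} (hz : z ∈ Supp P) (hT : push τ z = z)
  (hd : d z = 0) {S : Multiset V → Multiset V → F2} (hS1 : ∀ σ σ', S σ σ' = S σ' σ)
  (hS2 : ∀ σ σ', P σ' → S σ (σ'.map τ) = S σ σ' + 1) {g : V → M} (hg : ∀ v, g (τ v) = g v)

/-- the chain `G`. -/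
def GG (τ : V → V) (S : Multiset V → Multiset V → F2) (z : Ch V) (g : V → M) : Ch (M × F2) :=
  lift (fun σ => push (fun v => (g v, (1 : F2))) (d (bas σ)) *
    push (fun v => (g v, (0 : F2))) (H τ (d (sel (S σ) z)))) (H τ z)

def Theta (τ : V → V) (S : Multiset V → Multiset V → F2) (z : Ch V) (g : V → M) : Ch (M × F2) :=
  lift (fun σ => push (fun v => (g v, (1 : F2))) (bas σ) *
    push (fun v => (g v, (0 : F2))) (H τ (d (sel (S σ) z)))) (H τ z)

def flip (w : M × F2) : M × F2 := (w.1, w.2 + 1)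

lemma flip_invol : Function.Involutive (flip (M := M)) := fun w => by
  simp [flip, add_assoc, f2_add_self]

include hτ hk hP hz hT hd hS1 hS2 hg in
lemma GG_eq : GG τ S z g = lift (fun σ => lift (fun σ' => S σ σ' •
    (push (fun v => (g v, (1 : F2))) (H τ (d (bas σ))) *
      push (fun v => (g v, (0 : F2))) (H τ (d (bas σ'))))) z) z := by
  set ip := push (fun v => (g v, (1 : F2))) with hip
  set im := push (fun v => (g v, (0 : F2))) with him
  set F : Multiset V → Ch (M × F2) := fun σ => im (H τ (d (sel (S σ) z))) with hF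
  set Φ : Ch V →ₗ[F2] Ch (M × F2) := lift (fun σ => ip (H τ (d (bas σ))) * F σ) with hΦ
  have hzf : z ∈ Supp (fun m => m.map τ ≠ m) :=
    free_of_NA (k := k + 1) (by omega) (Supp_mono hP hz)
  have h1 : GG τ S z g = Φ (H τ z) + Φ (push τ (H τ z)) := by
    refine eq_on (lift (fun σ => ip (d (bas σ)) * F σ)) (Φ + Φ ∘ₗ push τ) (fun σ hσ => ?_)
      (H_mem hz)
    have hF2 : F (σ.map τ) = F σ := by
      have : S (σ.map τ) = fun m => S σ m + 1 := by
        funext m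
        rw [hS1, hS2 _ _ hσ, hS1]
      simp only [hF, this, sel_add_one, map_add, hd, map_zero, add_zero]
    have hf : d (bas σ) ∈ Supp (fun m => m.map τ ≠ m) :=
      free_of_NA hk (d_mem_NA (bas_mem (hP σ hσ)))
    have h2 : ip (d (bas σ)) = ip (H τ (d (bas σ))) + ip (H τ (d (bas (σ.map τ)))) := by
      conv_lhs => rw [← H_split' hτ hf]
      rw [map_add, hip, push_even_add (fun v => by rw [hg]), ← d_push, push_bas]
    simp only [hΦ, LinearMap.add_apply, LinearMap.comp_apply, push_bas, lift_bas, hF2]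
    rw [h2, add_mul]
  rw [h1, ← map_add, H_split hτ hzf hT]
  refine lift_congr (fun σ _ => ?_) (mem_Supp_true z)
  have := eq_all (LinearMap.mulLeft F2 (ip (H τ (d (bas σ)))) ∘ₗ im ∘ₗ H τ ∘ₗ d ∘ₗ sel (S σ))
    (lift (fun σ' => S σ σ' • (ip (H τ (d (bas σ))) * im (H τ (d (bas σ'))))))
    (fun m => by simp) z
  exact this

include hτ hk hP hz hT hd hS1 hS2 hg in
lemma GG_symm : push flip (GG τ S z g) = GG τ S z g := by
  rw [GG_eq hτ hk hP hz hT hd hS1 hS2 hg, map_lift]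
  simp only [map_lift, map_smul, push_mul, push_push]
  rw [lift_comm]
  refine lift_congr (fun σ _ => lift_congr (fun σ' _ => ?_) (mem_Supp_true z)) (mem_Supp_true z)
  have e1 : (flip ∘ fun v => (g v, (1 : F2))) = fun v => (g v, (0 : F2)) := by
    funext v; simp [flip, f2_add_self]
  have e2 : (flip ∘ fun v => (g v, (0 : F2))) = fun v => (g v, (1 : F2)) := by
    funext v; simp [flip]
  rw [e1, e2, hS1, mul_comm]

include hτ hP hz hT hd hS2 in
lemma cut_inv (σ : Multiset V) : push τ (d (sel (S σ) z)) = d (sel (S σ) z) := by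
  have := sel_split hτ (S := S σ) (P := P) (fun m hm => hS2 σ m hm) hz
  rw [hT] at this
  exact push_d_of_split this hd

include hτ hk hP hz hT hd hS2 hg in
lemma d_Theta (hr : (k = 1 ∧ ∀ σ, P σ → d (H τ (d (sel (S σ) z))) = 1) ∨ 2 ≤ k) :
    ∃ r : F2, d (Theta τ S z g) = GG τ S z g + r • push (fun v => (g v, (1 : F2))) (H τ z) := by
  have hr' : ∃ r : F2, ∀ σ, P σ →
      push (fun v => (g v, (0 : F2))) (d (H τ (d (sel (S σ) z)))) = r • 1 := by
    rcases hr with ⟨-, hr⟩ | hr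
    · refine ⟨1, fun σ hσ => ?_⟩
      rw [hr σ hσ, ← bas_zero, push_bas, one_smul]
      rfl
    · refine ⟨0, fun σ _ => ?_⟩
      obtain ⟨j, rfl⟩ : ∃ j, k = j + 1 := ⟨k - 1, by omega⟩
      have h1 : d (sel (S σ) z) ∈ Supp (fun m => m.card = j + 1 ∧ NA τ m) :=
        d_mem_NA (sel_mem' _ (Supp_mono hP hz))
      have h2 := H_split hτ (free_of_NA hk h1) (cut_inv hτ hP hz hT hd hS2 σ)
      rw [zero_smul]
      exact push_inv_eq_zero hτ (fun v => by rw [hg]) (free_of_NA (by omega) (d_mem_NA (H_mem h1)))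
        (push_d_of_split h2 (d_d _))
  obtain ⟨r, hr'⟩ := hr'
  refine ⟨r, ?_⟩
  rw [Theta, map_lift, GG]
  have := eq_on (lift (fun σ => d (push (fun v => (g v, (1 : F2))) (bas σ) *
    push (fun v => (g v, (0 : F2))) (H τ (d (sel (S σ) z))))))
    (lift (fun σ => push (fun v => (g v, (1 : F2))) (d (bas σ)) *
    push (fun v => (g v, (0 : F2))) (H τ (d (sel (S σ) z)))) +
      r • push (fun v => (g v, (1 : F2)))) (fun σ hσ => by
      simp only [lift_bas, LinearMap.add_apply, LinearMap.smul_apply]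
      rw [d_mul, d_push, d_push, hr' σ hσ, mul_smul_comm, mul_one]) (H_mem (τ := τ) hz)
  exact this

include hτ hk hP hz hT hd hS2 hg in
lemma II_eq {L : Type*} [LinearOrder L] (π : M → L)
    (hv : ∀ σ, P σ → d (sel (S σ) z) ∈ Supp (fun e => ∀ p ∈ σ, ∀ q ∈ e, π (g p) ≠ π (g q)))
    (hr : (k = 1 ∧ ∀ σ, P σ → d (H τ (d (sel (S σ) z))) = 1) ∨ 2 ≤ k) :
    II τ S z (π ∘ g) = lift (altP (fun w : M × F2 => π w.1) Prod.snd) (GG τ S z g) := by
  obtain ⟨r, hr⟩ := d_Theta hτ hk hP hz hT hd hS2 hg hr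
  have h1 : Theta τ S z g ∈ Supp (NC (fun w : M × F2 => π w.1) Prod.snd) := by
    refine map_mem _ _ (fun σ hσ => ?_) (H_mem (τ := τ) hz)
    rw [lift_bas, push_bas]
    refine map_mem (LinearMap.mulLeft F2 (bas (σ.map fun v => (g v, (1 : F2)))) ∘ₗ
      push (fun v => (g v, (0 : F2)))) _ (fun e he => ?_) (H_mem (τ := τ) (hv σ hσ))
    simp only [LinearMap.comp_apply, push_bas, LinearMap.mulLeft_apply, ← bas_add]
    exact bas_mem (NC_join g π he)
  have h2 : lift (altP (fun w : M × F2 => π w.1) Prod.snd)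
      (push (fun v => (g v, (1 : F2))) (H τ z)) = 0 := by
    rw [lift_push]
    refine (lift_congr (g := fun _ => 0) (fun σ hσ => ?_) (H_mem (τ := τ) hz)).trans (lift_zero _)
    refine altP_const (fun p hp => ?_) (by rw [Multiset.card_map, (hP σ hσ).1]; omega)
    obtain ⟨v, _, rfl⟩ := Multiset.mem_map.1 hp
    rfl
  have h3 := stokes' h1
  rw [hr, map_add, map_smul, h2, smul_zero, add_zero] at h3
  rw [h3, Theta, map_lift, II]
  refine lift_congr (fun σ hσ => ?_) (H_mem (τ := τ) hz)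
  have := eq_on (lift (fun e => al (σ.map (π ∘ g)) (e.map (π ∘ g))))
    (lift (alt (fun w : M × F2 => π w.1) Prod.snd) ∘ₗ
      LinearMap.mulLeft F2 (push (fun v => (g v, (1 : F2))) (bas σ)) ∘ₗ
      push (fun v => (g v, (0 : F2)))) (fun e he => by
        simp only [LinearMap.comp_apply, push_bas, LinearMap.mulLeft_apply, ← bas_add, lift_bas]
        exact (alt_join g π he).symm) (H_mem (τ := τ) (hv σ hσ))
  exact this

end

theorem II_inv {L₁ L₂ : Type*} [LinearOrder L₁] [LinearOrder L₂]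
    (hτ : Function.Involutive τ) {P : Multiset V → Prop} {k : ℕ} (hk : 1 ≤ k)
    (hP : ∀ σ, P σ → σ.card = k + 1 ∧ NA τ σ) {z : Ch V} (hz : z ∈ Supp P) (hT : push τ z = z)
    (hd : d z = 0) {S : Multiset V → Multiset V → F2} (hS1 : ∀ σ σ', S σ σ' = S σ' σ)
    (hS2 : ∀ σ σ', P σ' → S σ (σ'.map τ) = S σ σ' + 1)
    {c₁ : V → L₁} (hc₁ : ∀ v, c₁ (τ v) = c₁ v) {c₂ : V → L₂} (hc₂ : ∀ v, c₂ (τ v) = c₂ v)
    (hv₁ : ∀ σ, P σ → d (sel (S σ) z) ∈ Supp (fun e => ∀ p ∈ σ, ∀ q ∈ e, c₁ p ≠ c₁ q))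
    (hv₂ : ∀ σ, P σ → d (sel (S σ) z) ∈ Supp (fun e => ∀ p ∈ σ, ∀ q ∈ e, c₂ p ≠ c₂ q))
    (hr : (k = 1 ∧ ∀ σ, P σ → d (H τ (d (sel (S σ) z))) = 1) ∨ 2 ≤ k) :
    II τ S z c₁ = II τ S z c₂ := by
  set g : V → L₁ × L₂ := fun v => (c₁ v, c₂ v) with hgdef
  have hg : ∀ v, g (τ v) = g v := fun v => by simp [hgdef, hc₁, hc₂]
  have e1 := II_eq hτ hk hP hz hT hd hS2 hg Prod.fst hv₁ hr
  have e2 := II_eq hτ hk hP hz hT hd hS2 hg Prod.snd hv₂ hr
  have e3 : c₁ = Prod.fst ∘ g := rfl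
  have e4 : c₂ = Prod.snd ∘ g := rfl
  rw [e3, e4, e1, e2]
  refine kyFan flip_invol ⟨fun _ => rfl, fun _ => rfl⟩ ⟨fun _ => rfl, fun _ => rfl⟩ (k + k) _ ?_
    (GG_symm hτ hk hP hz hT hd hS1 hS2 hg) ?_
  · refine map_mem _ _ (fun σ hσ => ?_) (H_mem (τ := τ) hz)
    rw [lift_bas]
    have h1 : d (bas σ) ∈ Supp (fun e => e.card = k ∧ ∀ p ∈ e, p ∈ σ) :=
      d_mem (P := fun e => e = σ) (fun v e h => ⟨by
        have := congrArg Multiset.card h
        rw [Multiset.card_cons, (hP σ hσ).1] at this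
        omega, fun p hp => h ▸ Multiset.mem_cons_of_mem hp⟩) (bas_mem rfl)
    have h2 : d (sel (S σ) z) ∈ Supp (fun m => m.card = k ∧ NA τ m) :=
      d_mem_NA (sel_mem' _ (Supp_mono hP hz))
    have h3 := H_mem (τ := τ) (Supp_and h2 (Supp_and (hv₁ σ hσ) (hv₂ σ hσ)))
    refine map_mem (LinearMap.mulRight F2 (push (fun v => (g v, (0 : F2)))
      (H τ (d (sel (S σ) z)))) ∘ₗ push (fun v => (g v, (1 : F2)))) _ (fun e he => ?_) h1
    simp only [LinearMap.comp_apply, push_bas, LinearMap.mulRight_apply]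
    refine map_mem (LinearMap.mulLeft F2 (bas (e.map fun v => (g v, (1 : F2)))) ∘ₗ
      push (fun v => (g v, (0 : F2)))) _ (fun e' he' => ?_) h3
    simp only [LinearMap.comp_apply, push_bas, LinearMap.mulLeft_apply, ← bas_add]
    refine bas_mem ⟨by simp [he.1, he'.1.1], ?_, ?_⟩
    · exact NC_join g Prod.fst fun p hp q hq => he'.2.1 p (he.2 p hp) q hq
    · exact NC_join g Prod.snd fun p hp q hq => he'.2.2 p (he.2 p hp) q hq
  · obtain ⟨r, hr⟩ := d_Theta hτ hk hP hz hT hd hS2 hg hr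
    have h1 := d_d (Theta τ S z g)
    have hz' : z ∈ Supp (fun m => m.card = k + 1 ∧ NA τ m) := Supp_mono hP hz
    have h2 := H_split hτ (free_of_NA (by omega) hz') hT
    rw [hr, map_add, map_smul, d_push, push_inv_eq_zero hτ (fun v => by rw [hg])
      (free_of_NA hk (d_mem_NA (H_mem hz'))) (push_d_of_split h2 hd), smul_zero, add_zero] at h1
    exact h1

end Crest.Agent.H1.Bor
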