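import Crest.Agent.H1.BorModel

/-! Valid colourings of pseudo-lines and pseudo-planes. -/

set_option autoImplicit false

noncomputable section

namespace Crest.Agent.H1.Bor

open Classical

lemma al_eq {L : Type*} [LinearOrder L] (l l' : List L) (h : ∀ a ∈ l, ∀ b ∈ l', a ≠ b) :
    al (l : Multiset L) (l' : Multiset L) =
      altC (l.map (fun t => (t, (1 : F2))) ++ l'.map (fun t => (t, (0 : F2)))) := by
  have h1 := NC_join (σ := (l : Multiset L)) (e := (l' : Multiset L)) id id h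
  rw [al, Multiset.map_coe, Multiset.map_coe, Multiset.coe_add]
  exact alt_eq_altC h1

lemma nodup_of_al {L : Type*} [LinearOrder L] {T E : Multiset L} (h : ∀ a ∈ T, ∀ b ∈ E, a ≠ b)
    (h0 : al T E ≠ 0) : T.Nodup ∧ E.Nodup := by
  have h1 := nodup_of_alt (NC_join (σ := T) (e := E) id id h) h0
  simp only [id, Multiset.map_add, Multiset.map_map, Function.comp, Multiset.map_id'] at h1
  rw [Multiset.nodup_add] at h1
  exact ⟨h1.1, h1.2.1⟩

def chi (p : Prop) : F2 := if p then 1 else 0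

lemma chi_eq (p : Prop) [Decidable p] : chi p = if p then 1 else 0 := by
  unfold chi; congr

lemma chi_neg {p : Prop} (h : ¬ p) : chi p = 0 := by simp [chi, h]

lemma cnt_eq {L : Type*} (c : S3 → L) (T : Multiset L) (z : Ch S3) :
    cnt c T z = lift (fun m => chi (m.map c = T)) (H Neg.neg z) := by
  rw [cnt, co, lift_push]
  simp only [chi_eq]

variable {δ : ℝ} {Y : S3 → Prop} {z : Ch S3}

lemma Valid.comp {L L' : Type*} {c : S3 → L} (hv : Valid δ Y c) (π : L → L') (g : L' → L)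
    (h : ∀ p, Y p → g (π (c p)) = c p) : Valid δ Y (π ∘ c) := by
  intro p q hp hq hpq he
  refine hv p q hp hq hpq ?_
  rw [← h p hp, ← h q hq]
  exact congrArg g he

lemma cnt_comp {L L' : Type*} {c : S3 → L} {k : ℕ} (hz : Sph δ Y k z) (π : L → L') (g : L' → L)
    (h : ∀ p, Y p → g (π (c p)) = c p) {T : Multiset L} (hT : ∀ t ∈ T, g (π t) = t) :
    cnt (π ∘ c) (T.map π) z = cnt c T z := by
  rw [cnt_eq, cnt_eq]
  refine lift_congr (fun m hm => ?_) (H_mem hz.supp)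
  congr 1
  apply propext
  constructor
  · intro h1
    have h2 := congrArg (Multiset.map g) h1
    rw [Multiset.map_map, Multiset.map_map, Multiset.map_congr rfl (f := g ∘ π ∘ c) (g := c)
      (fun p hp => h p (hm.2.2 p hp)), Multiset.map_congr rfl (f := g ∘ π) (g := id) hT,
      Multiset.map_id] at h2
    exact h2
  · intro h1
    rw [← h1, Multiset.map_map]

lemma cut_valid {L : Type*} {c : S3 → L} (hδ : δ ≤ 1) {k : ℕ} (hz : Sph δ Y (k + 1) z)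
    (hv : Valid δ Y c) (σ : Multiset S3) (hσ : Gd δ Y (k + 1) σ) :
    d (sel (SS σ) z) ∈ Supp (fun e => ∀ p ∈ σ, ∀ q ∈ e, c p ≠ c q) :=
  Supp_mono (fun _ he p hp q hq => hv p q (hσ.2.2 p hp) (he.2.2 q hq).1 ((he.2.2 q hq).2 p hp))
    (hz.cut hδ hσ.2.1).supp

lemma II_inv' {L₁ L₂ : Type*} [LinearOrder L₁] [LinearOrder L₂] (hδ : δ ≤ 1) {k : ℕ}
    (hz : Sph δ Y (k + 2) z) {c₁ : S3 → L₁} (hc₁ : ∀ v, c₁ (-v) = c₁ v) (hv₁ : Valid δ Y c₁)
    {c₂ : S3 → L₂} (hc₂ : ∀ v, c₂ (-v) = c₂ v) (hv₂ : Valid δ Y c₂) :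
    II Neg.neg SS z c₁ = II Neg.neg SS z c₂ := by
  refine II_inv ng_invol (k := k + 1) (by omega) (fun σ hσ => ⟨hσ.1, hσ.2.1.NA hδ⟩) hz.supp hz.inv
    hz.cyc SS_comm (fun σ σ' h => SS_Gd hδ σ σ' h) hc₁ hc₂ (cut_valid hδ hz hv₁)
    (cut_valid hδ hz hv₂) ?_
  rcases Nat.eq_zero_or_pos k with rfl | hk
  · exact Or.inl ⟨rfl, fun σ hσ => (hz.cut hδ hσ.2.1).d_H_one hδ⟩
  · exact Or.inr (by omega)

lemma altC3 : ∀ i j t : Fin 3, i ≠ t → j ≠ t → altC [(i, (1 : F2)), (j, 1), (t, 0)] =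
    if ({i, j} : Multiset (Fin 3)) = {0, 2} then 1 else 0 := by decide +kernel

lemma II_line (hδ : δ ≤ 1) (hz : Sph δ Y 2 z) {c : S3 → Fin 3} (hv : Valid δ Y c) :
    II Neg.neg SS z c = cnt c {0, 2} z := by
  rw [II, cnt_eq]
  refine lift_congr (fun σ hσ => ?_) (H_mem hz.supp)
  have hy := hz.cut hδ hσ.2.1
  have h1 := hy.lift_one hδ
  have h2 := lift_congr (f := fun e => al (σ.map c) (e.map c))
    (g := fun _ => chi (σ.map c = {0, 2}) • (1 : F2)) (fun e he => ?_)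
    (H_mem (τ := Neg.neg) hy.supp)
  · rw [lift_smul, h1] at h2
    rw [cut] at h2
    rw [h2]
    simp
  · obtain ⟨t, rfl⟩ := Multiset.card_eq_one.1 he.1
    obtain ⟨x, y, rfl⟩ := Multiset.card_eq_two.1 hσ.1
    have ht := he.2.2 t (by simp)
    have hx := hv x t (hσ.2.2 x (by simp)) ht.1 (ht.2 x (by simp))
    have hy := hv y t (hσ.2.2 y (by simp)) ht.1 (ht.2 y (by simp))
    have h3 := al_eq [c x, c y] [c t] (by simp [hx, hy])
    have h4 := altC3 _ _ _ hx hy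
    simp only [List.map_cons, List.map_nil, List.cons_append, List.nil_append] at h3
    rw [h4] at h3
    simp only [smul_eq_mul, mul_one]
    have h5 : Multiset.map c {x, y} = {c x, c y} := by simp
    rw [h5, chi_eq]
    exact h3

lemma II_line' {L : Type*} (hδ : δ ≤ 1) (hz : Sph δ Y 2 z) {c : S3 → L}
    (hce : ∀ v, c (-v) = c v) (hv : Valid δ Y c) {a e f : L} (haf : a ≠ f)
    (hc : ∀ p, Y p → c p = a ∨ c p = e ∨ c p = f) :
    ∃ c' : S3 → Fin 3, (∀ v, c' (-v) = c' v) ∧ Valid δ Y c' ∧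
      II Neg.neg SS z c' = cnt c {a, f} z := by
  set π : L → Fin 3 := fun x => if x = a then 0 else if x = f then 2 else 1 with hπ
  have h1 : ∀ x, x = a ∨ x = e ∨ x = f → ![a, e, f] (π x) = x := by
    intro x hx
    by_cases h1 : x = a
    · simp [hπ, h1]
    · by_cases h2 : x = f
      · simp [hπ, h2, haf.symm]
      · simp [hπ, h1, h2]
        tauto
  have h2 := hv.comp π ![a, e, f] (fun p hp => h1 _ (hc p hp))
  refine ⟨π ∘ c, fun v => by simp [hce], h2, ?_⟩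
  rw [II_line hδ hz h2, ← cnt_comp hz π ![a, e, f] (fun p hp => h1 _ (hc p hp)) (T := {a, f})
    (fun t ht => h1 t (by simp at ht; tauto))]
  simp [hπ, haf.symm]

theorem line_cnt {L : Type*} (hδ : δ ≤ 1 / 100) (hz : Sph δ Y 2 z)
    (hcov : ∃ v : Fin 3 → S3, ∀ p, Y p → ∃ i, 3 / 4 ≤ |ip p (v i)|) {c : S3 → L}
    (hce : ∀ v, c (-v) = c v) (hv : Valid δ Y c) {a e f : L} (haf : a ≠ f)
    (hc : ∀ p, Y p → c p = a ∨ c p = e ∨ c p = f) : cnt c {a, f} z = 1 := by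
  have hδ1 : δ ≤ 1 := by linarith
  obtain ⟨v, hcov⟩ := hcov
  obtain ⟨cM, hM1, hM2, hM3⟩ := model hδ v hcov
  obtain ⟨T, hT1, hT2, hT3⟩ := hM3 1 z hz
  obtain ⟨a', f', rfl⟩ := Multiset.card_eq_two.1 hT2
  have haf' : a' ≠ f' := by simpa using hT1
  have : ∀ a f : Fin 3, a ≠ f → ∃ e, ∀ x, x = a ∨ x = e ∨ x = f := by decide
  obtain ⟨e', he'⟩ := this a' f' haf'
  obtain ⟨c₁, h1, h2, h3⟩ := II_line' hδ1 hz hce hv haf hc
  obtain ⟨c₂, h4, h5, h6⟩ := II_line' hδ1 hz hM1 hM2 haf' (fun p _ => he' (cM p))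
  rw [← h3, II_inv' hδ1 hz h1 h2 h4 h5, h6, hT3]

lemma pair_eq_pair {L : Type*} {a b c e : L} :
    ({a, b} : Multiset L) = {c, e} ↔ (a = c ∧ b = e) ∨ (a = e ∧ b = c) := by
  constructor
  · intro h
    rcases Multiset.cons_eq_cons.1 h with ⟨h1, h2⟩ | ⟨_, cs, h2, h3⟩
    · exact Or.inl ⟨h1, Multiset.singleton_inj.1 h2⟩
    · have h4 := Multiset.singleton_eq_cons_iff _ |>.1 h2
      have h5 := Multiset.singleton_eq_cons_iff _ |>.1 h3
      exact Or.inr ⟨h5.1.symm, h4.1⟩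
  · rintro (⟨rfl, rfl⟩ | ⟨rfl, rfl⟩)
    · rfl
    · exact Multiset.pair_comm _ _

lemma pair_expand {L : Type*} (g : Multiset L → F2) {a e f : L} (hae : a ≠ e) (haf : a ≠ f)
    (hef : e ≠ f) {i j : L} (hi : i = a ∨ i = e ∨ i = f) (hj : j = a ∨ j = e ∨ j = f)
    (h0 : i = j → g {i, j} = 0) :
    g {i, j} = g {a, e} • chi (({i, j} : Multiset L) = {a, e}) +
      g {e, f} • chi (({i, j} : Multiset L) = {e, f}) +
      g {a, f} • chi (({i, j} : Multiset L) = {a, f}) := by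
  simp only [pair_eq_pair, chi]
  have h1 := hae.symm
  have h2 := haf.symm
  have h3 := hef.symm
  rcases hi with rfl | rfl | rfl <;> rcases hj with rfl | rfl | rfl <;>
    first
    | (rw [h0 rfl]; simp [*])
    | (simp [*]; done)
    | (rw [Multiset.pair_comm]; simp [*])

set_option synthInstance.maxSize 2000 in
lemma altC6 : ∀ t1 t2 : Fin 6, t2 ≠ t1 → ∀ t3, t3 ∉ [t1, t2] → ∀ a, a ∉ [t1, t2, t3] →
    ∀ e, e ∉ [t1, t2, t3, a] → ∀ f, f ∉ [t1, t2, t3, a, e] →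
    altC [(t1, (1 : F2)), (t2, 1), (t3, 1), (a, 0), (e, 0)] +
      altC [(t1, (1 : F2)), (t2, 1), (t3, 1), (e, 0), (f, 0)] +
      altC [(t1, (1 : F2)), (t2, 1), (t3, 1), (a, 0), (f, 0)] =
    (if ({t1, t2, t3} : Multiset (Fin 6)) = {0, 2, 4} then 1 else 0) +
      (if ({t1, t2, t3} : Multiset (Fin 6)) = {1, 3, 5} then 1 else 0) := by decide +kernel

lemma compl6 : ∀ t1 t2 : Fin 6, t2 ≠ t1 → ∀ t3, t3 ∉ [t1, t2] → ∃ a, a ∉ [t1, t2, t3] ∧
    ∃ e, e ∉ [t1, t2, t3, a] ∧ ∃ f, f ∉ [t1, t2, t3, a, e] ∧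
      ∀ x, x ∈ [t1, t2, t3, a, e, f] := by decide +kernel

lemma al6 {t1 t2 t3 a e f : Fin 6} (h2 : t2 ≠ t1) (h3 : t3 ∉ [t1, t2]) (ha : a ∉ [t1, t2, t3])
    (he : e ∉ [t1, t2, t3, a]) (hf : f ∉ [t1, t2, t3, a, e]) :
    al (Multiset.ofList [t1, t2, t3]) {a, e} + al (Multiset.ofList [t1, t2, t3]) {e, f} +
      al (Multiset.ofList [t1, t2, t3]) {a, f} =
    chi (Multiset.ofList [t1, t2, t3] = {0, 2, 4}) +
      chi (Multiset.ofList [t1, t2, t3] = {1, 3, 5}) := by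
  have key := altC6 _ _ h2 _ h3 a ha e he f hf
  have ha' : ∀ x ∈ [t1, t2, t3], x ≠ a := fun x hx h => ha (h ▸ hx)
  have he' : ∀ x ∈ [t1, t2, t3], x ≠ e := fun x hx h => he (List.mem_append_left [a] (h ▸ hx))
  have hf' : ∀ x ∈ [t1, t2, t3], x ≠ f := fun x hx h => hf (List.mem_append_left [a, e] (h ▸ hx))
  have aux : ∀ u w : Fin 6, (∀ x ∈ [t1, t2, t3], x ≠ u) → (∀ x ∈ [t1, t2, t3], x ≠ w) →
      al (Multiset.ofList [t1, t2, t3]) {u, w} =
        altC [(t1, (1 : F2)), (t2, 1), (t3, 1), (u, 0), (w, 0)] := by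
    intro u w hu hw
    refine al_eq [t1, t2, t3] [u, w] fun x hx b hb => ?_
    rcases List.mem_pair.1 hb with rfl | rfl
    exacts [hu x hx, hw x hx]
  rw [aux a e ha' he', aux e f he' hf', aux a f ha' hf', chi_eq, chi_eq]
  exact key

lemma mem6 {t1 t2 t3 a e f x : Fin 6} (h : x ∈ [t1, t2, t3, a, e, f]) (h1 : t1 ≠ x) (h2 : t2 ≠ x)
    (h3 : t3 ≠ x) : x = a ∨ x = e ∨ x = f := by
  simpa [h1.symm, h2.symm, h3.symm] using h

lemma nodup3 {t1 t2 t3 : Fin 6} (h : (Multiset.ofList [t1, t2, t3]).Nodup) :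
    t2 ≠ t1 ∧ t3 ∉ [t1, t2] := by
  simp at h ⊢
  tauto

lemma II_plane (hδ : δ ≤ 1 / 100) (hz : Sph δ Y 3 z)
    (hcov : ∀ x, Y x → ∃ v : Fin 3 → S3, ∀ p, Y p → |ip x p| ≤ 2 * δ →
      ∃ i, 3 / 4 ≤ |ip p (v i)|)
    {c : S3 → Fin 6} (hce : ∀ v, c (-v) = c v) (hv : Valid δ Y c) :
    II Neg.neg SS z c = cnt c {0, 2, 4} z + cnt c {1, 3, 5} z := by
  have hδ1 : δ ≤ 1 := by linarith
  rw [II, cnt_eq, cnt_eq, ← lift_add]
  refine lift_congr (fun σ hσ => ?_) (H_mem hz.supp)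
  have hy := hz.cut hδ1 hσ.2.1
  have hne : ∀ p, (Y p ∧ ∀ x ∈ σ, |ip x p| ≤ 2 * δ) → ∀ x ∈ σ, c x ≠ c p :=
    fun p hp x hx => hv x p (hσ.2.2 x hx) hp.1 (hp.2 x hx)
  have hdis : ∀ {k} (m : Multiset S3), Gd δ (fun p => Y p ∧ ∀ x ∈ σ, |ip x p| ≤ 2 * δ) k m →
      ∀ a ∈ σ.map c, ∀ b ∈ m.map c, a ≠ b := by
    intro k m hm a ha b hb
    obtain ⟨x, hx, rfl⟩ := Multiset.mem_map.1 ha
    obtain ⟨p, hp, rfl⟩ := Multiset.mem_map.1 hb
    exact hne p (hm.2.2 p hp) x hx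
  by_cases hnd : (σ.map c).Nodup
  swap
  · rw [chi_neg (fun h => hnd (by rw [h]; decide)), chi_neg (fun h => hnd (by rw [h]; decide)),
      add_zero]
    refine (lift_congr (g := fun _ => 0) (fun e he => ?_) (H_mem hy.supp)).trans (lift_zero _)
    by_contra h0
    exact hnd (nodup_of_al (hdis e he) h0).1
  obtain ⟨x1, x2, x3, rfl⟩ := Multiset.card_eq_three.1 hσ.1
  have hT : Multiset.map c {x1, x2, x3} = ([c x1, c x2, c x3] : List (Fin 6)) := by simp; rfl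
  rw [hT] at hnd hdis ⊢
  obtain ⟨hn1, hn2⟩ := nodup3 hnd
  obtain ⟨a, ha, e, he, f, hf, hall⟩ := compl6 _ _ hn1 _ hn2
  have key := al6 hn1 hn2 ha he hf
  simp only [List.mem_cons, List.not_mem_nil, or_false, not_or] at ha he hf
  have hcol : ∀ p, (Y p ∧ ∀ x ∈ ({x1, x2, x3} : Multiset S3), |ip x p| ≤ 2 * δ) →
      c p = a ∨ c p = e ∨ c p = f := by
    intro p hp
    have h1 := hne p hp x1 (by simp)
    have h2 := hne p hp x2 (by simp)
    have h3 := hne p hp x3 (by simp)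
    exact mem6 (hall (c p)) h1 h2 h3
  have hv' : Valid δ (fun p => Y p ∧ ∀ x ∈ ({x1, x2, x3} : Multiset S3), |ip x p| ≤ 2 * δ) c :=
    fun p q hp hq => hv p q hp.1 hq.1
  have hcov' : ∃ v : Fin 3 → S3, ∀ p,
      (Y p ∧ ∀ x ∈ ({x1, x2, x3} : Multiset S3), |ip x p| ≤ 2 * δ) → ∃ i, 3 / 4 ≤ |ip p (v i)| := by
    obtain ⟨v, hv⟩ := hcov x1 (hσ.2.2 x1 (by simp))
    exact ⟨v, fun p hp => hv p hp.1 (hp.2 x1 (by simp))⟩
  have hae : a ≠ e := fun h => he.2.2.2 h.symm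
  have haf : a ≠ f := fun h => hf.2.2.2.1 h.symm
  have hef : e ≠ f := fun h => hf.2.2.2.2 h.symm
  have l1 := line_cnt hδ hy hcov' hce hv' (e := f) hae (fun p hp => (hcol p hp).imp_right Or.symm)
  have l2 := line_cnt hδ hy hcov' hce hv' (e := a) hef (fun p hp => or_left_comm.1 (hcol p hp))
  have l3 := line_cnt hδ hy hcov' hce hv' (e := e) haf hcol
  rw [cnt_eq] at l1 l2 l3
  set T : Multiset (Fin 6) := Multiset.ofList [c x1, c x2, c x3] with hTdef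
  have h2 := lift_congr (f := fun m => al T (m.map c))
    (g := fun m => al T {a, e} • chi (m.map c = {a, e}) +
      al T {e, f} • chi (m.map c = {e, f}) +
      al T {a, f} • chi (m.map c = {a, f})) (fun m hm => ?_)
    (H_mem (τ := Neg.neg) hy.supp)
  · rw [lift_add, lift_add, lift_smul, lift_smul, lift_smul] at h2
    rw [l1, l2, l3, cut] at h2
    rw [h2, ← key]
    simp
  · have hd := hdis m hm
    obtain ⟨p, q, rfl⟩ := Multiset.card_eq_two.1 hm.1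
    have h3 : Multiset.map c {p, q} = {c p, c q} := by simp
    rw [h3] at hd ⊢
    refine pair_expand (al T) hae haf hef (hcol p (hm.2.2 p (by simp)))
      (hcol q (hm.2.2 q (by simp))) (fun h => ?_)
    by_contra h0
    have := (nodup_of_al hd h0).2
    simp [h] at this

lemma II_plane' {L : Type*} (hδ : δ ≤ 1 / 100) (hz : Sph δ Y 3 z)
    (hcov : ∀ x, Y x → ∃ v : Fin 3 → S3, ∀ p, Y p → |ip x p| ≤ 2 * δ →
      ∃ i, 3 / 4 ≤ |ip p (v i)|)
    {c : S3 → L} (hce : ∀ v, c (-v) = c v) (hv : Valid δ Y c) {t : Fin 6 → L}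
    (ht : Function.Injective t) (hc : ∀ p, Y p → ∃ i, t i = c p) :
    ∃ c' : S3 → Fin 6, (∀ v, c' (-v) = c' v) ∧ Valid δ Y c' ∧
      II Neg.neg SS z c' = cnt c {t 0, t 2, t 4} z + cnt c {t 1, t 3, t 5} z := by
  have h1 : ∀ p, Y p → t (Function.invFun t (c p)) = c p := fun p hp =>
    Function.invFun_eq (hc p hp)
  have h3 : ∀ i, Function.invFun t (t i) = i := Function.leftInverse_invFun ht
  have h2 := hv.comp (Function.invFun t) t h1
  refine ⟨Function.invFun t ∘ c, fun v => by simp [hce], h2, ?_⟩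
  rw [II_plane hδ hz hcov (fun v => by simp [hce]) h2,
    ← cnt_comp hz (Function.invFun t) t h1 (T := {t 0, t 2, t 4})
      (fun s hs => by simp at hs; rcases hs with rfl | rfl | rfl <;> rw [h3]),
    ← cnt_comp hz (Function.invFun t) t h1 (T := {t 1, t 3, t 5})
      (fun s hs => by simp at hs; rcases hs with rfl | rfl | rfl <;> rw [h3])]
  simp [h3]

theorem plane_cnt {L : Type*} (hδ : δ ≤ 1 / 100) (hz : Sph δ Y 3 z) {a : S3}
    (ha : ∀ p, Y p → |ip a p| ≤ 2 * δ)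
    {c : S3 → L} (hce : ∀ v, c (-v) = c v) (hv : Valid δ Y c) {t : Fin 6 → L}
    (ht : Function.Injective t) (hc : ∀ p, Y p → ∃ i, t i = c p) :
    cnt c {t 0, t 2, t 4} z + cnt c {t 1, t 3, t 5} z = 1 := by
  have hδ1 : δ ≤ 1 := by linarith
  have hcov : ∀ x, Y x → ∃ v : Fin 3 → S3, ∀ p, Y p → |ip x p| ≤ 2 * δ →
      ∃ i, 3 / 4 ≤ |ip p (v i)| := by
    intro x hx
    obtain ⟨v, hv⟩ := cover3 a x (η := 2 * δ) (by linarith) (ha x hx)
    exact ⟨v, fun p hp h => hv p (ha p hp) h⟩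
  obtain ⟨v, hv6⟩ := cover6 a (η := 2 * δ) (by linarith)
  obtain ⟨cM, hM1, hM2, hM3⟩ := model hδ v (fun p hp => hv6 p (ha p hp))
  obtain ⟨T, hT1, hT2, hT3⟩ := hM3 2 z hz
  obtain ⟨t1, t2, t3, rfl⟩ := Multiset.card_eq_three.1 hT2
  obtain ⟨hn1, hn2⟩ := nodup3 (t1 := t1) (t2 := t2) (t3 := t3) hT1
  obtain ⟨b, hb, e, he, f, hf, hall⟩ := compl6 _ _ hn1 _ hn2
  have hsurj : ∀ x, ∃ i, ![t1, b, t2, e, t3, f] i = x := by
    intro x
    have := hall x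
    simp only [List.mem_cons, List.not_mem_nil, or_false] at this
    rcases this with rfl | rfl | rfl | rfl | rfl | rfl
    exacts [⟨0, rfl⟩, ⟨2, rfl⟩, ⟨4, rfl⟩, ⟨1, rfl⟩, ⟨3, rfl⟩, ⟨5, rfl⟩]
  have hinj : Function.Injective ![t1, b, t2, e, t3, f] :=
    Finite.injective_iff_surjective.2 hsurj
  obtain ⟨c₁, h1, h2, h3⟩ := II_plane' hδ hz hcov hce hv ht hc
  obtain ⟨c₂, h4, h5, h6⟩ := II_plane' hδ hz hcov hM1 hM2 hinj (fun p _ => hsurj _)
  rw [← h3, II_inv' hδ1 hz h1 h2 h4 h5, h6]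
  have h7 : cnt cM {b, e, f} z = 0 := by
    by_contra h0
    obtain ⟨m1, hm1, hm1'⟩ := exists_of_cnt hz.supp h0
    obtain ⟨m0, hm0, hm0'⟩ := exists_of_cnt hz.supp (hT3 ▸ one_ne_zero)
    obtain ⟨p, ⟨hp, hp0⟩, hp1⟩ := ((hz.cut hδ1 hm0.2.1).cut hδ1 hm1.2.1).exists_pt
    have h8 : cM p ∈ m0.map cM ∨ cM p ∈ m1.map cM := by
      rw [hm0', hm1']
      have := hall (cM p)
      simpa [or_assoc] using this
    rcases h8 with h8 | h8 <;> obtain ⟨x, hx, hx'⟩ := Multiset.mem_map.1 h8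
    · exact hM2 x p (hm0.2.2 x hx) hp (hp0 x hx) hx'
    · exact hM2 x p (hm1.2.2 x hx) hp (hp1 x hx) hx'
  have h9 : cnt cM {t1, t2, t3} z + cnt cM {b, e, f} z = 1 := by rw [hT3, h7, add_zero]
  exact h9

end Crest.Agent.H1.Bor
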