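import Crest.Agent.H1.BorGeom

/-! Model colourings and sign functions. -/

set_option autoImplicit false

noncomputable section

namespace Crest.Agent.H1.Bor

open Classical

def Valid {L : Type*} (δ : ℝ) (Y : S3 → Prop) (c : S3 → L) : Prop :=
  ∀ p q, Y p → Y q → |ip p q| ≤ 2 * δ → c p ≠ c q

def cnt {L : Type*} (c : S3 → L) (T : Multiset L) (z : Ch S3) : F2 :=
  co T (push c (H Neg.neg z))

lemma ip_ge_of_cap {p q v : S3} (hp : 3 / 4 ≤ ip p v) (hq : 3 / 4 ≤ ip q v) : 1 / 8 ≤ ip p q := by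
  have h1 : inner ℝ ((p : E4) + q) (v : E4) ≤ ‖(p : E4) + q‖ := by
    simpa [nrm] using real_inner_le_norm ((p : E4) + q) (v : E4)
  rw [inner_add_left] at h1
  have h2 := norm_add_sq_real (p : E4) q
  rw [nrm, nrm] at h2
  simp only [ip] at *
  nlinarith

lemma exists_of_cnt {L : Type*} {c : S3 → L} {T : Multiset L} {z : Ch S3} {P : Multiset S3 → Prop}
    (hz : z ∈ Supp P) (h : cnt c T z ≠ 0) : ∃ m, P m ∧ m.map c = T := by
  obtain ⟨m, hm, h1⟩ := exists_of_ne_zero (co T ∘ₗ push c) (H_mem (τ := Neg.neg) hz) h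
  refine ⟨m, hm, ?_⟩
  by_contra h2
  simp [co_bas, h2] at h1

theorem model {ι : Type*} [LinearOrder ι] [Nonempty ι] {δ : ℝ} (hδ : δ ≤ 1 / 100)
    {Y : S3 → Prop} (v : ι → S3) (hcov : ∀ p, Y p → ∃ i, 3 / 4 ≤ |ip p (v i)|) :
    ∃ c : S3 → ι, (∀ p, c (-p) = c p) ∧ Valid δ Y c ∧ ∀ k z, Sph δ Y (k + 1) z →
      ∃ T : Multiset ι, T.Nodup ∧ T.card = k + 1 ∧ cnt c T z = 1 := by
  set c : S3 → ι := fun p => Classical.epsilon (fun i => 3 / 4 ≤ |ip p (v i)|) with hc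
  have hce : ∀ p, c (-p) = c p := fun p => by simp [hc]
  have hcs : ∀ p, Y p → 3 / 4 ≤ |ip p (v (c p))| := fun p hp =>
    Classical.epsilon_spec (hcov p hp)
  set s : S3 → F2 := fun p => if 0 < ip p (v (c p)) then 1 else if ip p (v (c p)) < 0 then 0
    else s0 p with hs
  have he : Equi Neg.neg c s := by
    refine ⟨hce, fun p => ?_⟩
    simp only [hs, hce, ip_neg_left, s0_neg]
    rcases lt_trichotomy (ip p (v (c p))) 0 with h1 | h1 | h1
    · simp [h1, not_lt.2 h1.le]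
    · simp [h1]
    · simp [h1, not_lt.2 h1.le, f2_add_self]
  have hs1 : ∀ p, Y p → (s p = 1 ∧ 3 / 4 ≤ ip p (v (c p))) ∨ (s p = 0 ∧ 3 / 4 ≤ ip (-p) (v (c p))) := by
    intro p hp
    have := hcs p hp
    rcases le_abs'.1 this with h | h
    · right
      refine ⟨?_, by rw [ip_neg_left]; linarith⟩
      have h1 : ip p (v (c p)) < 0 := by linarith
      simp [hs, h1, not_lt.2 h1.le]
    · left
      have h1 : 0 < ip p (v (c p)) := by linarith
      exact ⟨by simp [hs, h1], h⟩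
  have hkey : ∀ p q, Y p → Y q → c p = c q →
      (s p = s q ∧ 1 / 8 ≤ ip p q) ∨ (s p = s q + 1 ∧ ip p q ≤ -(1 / 8)) := by
    intro p q hp hq hpq
    rcases hs1 p hp with ⟨h1, h2⟩ | ⟨h1, h2⟩ <;> rcases hs1 q hq with ⟨h3, h4⟩ | ⟨h3, h4⟩ <;>
      rw [← hpq] at h4 <;> have h5 := ip_ge_of_cap h2 h4
    · exact Or.inl ⟨h1.trans h3.symm, h5⟩
    · refine Or.inr ⟨by rw [h1, h3, zero_add], ?_⟩
      rw [ip_neg_right] at h5; linarith
    · refine Or.inr ⟨by rw [h1, h3, f2_add_self], ?_⟩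
      rw [ip_neg_left] at h5; linarith
    · refine Or.inl ⟨h1.trans h3.symm, ?_⟩
      simpa using h5
  refine ⟨c, hce, fun p q hp hq h hpq => ?_, fun k z hz => ?_⟩
  · rw [abs_le] at h
    rcases hkey p q hp hq hpq with ⟨-, h1⟩ | ⟨-, h1⟩ <;> linarith
  have hNC : ∀ m, Gd δ Y (k + 1) m → NC c s m := by
    intro m hm p hp q hq hpq
    have := hm.2.1.ip_ge hp hq
    rcases hkey p q (hm.2.2 p hp) (hm.2.2 q hq) hpq with ⟨h1, -⟩ | ⟨-, h1⟩
    · exact h1
    · linarith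
  have hcong : ∀ m m', Gd δ Y (k + 1) m → Gd δ Y (k + 1) m' → m.map c = m'.map c →
      alt c s m = alt c s m' := by
    intro m m' hm hm' hmm
    obtain ⟨p0, hp0⟩ := Multiset.card_pos_iff_exists_mem.1 (by rw [hm.1]; omega : 0 < m.card)
    obtain ⟨q0, hq0, hpq0⟩ := Multiset.mem_map.1 (hmm ▸ Multiset.mem_map_of_mem c hp0)
    refine alt_congr c s c s (s p0 + s q0) hmm fun p hp q hq hpq => ?_
    have h1 := ip_sub_le2 p p0 q q0
    have h2 := hm.2.1 p hp p0 hp0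
    have h3 := hm'.2.1 q hq q0 hq0
    rw [abs_le] at h1
    rcases hkey p q (hm.2.2 p hp) (hm'.2.2 q hq) hpq with ⟨h4, h5⟩ | ⟨h4, h5⟩ <;>
      rcases hkey p0 q0 (hm.2.2 p0 hp0) (hm'.2.2 q0 hq0) hpq0.symm with ⟨h6, h7⟩ | ⟨h6, h7⟩
    · rw [h4, h6, f2_add_self, add_zero]
    · linarith
    · linarith
    · rw [h4, h6, add_right_comm, f2_add_self, zero_add]
  set β : Multiset ι → F2 := fun T =>
    if h : ∃ m, Gd δ Y (k + 1) m ∧ m.map c = T then alt c s h.choose else 0 with hβ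
  have h1 := hz.alt_eq (by linarith) he hNC
  have h2 : lift (alt c s) (H Neg.neg z) = lift β (push c (H Neg.neg z)) := by
    rw [lift_push]
    refine lift_congr (fun m hm => ?_) (H_mem hz.supp)
    have hex : ∃ m', Gd δ Y (k + 1) m' ∧ m'.map c = m.map c := ⟨m, hm, rfl⟩
    simp only [hβ, dif_pos hex]
    exact hcong _ _ hm hex.choose_spec.1 hex.choose_spec.2.symm
  obtain ⟨T, hT, hT2⟩ := exists_of_ne_zero (lift β) (mem_Supp_self (push c (H Neg.neg z)))
    (by rw [← h2, h1]; exact one_ne_zero)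
  rw [lift_bas] at hT2
  have hex : ∃ m, Gd δ Y (k + 1) m ∧ m.map c = T := by
    by_contra h
    simp [hβ, h] at hT2
  simp only [hβ, dif_pos hex] at hT2
  refine ⟨T, ?_, ?_, ?_⟩
  · rw [← hex.choose_spec.2]
    exact nodup_of_alt (hNC _ hex.choose_spec.1) hT2
  · rw [← hex.choose_spec.2, Multiset.card_map, hex.choose_spec.1.1]
  · rw [cnt, co_eq]
    exact f2_ne_zero hT

/-- A sign function for an arbitrary colouring without nearly orthogonal pairs. -/
theorem exists_nodup {L : Type*} [LinearOrder L] {δ ε : ℝ} (hδ : δ ≤ 1) (hε : 2 * δ < ε)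
    {c : S3 → L} (hce : ∀ p, c (-p) = c p)
    (hc : ∀ p q, c p = c q → ε ≤ |ip p q|) {Y : S3 → Prop} {k : ℕ} {z : Ch S3}
    (hz : Sph δ Y k z) : ∃ m, Gd δ Y k m ∧ (m.map c).Nodup := by
  set R : S3 → S3 → Prop := fun p q => c p = c q ∧ dist p q ≤ δ with hR
  have hRn : ∀ p q, R p q → R (-p) (-q) := fun p q h =>
    ⟨by rw [hce, hce, h.1], by
      have := h.2
      rw [Subtype.dist_eq] at this ⊢
      simpa using this⟩
  set ρ : Quot R → Quot R := Quot.map Neg.neg hRn with hρ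
  have hρi : Function.Involutive ρ := fun x => by
    induction x using Quot.inductionOn with
    | h p => simp [hρ, Quot.map]
  obtain ⟨sg, hsg⟩ := exists_sign ρ hρi
  have hfree : ∀ p, ρ (Quot.mk R p) ≠ Quot.mk R p := by
    intro p h
    have hf : ∀ q q', R q q' → (c q = c p ∧ 0 < ip p q) = (c q' = c p ∧ 0 < ip p q') := by
      have aux : ∀ q q', c q = c q' → dist q q' ≤ δ → (c q = c p ∧ 0 < ip p q) →
          (c q' = c p ∧ 0 < ip p q') := by
        intro q q' h1 h2 ⟨h3, h4⟩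
        refine ⟨h1 ▸ h3, ?_⟩
        have h5 := hc p q h3.symm
        have h6 := ip_sub_le p q q'
        rw [abs_of_pos h4] at h5
        rw [abs_le] at h6
        linarith
      intro q q' h
      exact propext ⟨aux q q' h.1 h.2, aux q' q h.1.symm (dist_comm q q' ▸ h.2)⟩
    have h1 := congrArg (Quot.lift (fun q => c q = c p ∧ 0 < ip p q) hf) h
    have h2 : (c (-p) = c p ∧ 0 < ip p (-p)) = (c p = c p ∧ 0 < ip p p) := h1
    rw [ip_neg_right, ip_self] at h2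
    have h3 := (h2.mpr ⟨rfl, one_pos⟩).2
    linarith
  have he : Equi Neg.neg c (fun p => sg (Quot.mk R p)) := ⟨hce, fun p => hsg _ (hfree p)⟩
  have hNC : ∀ m, Gd δ Y k m → NC c (fun p => sg (Quot.mk R p)) m := by
    intro m hm p hp q hq hpq
    have : Quot.mk R p = Quot.mk R q := Quot.sound ⟨hpq, hm.2.1 p hp q hq⟩
    simp only [this]
  obtain ⟨m, hm, h1⟩ := exists_of_ne_zero (lift (altP c (fun p => sg (Quot.mk R p)))) hz.supp
    (by rw [hz.altP_eq hδ he hNC]; exact one_ne_zero)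
  rw [lift_bas] at h1
  exact ⟨m, hm, nodup_of_altP (hNC m hm) h1⟩

/-! ### Coverings by caps -/

lemma exists_basis (a x : S3) {η : ℝ} (hη : η ≤ 1 / 50) (hax : |ip a x| ≤ η) :
    ∃ b : OrthonormalBasis (Fin 4) ℝ E4, b 0 = a ∧
      ∀ p : S3, |ip a p| ≤ η → |ip x p| ≤ η → |inner ℝ (b 1) (p : E4)| ≤ 1 / 10 := by
  set t := ip a x with ht
  set y : E4 := (x : E4) - t • (a : E4) with hy
  have hay : inner ℝ (a : E4) y = 0 := by
    rw [hy, inner_sub_right, inner_smul_right, real_inner_self_eq_norm_sq, nrm]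
    simp [ht, ip]
  have hy2 : ‖y‖ ^ 2 = 1 - t ^ 2 := by
    rw [hy, norm_sub_sq_real, norm_smul, nrm, nrm, inner_smul_right, real_inner_comm]
    have : inner ℝ (a : E4) (x : E4) = t := rfl
    rw [this]
    simp
    ring
  have ht2 : t ^ 2 ≤ 1 / 2500 := by
    rw [abs_le] at hax
    nlinarith
  have hy3 : 1 / 2 ≤ ‖y‖ := by
    have := norm_nonneg y
    nlinarith
  have hy0 : 0 < ‖y‖ := by linarith
  set x' : E4 := ‖y‖⁻¹ • y with hx'
  have hx'1 : ‖x'‖ = 1 := by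
    rw [hx', norm_smul, norm_inv, norm_norm, inv_mul_cancel₀ hy0.ne']
  have hax' : inner ℝ (a : E4) x' = 0 := by rw [hx', inner_smul_right, hay, mul_zero]
  have ho : Orthonormal ℝ (({0, 1} : Set (Fin 4)).domRestrict ![(a : E4), x', 0, 0]) := by
    rw [orthonormal_iff_ite]
    rintro ⟨i, hi⟩ ⟨j, hj⟩
    simp only [Set.mem_insert_iff, Set.mem_singleton_iff] at hi hj
    rcases hi with rfl | rfl <;> rcases hj with rfl | rfl
    · simp
    · simpa using hax'
    · simpa [real_inner_comm] using hax'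
    · simp [hx'1]
  obtain ⟨b, hb⟩ := ho.exists_orthonormalBasis_extension_of_card_eq (by simp)
  refine ⟨b, hb 0 (by simp), fun p h1 h2 => ?_⟩
  rw [hb 1 (by simp)]
  have h3 : inner ℝ x' (p : E4) = ‖y‖⁻¹ * (ip x p - t * ip a p) := by
    rw [hx', inner_smul_left, hy, inner_sub_left, inner_smul_left]
    simp [ip]
  have h4 : (![(a : E4), x', 0, 0] : Fin 4 → E4) 1 = x' := rfl
  rw [h4, h3, abs_mul, abs_inv, abs_norm, inv_mul_le_iff₀ hy0]
  have h5 : |t * ip a p| ≤ 1 / 2500 := by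
    rw [abs_mul]
    have := abs_nonneg t
    have := abs_nonneg (ip a p)
    nlinarith
  have h6 := abs_sub (ip x p) (t * ip a p)
  linarith

lemma parseval (b : OrthonormalBasis (Fin 4) ℝ E4) (p : S3) :
    inner ℝ (b 0) (p : E4) ^ 2 + inner ℝ (b 1) (p : E4) ^ 2 + inner ℝ (b 2) (p : E4) ^ 2 +
      inner ℝ (b 3) (p : E4) ^ 2 = 1 := by
  have := b.sum_sq_inner_right (p : E4)
  rw [nrm, Fin.sum_univ_four] at this
  simpa using this

def comb (b : OrthonormalBasis (Fin 4) ℝ E4) (i j : Fin 4) (hij : i ≠ j) (α β : ℝ)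
    (h : α ^ 2 + β ^ 2 = 1) : S3 :=
  ⟨α • b i + β • b j, by
    have h1 : ‖α • b i + β • b j‖ ^ 2 = 1 := by
      rw [norm_add_sq_real, norm_smul, norm_smul, b.orthonormal.1, b.orthonormal.1,
        inner_smul_left, inner_smul_right, b.orthonormal.2 hij]
      simpa using h
    have := norm_nonneg (α • b i + β • b j)
    simp only [mem_sphere_iff_norm, sub_zero]
    nlinarith⟩

lemma ip_comb (b : OrthonormalBasis (Fin 4) ℝ E4) (i j : Fin 4) (hij : i ≠ j) (α β : ℝ)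
    (h : α ^ 2 + β ^ 2 = 1) (p : S3) :
    ip p (comb b i j hij α β h) = α * inner ℝ (b i) (p : E4) + β * inner ℝ (b j) (p : E4) := by
  rw [ip_comm, ip, comb]
  simp [inner_add_left, inner_smul_left]

lemma abs_pm (u w : ℝ) {M : ℝ} (h1 : |u + w| < M) (h2 : |u + -w| < M) : |u| + |w| < M := by
  rw [abs_lt] at h1 h2
  rcases abs_cases u with h | h <;> rcases abs_cases w with h' | h' <;> linarith

lemma cover3 (a x : S3) {η : ℝ} (hη : η ≤ 1 / 50) (hax : |ip a x| ≤ η) :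
    ∃ v : Fin 3 → S3, ∀ p : S3, |ip a p| ≤ η → |ip x p| ≤ η → ∃ i, 3 / 4 ≤ |ip p (v i)| := by
  obtain ⟨b, hb0, hb1⟩ := exists_basis a x hη hax
  refine ⟨![comb b 2 3 (by decide) 1 0 (by norm_num), comb b 2 3 (by decide) (3 / 5) (4 / 5)
    (by norm_num), comb b 2 3 (by decide) (3 / 5) (-(4 / 5)) (by norm_num)], fun p h1 h2 => ?_⟩
  by_contra hc
  push Not at hc
  have e0 := hc 0
  have e1 := hc 1
  have e2 := hc 2
  simp only [Matrix.cons_val_zero, Matrix.cons_val_one, Matrix.cons_val, ip_comb] at e0 e1 e2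
  have h3 := parseval b p
  have h4 := hb1 p h1 h2
  rw [hb0] at h3
  rw [ip] at h1
  set A := inner ℝ (a : E4) (p : E4)
  set B := inner ℝ (b 1) (p : E4)
  set X := inner ℝ (b 2) (p : E4)
  set Z := inner ℝ (b 3) (p : E4)
  rw [neg_mul] at e2
  have e3 := abs_pm _ _ e1 e2
  rw [abs_mul, abs_mul, abs_of_pos (by norm_num : (0 : ℝ) < 3 / 5),
    abs_of_pos (by norm_num : (0 : ℝ) < 4 / 5)] at e3
  rw [one_mul, zero_mul, add_zero] at e0
  rw [← sq_abs A, ← sq_abs B, ← sq_abs X, ← sq_abs Z] at h3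
  have := abs_nonneg A
  have := abs_nonneg B
  have := abs_nonneg X
  have := abs_nonneg Z
  nlinarith

lemma cover6 (a : S3) {η : ℝ} (hη : η ≤ 1 / 50) :
    ∃ v : Fin 6 → S3, ∀ p : S3, |ip a p| ≤ η → ∃ i, 3 / 4 ≤ |ip p (v i)| := by
  obtain ⟨b, hb0⟩ : ∃ b : OrthonormalBasis (Fin 4) ℝ E4, b 0 = a := by
    have ho : Orthonormal ℝ (({0} : Set (Fin 4)).domRestrict ![(a : E4), 0, 0, 0]) := by
      rw [orthonormal_iff_ite]
      rintro ⟨i, hi⟩ ⟨j, hj⟩
      simp only [Set.mem_singleton_iff] at hi hj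
      subst hi hj
      simp
    obtain ⟨b, hb⟩ := ho.exists_orthonormalBasis_extension_of_card_eq (by simp)
    exact ⟨b, hb 0 (by simp)⟩
  refine ⟨![comb b 1 2 (by decide) (4 / 5) (3 / 5) (by norm_num),
    comb b 1 2 (by decide) (4 / 5) (-(3 / 5)) (by norm_num),
    comb b 2 3 (by decide) (4 / 5) (3 / 5) (by norm_num),
    comb b 2 3 (by decide) (4 / 5) (-(3 / 5)) (by norm_num),
    comb b 3 1 (by decide) (4 / 5) (3 / 5) (by norm_num),
    comb b 3 1 (by decide) (4 / 5) (-(3 / 5)) (by norm_num)], fun p h1 => ?_⟩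
  by_contra hc
  push Not at hc
  have e0 := hc 0
  have e1 := hc 1
  have e2 := hc 2
  have e3 := hc 3
  have e4 := hc 4
  have e5 := hc 5
  simp only [Matrix.cons_val_zero, Matrix.cons_val_one, Matrix.cons_val, ip_comb] at e0 e1 e2 e3 e4 e5
  have h3 := parseval b p
  rw [hb0] at h3
  rw [ip] at h1
  set A := inner ℝ (a : E4) (p : E4)
  set X := inner ℝ (b 1) (p : E4)
  set Y := inner ℝ (b 2) (p : E4)
  set Z := inner ℝ (b 3) (p : E4)
  rw [neg_mul] at e1 e3 e5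
  have f1 := abs_pm _ _ e0 e1
  have f2 := abs_pm _ _ e2 e3
  have f3 := abs_pm _ _ e4 e5
  rw [abs_mul, abs_mul, abs_of_pos (by norm_num : (0 : ℝ) < 3 / 5),
    abs_of_pos (by norm_num : (0 : ℝ) < 4 / 5)] at f1 f2 f3
  rw [← sq_abs A, ← sq_abs Y, ← sq_abs X, ← sq_abs Z] at h3
  have hA := abs_nonneg A
  have hX := abs_nonneg X
  have hY := abs_nonneg Y
  have hZ := abs_nonneg Z
  generalize |A| = A' at *
  generalize |X| = X' at *
  generalize |Y| = Y' at *
  generalize |Z| = Z' at *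
  nlinarith [mul_nonneg hX hY, mul_nonneg hY hZ, mul_nonneg hX hZ,
    mul_nonneg hX (sub_nonneg.2 f1.le), mul_nonneg hY (sub_nonneg.2 f1.le),
    mul_nonneg hZ (sub_nonneg.2 f1.le), mul_nonneg hX (sub_nonneg.2 f2.le),
    mul_nonneg hY (sub_nonneg.2 f2.le), mul_nonneg hZ (sub_nonneg.2 f2.le),
    mul_nonneg hX (sub_nonneg.2 f3.le), mul_nonneg hY (sub_nonneg.2 f3.le),
    mul_nonneg hZ (sub_nonneg.2 f3.le), mul_nonneg (sub_nonneg.2 f1.le) (sub_nonneg.2 f2.le),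
    mul_nonneg (sub_nonneg.2 f2.le) (sub_nonneg.2 f3.le),
    mul_nonneg (sub_nonneg.2 f1.le) (sub_nonneg.2 f3.le)]

end Crest.Agent.H1.Bor
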