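import Crest.Agent.H1.BorLine
import Crest.Agent.H1.BorFin

/-! No even ten-colouring of `S³` avoids nearly orthogonal pairs. -/

set_option autoImplicit false

noncomputable section

namespace Crest.Agent.H1.Bor

open Classical

lemma Cov.nodup {a b c d e f g h i j : Fin 10} (hc : Cov a b c d e f g h i j) :
    [a, b, c, d, e, f, g, h, i, j].Nodup := by
  have h1 : [a, b, c, d, e, f, g, h, i, j].toFinset = Finset.univ :=
    Finset.eq_univ_of_forall fun x => List.mem_toFinset.2 (hc x)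
  have h2 := Multiset.toFinset_card_eq_card_iff_nodup
    (m := Multiset.ofList [a, b, c, d, e, f, g, h, i, j])
  rw [← Multiset.coe_nodup, ← h2, List.toFinset_coe, h1]
  simp

lemma Cov.sum {a b c d e f g h i j : Fin 10} (hc : Cov a b c d e f g h i j) (F : Fin 10 → F2) :
    ∑ q, F q = F a + F b + F c + F d + F e + F f + F g + F h + F i + F j := by
  have h1 : [a, b, c, d, e, f, g, h, i, j].toFinset = Finset.univ :=
    Finset.eq_univ_of_forall fun x => List.mem_toFinset.2 (hc x)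
  rw [← h1, List.sum_toFinset _ hc.nodup]
  simp only [List.map_cons, List.map_nil, List.sum_cons, List.sum_nil]
  ring

lemma Cov.cases {a b c d e f g h i j : Fin 10} (hc : Cov a b c d e f g h i j) (x : Fin 10) :
    x = a ∨ x = b ∨ x = c ∨ x = d ∨ x = e ∨ x = f ∨ x = g ∨ x = h ∨ x = i ∨ x = j := by
  simpa using hc x

lemma Cov.sw1 {a b c d e f g h i j : Fin 10} (hc : Cov a b c d e f g h i j) :
    Cov a b c d e f h g i j := fun x => by
  rcases hc.cases x with h | h | h | h | h | h | h | h | h | h <;> simp [h]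

lemma Cov.sw2 {a b c d e f g h i j : Fin 10} (hc : Cov a b c d e f g h i j) :
    Cov a b c d e f i h g j := fun x => by
  rcases hc.cases x with h | h | h | h | h | h | h | h | h | h <;> simp [h]

lemma Cov.sw3 {a b c d e f g h i j : Fin 10} (hc : Cov a b c d e f g h i j) :
    Cov a b c d e f j h i g := fun x => by
  rcases hc.cases x with h | h | h | h | h | h | h | h | h | h <;> simp [h]

lemma Cov.sw4 {a b c d e f g h i j : Fin 10} (hc : Cov a b c d e f g h i j) :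
    Cov a b c d e f g i h j := fun x => by
  rcases hc.cases x with h | h | h | h | h | h | h | h | h | h <;> simp [h]

lemma Cov.sw5 {a b c d e f g h i j : Fin 10} (hc : Cov a b c d e f g h i j) :
    Cov a b c d e f g j i h := fun x => by
  rcases hc.cases x with h | h | h | h | h | h | h | h | h | h <;> simp [h]

lemma Cov.nodup3 {a b c d e f g h i j : Fin 10} (hc : Cov a b c d e f g h i j) :
    ({e, f, g} : Multiset (Fin 10)).Nodup := by
  have hn := hc.nodup
  exact Multiset.coe_nodup.2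
    (List.nodup_append.1 (hn.of_cons.of_cons.of_cons.of_cons : ([e, f, g] ++ [h, i, j]).Nodup)).1

lemma push_H_d {V W : Type*} {τ : V → V} (hτ : Function.Involutive τ) {κ : V → W}
    (hκ : ∀ v, κ (τ v) = κ v) {k : ℕ} {u : Ch V}
    (hu : u ∈ Supp (fun m => m.card = k + 1 + 1 ∧ NA τ m)) (hT : push τ u = u) :
    push κ (H τ (d u)) = d (push κ (H τ u)) := by
  have h3 := H_split hτ (free_of_NA (by omega) hu) hT
  have h4 := push_H_add hτ hκ (free_of_NA (by omega) (d_mem_NA (H_mem (τ := τ) hu)))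
  rw [← d_push, ← map_add, h3] at h4
  rw [h4, d_push]

lemma push_add_inv {V : Type*} {τ : V → V} {x y z : Ch V} (e1 : x + push τ x = z)
    (e2 : y + push τ y = z) : push τ (x + y) = x + y := by
  rw [map_add]
  have e3 := add_self z
  have e4 := add_self x
  have e5 := add_self y
  linear_combination e1 + e2 + e3 - e4 - e5

def Wit (δ : ℝ) (κ : S3 → Fin 10) (T : Finset (Fin 10)) (σ : Multiset S3) : Prop :=
  Mesh δ σ ∧ ∀ t ∈ T, ∃ x ∈ σ, κ x = t

def NN (δ : ℝ) (κ : S3 → Fin 10) (T : Finset (Fin 10)) : Prop := ∃ σ, Wit δ κ T σ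

section
variable {δ ε : ℝ} (hδ : δ ≤ 1 / 100) (hε : 2 * δ < ε) {κ : S3 → Fin 10}
  (hκe : ∀ p, κ (-p) = κ p) (hκ : ∀ p q, κ p = κ q → ε ≤ |ip p q|) {X : Ch S3}
  (hX : Sph δ (fun _ => True) 4 X)

include hε hκ in
lemma valid_all (Y : S3 → Prop) : Valid δ Y κ := fun p q _ _ h he => by
  have := hκ p q he
  linarith

include hε hκ in
lemma Wit.avoid {T : Finset (Fin 10)} {σ : Multiset S3} (h : Wit δ κ T σ) {p : S3}
    (hp : ∀ x ∈ σ, |ip x p| ≤ 2 * δ) : κ p ∉ T := by
  intro hT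
  obtain ⟨x, hx, hx'⟩ := h.2 _ hT
  exact valid_all hε hκ (fun _ => True) x p trivial trivial (hp x hx) hx'

lemma NN_of_map {σ : Multiset S3} (hσ : Mesh δ σ) {T : Finset (Fin 10)}
    (h : ∀ t ∈ T, t ∈ σ.map κ) : NN δ κ T :=
  ⟨σ, hσ, fun t ht => by simpa using h t ht⟩

include hδ hε hκ hX in
lemma three {A B C : Finset (Fin 10)} (hA : NN δ κ A) (hB : NN δ κ B) (hC : NN δ κ C)
    (h : ∀ x, x ∈ A ∨ x ∈ B ∨ x ∈ C) : False := by
  have hδ1 : δ ≤ 1 := by linarith
  obtain ⟨σA, hA⟩ := hA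
  obtain ⟨σB, hB⟩ := hB
  obtain ⟨σC, hC⟩ := hC
  obtain ⟨p, ⟨⟨-, h1⟩, h2⟩, h3⟩ := (((hX.cut hδ1 hA.1).cut hδ1 hB.1).cut hδ1 hC.1).exists_pt
  rcases h (κ p) with h | h | h
  · exact hA.avoid hε hκ h1 h
  · exact hB.avoid hε hκ h2 h
  · exact hC.avoid hε hκ h3 h

include hδ hε hκe hκ hX in
lemma nn1 {a b c d e f g h i j : Fin 10} (hc : Cov a b c d e f g h i j) (hA : NN δ κ {a, b, c, d})
    (hB : NN δ κ {e, f, g, h}) : False := by
  have hδ1 : δ ≤ 1 := by linarith
  obtain ⟨σA, hA'⟩ := id hA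
  obtain ⟨σB, hB'⟩ := id hB
  obtain ⟨m, hm, hnd⟩ := exists_nodup hδ1 hε hκe hκ ((hX.cut hδ1 hA'.1).cut hδ1 hB'.1)
  obtain ⟨p, q, rfl⟩ := Multiset.card_eq_two.1 hm.1
  have hcol : ∀ r ∈ ({p, q} : Multiset S3), κ r = i ∨ κ r = j := by
    intro r hr
    have h1 := hA'.avoid hε hκ (hm.2.2 r hr).1.2
    have h2 := hB'.avoid hε hκ (hm.2.2 r hr).2
    have h3 := hc.cases (κ r)
    simp only [Finset.mem_insert, Finset.mem_singleton, not_or] at h1 h2
    simpa [h1, h2] using h3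
  have hpq : κ p ≠ κ q := by simpa using hnd
  refine three hδ hε hκ hX hA hB (C := {i, j}) (NN_of_map hm.2.1 fun t ht => ?_) fun x => ?_
  · have h1 := hcol p (by simp)
    have h2 := hcol q (by simp)
    simp only [Finset.mem_insert, Finset.mem_singleton] at ht
    simp only [Multiset.insert_eq_cons, Multiset.map_cons, Multiset.map_singleton,
      Multiset.mem_cons, Multiset.mem_singleton]
    grind
  · rcases hc.cases x with h | h | h | h | h | h | h | h | h | h <;> simp [h]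

include hδ hε hκ hX in
lemma nn3 {a b c d e f g h i j : Fin 10} (hc : Cov a b c d e f g h i j) (hA : NN δ κ {a, b, c, d})
    (hB : NN δ κ {e, f, g}) (hC : NN δ κ {h, i, j}) : False := by
  refine three hδ hε hκ hX hA hB hC fun x => ?_
  rcases hc.cases x with h | h | h | h | h | h | h | h | h | h <;> simp [h]

include hδ hε hκe hκ hX in
lemma plane_sum {a b c d e f g h i j : Fin 10} (hc : Cov a b c d e f g h i j) {σ : Multiset S3}
    (hA : Wit δ κ {a, b, c, d} σ) :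
    cnt κ {e, f, g} (cut σ X) + cnt κ {h, i, j} (cut σ X) = 1 := by
  have hδ1 : δ ≤ 1 := by linarith
  obtain ⟨a0, ha0, -⟩ := hA.2 a (by simp)
  have hn := hc.nodup
  have hinj : Function.Injective ![e, h, f, i, g, j] := by
    refine List.nodup_ofFn.1 ?_
    have h1 : [e, f, g, h, i, j].Nodup := hn.of_cons.of_cons.of_cons.of_cons
    have h2 : List.ofFn ![e, h, f, i, g, j] = [e, h, f, i, g, j] := rfl
    rw [h2]
    simp only [List.nodup_cons, List.mem_cons, List.not_mem_nil, or_false, not_or,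
      List.nodup_nil, and_true, not_false_eq_true] at h1 ⊢
    grind
  refine plane_cnt hδ (hX.cut hδ1 hA.1) (a := a0) (t := ![e, h, f, i, g, j])
    (fun p hp => hp.2 a0 ha0) hκe (valid_all hε hκ _) hinj fun p hp => ?_
  have h1 := hA.avoid hε hκ hp.2
  simp only [Finset.mem_insert, Finset.mem_singleton, not_or] at h1
  rcases hc.cases (κ p) with h | h | h | h | h | h | h | h | h | h
  exacts [absurd h h1.1, absurd h h1.2.1, absurd h h1.2.2.1, absurd h h1.2.2.2, ⟨0, h.symm⟩,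
    ⟨2, h.symm⟩, ⟨4, h.symm⟩, ⟨1, h.symm⟩, ⟨3, h.symm⟩, ⟨5, h.symm⟩]

include hδ hX in
lemma NN_of_cnt {σ : Multiset S3} (hσ : Mesh δ σ) {e f g : Fin 10}
    (h : cnt κ {e, f, g} (cut σ X) ≠ 0) : NN δ κ {e, f, g} := by
  obtain ⟨m, hm, hm'⟩ := exists_of_cnt (hX.cut (by linarith) hσ).supp h
  exact NN_of_map hm.2.1 fun t ht => by rw [hm']; simpa using ht

include hδ hε hκe hκ hX in
lemma cnt_of_NN {a b c d e f g h i j : Fin 10} (hc : Cov a b c d e f g h i j) {σ : Multiset S3}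
    (hA : Wit δ κ {a, b, c, d} σ) (hB : NN δ κ {e, f, g}) : cnt κ {e, f, g} (cut σ X) = 1 := by
  have h1 := plane_sum hδ hε hκe hκ hX hc hA
  have h2 : cnt κ {h, i, j} (cut σ X) = 0 := by
    by_contra h0
    exact nn3 hδ hε hκ hX hc ⟨σ, hA⟩ hB (NN_of_cnt hδ hX hA.1 h0)
  rwa [h2, add_zero] at h1

include hδ hε hκe hκ hX in
lemma plane_cyc {a b c d e f g h i j : Fin 10} (hc : Cov a b c d e f g h i j) {σ : Multiset S3}
    (hA : Wit δ κ {a, b, c, d} σ) :
    cnt κ {e, f, g} (cut σ X) + cnt κ {e, f, h} (cut σ X) + cnt κ {e, f, i} (cut σ X) +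
      cnt κ {e, f, j} (cut σ X) = 0 := by
  have hδ1 : δ ≤ 1 := by linarith
  have hz := hX.cut hδ1 hA.1
  have hn := hc.nodup
  simp only [List.nodup_cons, List.mem_cons, List.not_mem_nil, or_false, not_or,
      List.nodup_nil, and_true, not_false_eq_true] at hn
  have hef : e ≠ f := hn.2.2.2.2.1.1
  have h1 : Bor.d (push κ (H Neg.neg (cut σ X))) = 0 := by
    rw [d_push]
    refine push_inv_eq_zero ng_invol hκe (free_of_NA (k := 2) (by omega) (d_mem_NA (H_mem
      (Supp_mono (fun m hm => ⟨hm.1, hm.2.1.NA hδ1⟩) hz.supp)))) (push_d_of_split (hz.split hδ1) hz.cyc)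
  have h2 := co_d (E := ({e, f} : Multiset (Fin 10))) (by simpa using hef)
    (push κ (H Neg.neg (cut σ X)))
  rw [h1, map_zero, Finset.sum_filter, hc.sum] at h2
  have h3 : ∀ q ∈ ({a, b, c, d} : Finset (Fin 10)),
      co (q ::ₘ {e, f}) (push κ (H Neg.neg (cut σ X))) = 0 := by
    intro q hq
    by_contra h0
    obtain ⟨m, hm, hm'⟩ := exists_of_cnt hz.supp h0
    obtain ⟨p, hp, hp'⟩ := Multiset.mem_map.1 (hm' ▸ Multiset.mem_cons_self q _ : q ∈ m.map κ)
    exact hA.avoid hε hκ (hm.2.2 p hp).2 (hp' ▸ hq)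
  have h4 : ∀ q : Fin 10, (q ::ₘ {e, f} : Multiset (Fin 10)) = {e, f, q} := fun q => by
    simp only [Multiset.insert_eq_cons, ← Multiset.cons_zero]
    rw [Multiset.cons_swap q e, Multiset.cons_swap q f]
  rw [h3 a (by simp), h3 b (by simp), h3 c (by simp), h3 d (by simp),
    if_neg (c := e ∉ _) (by simp), if_neg (c := f ∉ _) (by simp),
    if_pos (c := g ∉ _) (by simp; grind), if_pos (c := h ∉ _) (by simp; grind),
    if_pos (c := i ∉ _) (by simp; grind), if_pos (c := j ∉ _) (by simp; grind), h4, h4, h4, h4]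
    at h2
  simp only [ite_self, zero_add, add_zero] at h2
  exact h2.symm

include hδ hε hκe hκ hX in
lemma nn6 {a b c d e f g h i j : Fin 10} (hc : Cov a b c d e f g h i j) (hA : NN δ κ {a, b, c, d})
    (hB : NN δ κ {e, f, g}) : ∃ q, q ≠ e ∧ q ≠ f ∧ q ≠ g ∧ NN δ κ {e, f, g, q} := by
  have hδ1 : δ ≤ 1 := by linarith
  obtain ⟨σA, hA⟩ := hA
  obtain ⟨σB, hB'⟩ := id hB
  have h1 := cnt_of_NN hδ hε hκe hκ hX hc hA hB
  have h2 : cnt κ {e, f, g} (cut σB X) = 0 := by
    by_contra h0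
    obtain ⟨m, hm, hm'⟩ := exists_of_cnt (hX.cut hδ1 hB'.1).supp h0
    obtain ⟨p, hp, hp'⟩ := Multiset.mem_map.1 (by rw [hm']; simp : e ∈ m.map κ)
    exact hB'.avoid hε hκ (hm.2.2 p hp).2 (by simp [hp'])
  have hus : sel (SS σA) X + sel (SS σB) X ∈ Supp (Gd δ (fun _ => True) 4) :=
    Submodule.add_mem _ (sel_mem' _ hX.supp) (sel_mem' _ hX.supp)
  have h4 := push_H_d ng_invol hκe (k := 2) (Supp_mono (fun m hm => ⟨hm.1, hm.2.1.NA hδ1⟩) hus)
    (push_add_inv (hX.sel_split hδ1 σA) (hX.sel_split hδ1 σB))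
  have h5 : co {e, f, g} (push κ (H Neg.neg (Bor.d (sel (SS σA) X + sel (SS σB) X)))) = 1 := by
    rw [cnt, cut] at h1 h2
    rw [map_add, map_add, map_add, map_add, h1, h2, add_zero]
  rw [h4, co_d hc.nodup3] at h5
  obtain ⟨q, hq, hq'⟩ := Finset.exists_ne_zero_of_sum_ne_zero (h5.trans_ne one_ne_zero)
  obtain ⟨m, hm, hm'⟩ := exists_of_cnt (c := κ) (T := q ::ₘ {e, f, g}) hus hq'
  simp only [Finset.mem_filter, Finset.mem_univ, true_and, Multiset.insert_eq_cons,
    Multiset.mem_cons, Multiset.mem_singleton, not_or] at hq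
  refine ⟨q, hq.1, hq.2.1, hq.2.2, NN_of_map hm.2.1 fun t ht => ?_⟩
  rw [hm']
  simp only [Finset.mem_insert, Finset.mem_singleton] at ht
  rcases ht with rfl | rfl | rfl | rfl <;> simp

include hδ hε hκe hκ hX in
lemma hyp_NN : Hyp (NN δ κ) := by
  refine ⟨fun a b c d ⟨σ, h1, h2⟩ => ⟨σ, h1, fun t ht => h2 t ?_⟩,
    fun a b c d e f g h i j hc hA hB => nn1 hδ hε hκe hκ hX hc hA hB,
    fun a b c d e f g h i j hc ⟨σ, hA⟩ => ?_,
    fun a b c d e f g h i j hc hA hB hC => nn3 hδ hε hκ hX hc hA hB hC,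
    fun a b c d e f g h i j hc ⟨σ, hA⟩ hB => ?_,
    fun a b c d e f g h i j hc ⟨σ, hA⟩ hB hC hD => ?_,
    fun a b c d e f g h i j hc hA hB => ?_⟩
  · simp only [Finset.mem_insert, Finset.mem_singleton] at ht ⊢
    tauto
  · have h1 := plane_sum hδ hε hκe hκ hX hc hA
    by_cases h2 : cnt κ {e, f, g} (cut σ X) = 0
    · rw [h2, zero_add] at h1
      exact Or.inr (NN_of_cnt hδ hX hA.1 (h1 ▸ one_ne_zero))
    · exact Or.inl (NN_of_cnt hδ hX hA.1 h2)
  · have h1 := plane_cyc hδ hε hκe hκ hX hc hA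
    by_contra h0
    simp only [not_or] at h0
    have h2 : ∀ {e f g : Fin 10}, ¬ NN δ κ {e, f, g} → cnt κ {e, f, g} (cut σ X) = 0 :=
      fun h => by_contra fun h' => h (NN_of_cnt hδ hX hA.1 h')
    rw [cnt_of_NN hδ hε hκe hκ hX hc hA hB, h2 h0.1, h2 h0.2.1, h2 h0.2.2] at h1
    exact absurd h1 (by decide)
  · have h1 := plane_cyc hδ hε hκe hκ hX hc hA
    rw [cnt_of_NN hδ hε hκe hκ hX hc hA hB, cnt_of_NN hδ hε hκe hκ hX hc.sw1 hA hC,
      cnt_of_NN hδ hε hκe hκ hX hc.sw2 hA hD] at h1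
    refine NN_of_cnt hδ hX hA.1 fun h0 => ?_
    rw [h0] at h1
    exact absurd h1 (by decide)
  · obtain ⟨q, h1, h2, h3, h4⟩ := nn6 hδ hε hκe hκ hX hc hA hB
    rcases hc.cases q with rfl | rfl | rfl | rfl | rfl | rfl | rfl | rfl | rfl | rfl
    · exact Or.inl h4
    · exact Or.inr (Or.inl h4)
    · exact Or.inr (Or.inr (Or.inl h4))
    · exact Or.inr (Or.inr (Or.inr h4))
    · exact absurd rfl h1
    · exact absurd rfl h2
    · exact absurd rfl h3
    · exact (nn1 hδ hε hκe hκ hX hc hA h4).elim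
    · exact (nn1 hδ hε hκe hκ hX hc.sw4 hA h4).elim
    · exact (nn1 hδ hε hκe hκ hX hc.sw5 hA h4).elim

end

theorem no_colouring {ε : ℝ} (hε : 0 < ε) {κ : S3 → Fin 10}
    (hκe : ∀ p, κ (-p) = κ p) (hκ : ∀ p q, κ p = κ q → ε ≤ |ip p q|) : False := by
  set δ := min (1 / 100) (ε / 4) with hδdef
  have hδ : δ ≤ 1 / 100 := min_le_left _ _
  have hδ2 : δ ≤ ε / 4 := min_le_right _ _
  have hδ0 : 0 < δ := lt_min (by norm_num) (by linarith)
  have hε' : 2 * δ < ε := by linarith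
  obtain ⟨X, hX⟩ := exists_Sph 4 le_rfl δ hδ0 (by linarith)
  have hX' : Sph δ (fun _ => True) 4 X := hX.mono fun _ _ => trivial
  obtain ⟨m, hm, hnd⟩ := exists_nodup (by linarith) hε' hκe hκ hX'
  have h4 : (m.map κ).card = 4 := by rw [Multiset.card_map, hm.1]
  obtain ⟨a, b, c, d, h5⟩ := Multiset.card_eq_four.1 h4
  rw [h5] at hnd
  refine (hyp_NN hδ hε' hκe hκ hX').false (a := a) (b := b) (c := c) (d := d) hnd
    (NN_of_map hm.2.1 fun t ht => ?_)
  rw [h5]
  simpa using ht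

end Crest.Agent.H1.Bor
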