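import Mathlib
import Crest.Prelude.Def_FinProb

/-! Fourier analysis on the biased cube. -/

set_option autoImplicit false

noncomputable section

namespace Crest.Agent.H1.Cube

open Finset Crest.FinProb

variable {ι : Type*} [Fintype ι] [DecidableEq ι]

def Ex (p : ℝ) (g : (ι → Bool) → ℝ) : ℝ := ∑ x, bernoulliWeight p x * g x

def sg (p : ℝ) : ℝ := √(p * (1 - p))

def ph (p : ℝ) (b : Bool) : ℝ := if b then (1 - p) / sg p else -p / sg p

def chi (p : ℝ) (S : Finset ι) (x : ι → Bool) : ℝ := ∏ e ∈ S, ph p (x e)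

def fc (p : ℝ) (f : (ι → Bool) → ℝ) (S : Finset ι) : ℝ := Ex p fun x => f x * chi p S x

variable {p : ℝ}

lemma sg_pos (h0 : 0 < p) (h1 : p < 1) : 0 < sg p := Real.sqrt_pos.2 (mul_pos h0 (by linarith))

lemma sg_sq (h0 : 0 < p) (h1 : p < 1) : sg p ^ 2 = p * (1 - p) :=
  Real.sq_sqrt (mul_pos h0 (by linarith)).le

lemma sg_le (h0 : 0 < p) (h1 : p < 1) : sg p ≤ 1 / 2 := by
  have h2 := sg_sq h0 h1
  have h3 := sg_pos h0 h1
  nlinarith [sq_nonneg (p - 1 / 2)]

omit [DecidableEq ι] in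
lemma wt_nonneg (h0 : 0 ≤ p) (h1 : p ≤ 1) (x : ι → Bool) : 0 ≤ bernoulliWeight p x :=
  prod_nonneg fun i _ => by split_ifs <;> linarith

lemma Ex_add (f g : (ι → Bool) → ℝ) : Ex p (fun x => f x + g x) = Ex p f + Ex p g := by
  simp [Ex, mul_add, sum_add_distrib]

lemma Ex_sub (f g : (ι → Bool) → ℝ) : Ex p (fun x => f x - g x) = Ex p f - Ex p g := by
  simp [Ex, mul_sub, sum_sub_distrib]

lemma Ex_const_mul (c : ℝ) (f : (ι → Bool) → ℝ) : Ex p (fun x => c * f x) = c * Ex p f := by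
  simp [Ex, mul_sum, mul_left_comm]

lemma Ex_mul_const (c : ℝ) (f : (ι → Bool) → ℝ) : Ex p (fun x => f x * c) = Ex p f * c := by
  simp [Ex, sum_mul, mul_assoc]

lemma Ex_sum {κ : Type*} (s : Finset κ) (f : κ → (ι → Bool) → ℝ) :
    Ex p (fun x => ∑ k ∈ s, f k x) = ∑ k ∈ s, Ex p (f k) := by
  simp only [Ex, mul_sum]
  exact sum_comm

lemma Ex_mono (h0 : 0 ≤ p) (h1 : p ≤ 1) {f g : (ι → Bool) → ℝ} (h : ∀ x, f x ≤ g x) :
    Ex p f ≤ Ex p g :=
  sum_le_sum fun x _ => mul_le_mul_of_nonneg_left (h x) (wt_nonneg h0 h1 x)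

lemma Ex_nonneg (h0 : 0 ≤ p) (h1 : p ≤ 1) {f : (ι → Bool) → ℝ} (h : ∀ x, 0 ≤ f x) :
    0 ≤ Ex p f :=
  sum_nonneg fun x _ => mul_nonneg (wt_nonneg h0 h1 x) (h x)

lemma Ex_prod (g : ι → Bool → ℝ) :
    Ex p (fun x => ∏ e, g e (x e)) = ∏ e, (p * g e true + (1 - p) * g e false) := by
  have h := prod_univ_sum (fun _ : ι => (univ : Finset Bool))
    (fun e b => (if b then p else 1 - p) * g e b)
  rw [Fintype.piFinset_univ] at h
  simp only [Fintype.sum_bool, if_true, Bool.false_eq_true, if_false] at h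
  rw [h, Ex]
  refine sum_congr rfl fun x _ => ?_
  rw [bernoulliWeight, ← prod_mul_distrib]

lemma Ex_const (c : ℝ) : Ex p (fun _ : ι → Bool => c) = c := by
  have := Ex_prod (ι := ι) (p := p) (fun _ _ => 1)
  simp only [prod_const_one, mul_one, add_sub_cancel] at this
  have h2 := Ex_const_mul (ι := ι) (p := p) c (fun _ => 1)
  simpa [this] using h2

lemma Ex_coord (e : ι) (g : Bool → ℝ) :
    Ex p (fun x : ι → Bool => g (x e)) = p * g true + (1 - p) * g false := by
  have := Ex_prod (p := p) (fun e' b => if e' = e then g b else 1)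
  simp only [prod_ite_eq', mem_univ, if_true] at this
  rw [this, ← prod_subset (subset_univ {e})]
  · simp
  · intro x _ hx
    simp at hx
    simp [hx]

lemma Ex_abs_le (h0 : 0 ≤ p) (h1 : p ≤ 1) (f : (ι → Bool) → ℝ) :
    |Ex p f| ≤ Ex p fun x => |f x| := by
  refine (abs_sum_le_sum_abs _ _).trans (le_of_eq (sum_congr rfl fun x _ => ?_))
  rw [abs_mul, abs_of_nonneg (wt_nonneg h0 h1 x)]

lemma Ex_cs (h0 : 0 ≤ p) (h1 : p ≤ 1) (f g : (ι → Bool) → ℝ) :
    (Ex p fun x => f x * g x) ^ 2 ≤ (Ex p fun x => f x ^ 2) * Ex p fun x => g x ^ 2 := by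
  have := sum_mul_sq_le_sq_mul_sq univ (fun x : ι → Bool => √(bernoulliWeight p x) * f x)
    (fun x : ι → Bool => √(bernoulliWeight p x) * g x)
  have h2 : ∀ x : ι → Bool, √(bernoulliWeight p x) ^ 2 = bernoulliWeight p x := fun x =>
    Real.sq_sqrt (wt_nonneg h0 h1 x)
  simp only [mul_pow, h2] at this
  have h3 : (Ex p fun x => f x * g x) = ∑ x : ι → Bool, √(bernoulliWeight p x) * f x *
      (√(bernoulliWeight p x) * g x) := by
    refine sum_congr rfl fun x _ => ?_
    linear_combination (-(f x * g x)) * h2 x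
  rw [h3]
  exact this

lemma Ex_comp (σ : ι ≃ ι) (f : (ι → Bool) → ℝ) : Ex p (fun x => f (x ∘ σ)) = Ex p f := by
  refine Fintype.sum_equiv (σ.symm.arrowCongr (Equiv.refl Bool)) _ _ fun x => ?_
  have : (σ.symm.arrowCongr (Equiv.refl Bool)) x = x ∘ σ := by ext; simp
  rw [this]
  congr 1
  exact (Equiv.prod_comp σ (fun i => if x i then p else 1 - p)).symm

lemma chi_eq (S : Finset ι) (x : ι → Bool) :
    chi p S x = ∏ e, if e ∈ S then ph p (x e) else 1 := by
  rw [chi, prod_ite_mem, univ_inter]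

lemma ph_m1 : p * ph p true + (1 - p) * ph p false = 0 := by
  simp [ph]; ring

lemma ph_m2 (h0 : 0 < p) (h1 : p < 1) : p * ph p true ^ 2 + (1 - p) * ph p false ^ 2 = 1 := by
  have h2 := sg_sq h0 h1
  have h3 := (sg_pos h0 h1).ne'
  simp only [ph, if_true, Bool.false_eq_true, if_false, div_pow, h2]
  have h4 : 1 - p ≠ 0 := by linarith
  have h5 : p ≠ 0 := h0.ne'
  field_simp
  ring

lemma Ex_chi_mul (h0 : 0 < p) (h1 : p < 1) (S T : Finset ι) :
    Ex p (fun x => chi p S x * chi p T x) = if S = T then 1 else 0 := by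
  simp only [chi_eq, ← prod_mul_distrib]
  rw [Ex_prod (fun e b => (if e ∈ S then ph p b else 1) * if e ∈ T then ph p b else 1)]
  split_ifs with h
  · subst h
    refine prod_eq_one fun e _ => ?_
    split_ifs
    · rw [← sq, ← sq, ph_m2 h0 h1]
    · ring
  · have : ∃ e, ¬ (e ∈ S ↔ e ∈ T) := by
      by_contra h2
      push Not at h2
      exact h (Finset.ext h2)
    obtain ⟨e, he⟩ := this
    refine prod_eq_zero (mem_univ e) ?_
    by_cases h2 : e ∈ S
    · have h3 : e ∉ T := fun h3 => he (by simp [h2, h3])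
      simpa [h2, h3] using ph_m1
    · have h3 : e ∈ T := by
        by_contra h3
        exact he (by simp [h2, h3])
      simpa [h2, h3] using ph_m1

omit [Fintype ι] [DecidableEq ι] in
@[simp] lemma chi_empty (x : ι → Bool) : chi p ∅ x = 1 := by simp [chi]

lemma Ex_chi (h0 : 0 < p) (h1 : p < 1) (S : Finset ι) :
    Ex p (chi p S) = if S = ∅ then 1 else 0 := by
  simpa using Ex_chi_mul h0 h1 S ∅

lemma fc_empty (f : (ι → Bool) → ℝ) : fc p f ∅ = Ex p f := by simp [fc]

lemma expand (h0 : 0 < p) (h1 : p < 1) (f : (ι → Bool) → ℝ) (x : ι → Bool) :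
    f x = ∑ S, fc p f S * chi p S x := by
  have h2 := sg_sq h0 h1
  have h3 := (sg_pos h0 h1).ne'
  have key : ∀ y : ι → Bool, bernoulliWeight p y * ∑ S, chi p S y * chi p S x =
      if y = x then 1 else 0 := by
    intro y
    have h4 : ∑ S, chi p S y * chi p S x = ∏ e, (1 + ph p (y e) * ph p (x e)) := by
      rw [prod_one_add, powerset_univ]
      exact sum_congr rfl fun S _ => by rw [chi, chi, prod_mul_distrib]
    rw [h4, bernoulliWeight, ← prod_mul_distrib]
    have h5 : ∀ a b : Bool, (if a then p else 1 - p) * (1 + ph p a * ph p b) =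
        if a = b then 1 else 0 := by
      intro a b
      have h6 : 1 - p ≠ 0 := by linarith
      have h7 : p ≠ 0 := h0.ne'
      have h8 : ph p a * ph p b = (if a then 1 - p else -p) * (if b then 1 - p else -p) /
          (p * (1 - p)) := by
        rw [← h2]
        cases a <;> cases b <;> simp only [ph, if_true, Bool.false_eq_true, if_false] <;>
          field_simp
      rw [h8]
      cases a <;> cases b <;>
        simp only [if_true, Bool.false_eq_true, if_false, Bool.true_eq_false] <;>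
        field_simp <;> ring
    simp only [h5]
    rw [prod_ite_zero]
    simp [funext_iff]
  simp only [fc, Ex, sum_mul]
  rw [sum_comm]
  have : ∀ y, ∑ S, bernoulliWeight p y * (f y * chi p S y) * chi p S x =
      f y * if y = x then 1 else 0 := by
    intro y
    rw [← key, mul_sum, mul_sum]
    exact sum_congr rfl fun S _ => by ring
  simp [this]

lemma Ex_sum_mul_sum (h0 : 0 < p) (h1 : p < 1) (a b : Finset ι → ℝ) :
    Ex p (fun x => (∑ S, a S * chi p S x) * ∑ S, b S * chi p S x) = ∑ S, a S * b S := by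
  simp only [sum_mul_sum, Ex_sum]
  refine sum_congr rfl fun S _ => ?_
  have : ∀ T, Ex p (fun x => a S * chi p S x * (b T * chi p T x)) =
      if S = T then a S * b T else 0 := by
    intro T
    have h := Ex_const_mul (p := p) (a S * b T) (fun x => chi p S x * chi p T x)
    rw [Ex_chi_mul h0 h1, mul_ite, mul_one, mul_zero] at h
    rw [← h]
    congr 1
    ext x
    ring
  simp [this]

lemma fc_sum (h0 : 0 < p) (h1 : p < 1) (a : Finset ι → ℝ) (T : Finset ι) :
    fc p (fun x => ∑ S, a S * chi p S x) T = a T := by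
  simp only [fc, sum_mul, Ex_sum, mul_assoc, Ex_const_mul, Ex_chi_mul h0 h1]
  simp

lemma plancherel (h0 : 0 < p) (h1 : p < 1) (f g : (ι → Bool) → ℝ) :
    Ex p (fun x => f x * g x) = ∑ S, fc p f S * fc p g S := by
  rw [← Ex_sum_mul_sum h0 h1]
  congr 1
  ext x
  rw [← expand h0 h1 f x, ← expand h0 h1 g x]

lemma parseval (h0 : 0 < p) (h1 : p < 1) (f : (ι → Bool) → ℝ) :
    Ex p (fun x => f x ^ 2) = ∑ S, fc p f S ^ 2 := by
  simp only [sq]
  exact plancherel h0 h1 f f

lemma fc_sub (f g : (ι → Bool) → ℝ) (S : Finset ι) :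
    fc p (fun x => f x - g x) S = fc p f S - fc p g S := by
  simp only [fc, sub_mul, Ex_sub]

/-- averaging over the coordinates in `J` -/
def av (p : ℝ) (J : Finset ι) (u : (ι → Bool) → ℝ) (x : ι → Bool) : ℝ :=
  Ex p fun y => u (J.piecewise y x)

omit [Fintype ι] in
lemma chi_piecewise (J T : Finset ι) (y x : ι → Bool) :
    chi p T (J.piecewise y x) = chi p (T ∩ J) y * chi p (T \ J) x := by
  rw [chi, ← prod_inter_mul_prod_sdiff T J]
  congr 1
  · exact prod_congr rfl fun e he => by rw [piecewise_eq_of_mem _ _ _ (mem_inter.1 he).2]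
  · exact prod_congr rfl fun e he => by rw [piecewise_eq_of_notMem _ _ _ (mem_sdiff.1 he).2]

lemma av_eq (h0 : 0 < p) (h1 : p < 1) (J : Finset ι) (u : (ι → Bool) → ℝ) (x : ι → Bool) :
    av p J u x = ∑ T, (if Disjoint T J then fc p u T else 0) * chi p T x := by
  have : (fun y => u (J.piecewise y x)) = fun y => ∑ T, fc p u T * chi p (T \ J) x *
      chi p (T ∩ J) y := by
    ext y
    rw [expand h0 h1 u]
    exact sum_congr rfl fun T _ => by rw [chi_piecewise]; ring
  rw [av, this, Ex_sum]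
  refine sum_congr rfl fun T _ => ?_
  rw [Ex_const_mul, Ex_chi h0 h1]
  by_cases h : Disjoint T J
  · rw [if_pos h, if_pos (disjoint_iff_inter_eq_empty.1 h), h.sdiff_eq_left, mul_one]
  · rw [if_neg h, if_neg (fun h2 => h (disjoint_iff_inter_eq_empty.2 h2))]
    simp

lemma fc_av (h0 : 0 < p) (h1 : p < 1) (J : Finset ι) (u : (ι → Bool) → ℝ) (T : Finset ι) :
    fc p (av p J u) T = if Disjoint T J then fc p u T else 0 := by
  rw [funext (av_eq h0 h1 J u), fc_sum h0 h1]

lemma Ex_av (h0 : 0 < p) (h1 : p < 1) (J : Finset ι) (u : (ι → Bool) → ℝ) :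
    Ex p (av p J u) = Ex p u := by
  rw [← fc_empty, fc_av h0 h1, if_pos (disjoint_empty_left J), fc_empty]

lemma Ex_abs_av_le (h0 : 0 < p) (h1 : p < 1) (J : Finset ι) (u : (ι → Bool) → ℝ) :
    Ex p (fun x => |av p J u x|) ≤ Ex p fun x => |u x| := by
  rw [← Ex_av h0 h1 J (fun x => |u x|)]
  exact Ex_mono h0.le h1.le fun x => Ex_abs_le h0.le h1.le _

lemma av_single (e : ι) (u : (ι → Bool) → ℝ) (x : ι → Bool) :
    av p {e} u x = p * u (Function.update x e true) + (1 - p) * u (Function.update x e false) := by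
  rw [← Ex_coord e (fun b => u (Function.update x e b)), av]
  congr 1
  ext y
  rw [piecewise_singleton]

/-- a `0/1`-valued function -/
def IsBool (f : (ι → Bool) → ℝ) : Prop := ∀ x, f x = 0 ∨ f x = 1

/-- the spectral weight on sets meeting `J` -/
lemma Ex_sub_av_sq (h0 : 0 < p) (h1 : p < 1) (J : Finset ι) (u : (ι → Bool) → ℝ) :
    Ex p (fun x => u x * (u x - av p J u x)) =
      ∑ T, if Disjoint T J then 0 else fc p u T ^ 2 := by
  rw [plancherel h0 h1]
  refine sum_congr rfl fun T _ => ?_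
  rw [fc_sub, fc_av h0 h1]
  split_ifs <;> ring

lemma Ex_abs_sub_av (h0 : 0 < p) (h1 : p < 1) (J : Finset ι) {u : (ι → Bool) → ℝ}
    (hu : IsBool u) : Ex p (fun x => |u x - av p J u x|) =
      2 * ∑ T, if Disjoint T J then 0 else fc p u T ^ 2 := by
  rw [← Ex_sub_av_sq h0 h1]
  have ha : ∀ x, 0 ≤ av p J u x := fun x =>
    Ex_nonneg h0.le h1.le fun y => by rcases hu (J.piecewise y x) with h | h <;> simp [h]
  have hb : ∀ x, av p J u x ≤ 1 := fun x => by
    rw [← Ex_const (ι := ι) (p := p) 1]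
    exact Ex_mono h0.le h1.le fun y => by rcases hu (J.piecewise y x) with h | h <;> simp [h]
  have : (fun x => |u x - av p J u x|) = fun x => 2 * (u x * (u x - av p J u x)) -
      (u x - av p J u x) := by
    ext x
    rcases hu x with h | h
    · rw [h, abs_of_nonpos (by linarith [ha x])]; ring
    · rw [h, abs_of_nonneg (by linarith [hb x])]; ring
  rw [this, Ex_sub, Ex_const_mul, Ex_sub, Ex_av h0 h1]
  simp

/-- the influence of a coordinate -/
def inf (p : ℝ) (f : (ι → Bool) → ℝ) (e : ι) : ℝ :=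
  Ex p fun x => (f (Function.update x e true) - f (Function.update x e false)) ^ 2

lemma sum_mem_fc (h0 : 0 < p) (h1 : p < 1) (f : (ι → Bool) → ℝ) (e : ι) :
    (∑ T, if e ∈ T then fc p f T ^ 2 else 0) = sg p ^ 2 * inf p f e := by
  have h2 : Ex p (fun x => (f x - av p {e} f x) ^ 2) = ∑ T, if e ∈ T then fc p f T ^ 2 else 0 := by
    rw [parseval h0 h1]
    refine sum_congr rfl fun T _ => ?_
    rw [fc_sub, fc_av h0 h1]
    by_cases h : e ∈ T <;> simp [h]
  rw [← h2, ← Ex_av h0 h1 {e}, inf, ← Ex_const_mul, sg_sq h0 h1]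
  congr 1
  ext x
  simp only [av_single, Function.update_idem]
  ring

lemma sum_card_fc (h0 : 0 < p) (h1 : p < 1) (f : (ι → Bool) → ℝ) :
    ∑ T, (#T : ℝ) * fc p f T ^ 2 = sg p ^ 2 * ∑ e, inf p f e := by
  rw [mul_sum]
  simp only [← sum_mem_fc h0 h1]
  rw [sum_comm]
  refine sum_congr rfl fun T _ => ?_
  rw [← sum_filter]
  simp

/-- the variance -/
def var (p : ℝ) (f : (ι → Bool) → ℝ) : ℝ := ∑ T, if T = ∅ then 0 else fc p f T ^ 2

lemma var_nonneg (f : (ι → Bool) → ℝ) : 0 ≤ var p f :=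
  sum_nonneg fun T _ => by split_ifs <;> positivity

lemma var_eq (h0 : 0 < p) (h1 : p < 1) {f : (ι → Bool) → ℝ} (hf : IsBool f) :
    var p f = Ex p f * (1 - Ex p f) := by
  have h2 := parseval h0 h1 f
  have h3 : (fun x => f x ^ 2) = f := by
    ext x
    rcases hf x with h | h <;> simp [h]
  rw [h3] at h2
  have h4 : ∑ S, fc p f S ^ 2 = var p f + Ex p f ^ 2 := by
    rw [var, ← fc_empty]
    have : fc p f ∅ ^ 2 = ∑ T : Finset ι, if T = ∅ then fc p f T ^ 2 else 0 := by simp
    rw [this, ← sum_add_distrib]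
    refine sum_congr rfl fun T _ => ?_
    split_ifs <;> simp
  linarith

lemma var_le (h0 : 0 < p) (h1 : p < 1) {f : (ι → Bool) → ℝ} (hf : IsBool f) :
    var p f ≤ 1 / 4 := by
  rw [var_eq h0 h1 hf]
  nlinarith [sq_nonneg (Ex p f - 1 / 2)]

lemma fc_map (σ : ι ≃ ι) {f : (ι → Bool) → ℝ} (hf : ∀ x, f (x ∘ σ) = f x) (T : Finset ι) :
    fc p f (T.map σ.toEmbedding) = fc p f T := by
  rw [fc, fc, ← Ex_comp σ (fun x => f x * chi p T x)]
  congr 1
  ext x
  rw [hf, chi, chi, prod_map]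
  rfl

end Crest.Agent.H1.Cube
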