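import Crest.Agent.H1.SidD

/-! # Quasirandomness of the sign kernel -/

open Finset Matrix
open scoped BigOperators

namespace Crest.Agent.H1.Sid

variable {F : Type} [Field F]

lemma exp_shift {A : Type} [AddCommGroup A] [Fintype A] (g : A → ℝ) (b : A) :
    𝔼 a, g (a + b) = 𝔼 a, g a :=
  Fintype.expect_equiv (Equiv.addRight b) _ _ fun _ => rfl

lemma exp_surj {A B : Type} [AddCommGroup A] [Fintype A] [AddCommGroup B] [Fintype B]
    (φ : A →+ B) (hφ : Function.Surjective φ) (g : B → ℝ) : 𝔼 a, g (φ a) = 𝔼 b, g b := by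
  have h1 : ∀ b, 𝔼 a, g (φ a) = 𝔼 a, g (b + φ a) := by
    intro b
    obtain ⟨s, rfl⟩ := hφ b
    rw [← exp_shift (fun a => g (φ a)) s]
    simp only [map_add, add_comm]
  calc 𝔼 a, g (φ a) = 𝔼 _b : B, 𝔼 a, g (φ a) := (Fintype.expect_const _).symm
    _ = 𝔼 b : B, 𝔼 a, g (b + φ a) := expect_congr rfl fun b _ => h1 b
    _ = 𝔼 a, 𝔼 b : B, g (b + φ a) := expect_comm _ _ _
    _ = 𝔼 b, g b := by simp only [exp_shift g, Fintype.expect_const]

/-- the corner matrix unit -/
def E0 (n : ℕ) : Sy F (n + 1) := ⟨Matrix.diagonal (Pi.single 0 1), Matrix.isSymm_diagonal _⟩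

/-- the principal minor -/
def mn {n : ℕ} : Sy F (n + 1) →+ Sy F n where
  toFun M := ⟨M.1.submatrix Fin.succ Fin.succ, Matrix.IsSymm.submatrix M.2 _⟩
  map_zero' := rfl
  map_add' _ _ := rfl

lemma mn_surj {n : ℕ} : Function.Surjective (mn : Sy F (n + 1) →+ Sy F n) := by
  intro N
  refine ⟨⟨Matrix.of fun i j => Fin.cases 0 (fun i => Fin.cases 0 (fun j => N.1 i j) j) i, ?_⟩, ?_⟩
  · refine Matrix.IsSymm.ext fun i j => ?_
    refine Fin.cases ?_ (fun i => ?_) i <;> refine Fin.cases ?_ (fun j => ?_) j <;> simp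
    exact Matrix.IsSymm.apply N.2 _ _
  · ext i j; simp [mn]

lemma det_shift {n : ℕ} (M : Sy F (n + 1)) (t : F) :
    (M + t • E0 n).1.det = M.1.det + t * (mn M).1.det := by
  have h : ∀ j : Fin (n + 1), (M + t • E0 n).1.submatrix Fin.succ j.succAbove =
      M.1.submatrix Fin.succ j.succAbove := by
    intro j; ext a b
    simp [E0, Matrix.diagonal_apply, Pi.single_apply]
  rw [Matrix.det_succ_row_zero, Matrix.det_succ_row_zero M.1]
  simp only [h, Fin.sum_univ_succ]
  simp [E0, mn, Matrix.diagonal_apply, Fin.succ_ne_zero, (Fin.succ_ne_zero _).symm]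
  ring

variable [Fintype F] [DecidableEq F]

lemma exp_line {n : ℕ} (g : Sy F (n + 1) → ℝ) : 𝔼 M, g M = 𝔼 M, 𝔼 t : F, g (M + t • E0 n) := by
  rw [expect_comm]
  simp only [exp_shift g, Fintype.expect_const]

lemma root_le (d m : F) (hm : m ≠ 0) :
    (𝔼 t : F, if d + t * m = 0 then (1 : ℝ) else 0) = 1 / Fintype.card F := by
  have : ∀ t : F, d + t * m = 0 ↔ t = -d / m := by
    intro t; rw [eq_div_iff hm]; constructor <;> intro h <;> linear_combination h
  simp only [this]
  rw [Fintype.expect_eq_sum_div_card]; simp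

lemma sing_le (n : ℕ) :
    (𝔼 M : Sy F n, if M.1.det = 0 then (1 : ℝ) else 0) ≤ n / Fintype.card F := by
  induction n with
  | zero => simp
  | succ n ih =>
    rw [exp_line]
    calc _ ≤ 𝔼 M : Sy F (n + 1), ((if (mn M).1.det = 0 then (1 : ℝ) else 0) +
          1 / Fintype.card F) := by
          refine expect_le_expect fun M _ => ?_
          simp only [det_shift]
          split_ifs with h
          · refine le_trans (expect_le univ_nonempty fun t _ => ?_) (le_add_of_nonneg_right
              (by positivity))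
            split_ifs <;> norm_num
          · rw [root_le _ _ h, zero_add]
      _ ≤ _ := by
          rw [expect_add_distrib, Fintype.expect_const,
            exp_surj mn mn_surj (fun N : Sy F n => if N.1.det = 0 then (1 : ℝ) else 0)]
          push_cast
          rw [add_div]; linarith

lemma chi_sum (hF : ringChar F ≠ 2) (c : F) (hc : c ≠ 0) :
    ∑ u : F, quadraticChar F u * quadraticChar F (u + c) = -1 := by
  have h1 : ∀ u : F, quadraticChar F u * quadraticChar F (u + c) =
      quadraticChar F (1 + c * u⁻¹) - if u = 0 then 1 else 0 := by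
    intro u
    split_ifs with h
    · subst h; simp
    · have : u * (u + c) = u ^ 2 * (1 + c * u⁻¹) := by field_simp
      rw [← map_mul, this, map_mul, quadraticChar_sq_one' h]; ring
  simp only [h1, sum_sub_distrib]
  have h2 : ∑ u : F, quadraticChar F (1 + c * u⁻¹) = ∑ w : F, quadraticChar F w :=
    Fintype.sum_bijective (fun u => 1 + c * u⁻¹)
      ((Equiv.addLeft 1).bijective.comp ((Equiv.mulLeft₀ c hc).bijective.comp inv_bijective))
      _ _ fun _ => rfl
  rw [h2, quadraticChar_sum_zero hF]
  simp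

lemma chi_abs (u : F) : |((quadraticChar F u : ℤ) : ℝ)| ≤ 1 := by
  rcases quadraticChar_isQuadratic F u with h | h | h <;> rw [h] <;> simp

/-- the Paley bound -/
lemma paley (hF : ringChar F ≠ 2) (d m : F) (hm : m ≠ 0) (a b : F → ℝ) (ha : ∀ s, |a s| ≤ 1)
    (hb : ∀ s, |b s| ≤ 1) :
    (𝔼 s, 𝔼 t, ((quadraticChar F (d + (s - t) * m) : ℤ) : ℝ) * a s * b t) ^ 2 ≤
      2 / Fintype.card F := by
  set χ : F → ℝ := fun u => ((quadraticChar F u : ℤ) : ℝ) with hχ
  have hq : (0 : ℝ) < Fintype.card F := by exact_mod_cast Fintype.card_pos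
  have e1 : (𝔼 s, 𝔼 t, χ (d + (s - t) * m) * a s * b t) =
      𝔼 s, a s * 𝔼 t, χ (d + (s - t) * m) * b t := by
    refine expect_congr rfl fun s _ => ?_
    rw [mul_expect]; exact expect_congr rfl fun t _ => by ring
  have h1 : (𝔼 s, a s ^ 2) ≤ 1 := expect_le univ_nonempty fun s _ => by
    rw [← sq_abs]; exact pow_le_one₀ (abs_nonneg _) (ha s)
  have h2 : (𝔼 s, (𝔼 t, χ (d + (s - t) * m) * b t) ^ 2) ≤ 2 / Fintype.card F := by
    have e2 : (𝔼 s, (𝔼 t, χ (d + (s - t) * m) * b t) ^ 2) =
        𝔼 t, 𝔼 t', b t * b t' * 𝔼 s, χ (d + (s - t) * m) * χ (d + (s - t') * m) := by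
      simp only [sq, Fintype.expect_mul_expect]
      simp only [mul_expect]
      rw [expect_comm]
      refine expect_congr rfl fun t _ => ?_
      rw [expect_comm]
      exact expect_congr rfl fun t' _ => expect_congr rfl fun s _ => by ring
    rw [e2]
    refine expect_le univ_nonempty fun t _ => ?_
    calc _ ≤ 𝔼 t' : F, ((if t' = t then (1 : ℝ) else 0) + 1 / Fintype.card F) := by
          refine expect_le_expect fun t' _ => ?_
          have hbb : |b t * b t'| ≤ 1 := by
            rw [abs_mul]; exact mul_le_one₀ (hb t) (abs_nonneg _) (hb t')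
          refine le_trans (le_abs_self _) ?_
          rw [abs_mul]
          refine le_trans (mul_le_of_le_one_left (abs_nonneg _) hbb) ?_
          split_ifs with h
          · refine le_trans (le_trans (abs_expect_le _ _) (expect_le univ_nonempty fun s _ => ?_))
              (le_add_of_nonneg_right (by positivity))
            rw [abs_mul]; exact mul_le_one₀ (chi_abs _) (abs_nonneg _) (chi_abs _)
          · have hc : (t - t') * m ≠ 0 := mul_ne_zero (sub_ne_zero.2 (Ne.symm h)) hm
            have e3 : ∑ s, χ (d + (s - t) * m) * χ (d + (s - t') * m) =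
                ∑ u, χ u * χ (u + (t - t') * m) :=
              Fintype.sum_bijective (fun s => d + (s - t) * m)
                ((Equiv.addLeft d).bijective.comp ((Equiv.mulRight₀ m hm).bijective.comp
                  (Equiv.subRight t).bijective)) _ _ fun s => by
                    congr 2; ring
            have e4 : ∑ u, χ u * χ (u + (t - t') * m) = -1 := by
              simp only [hχ]; exact_mod_cast chi_sum hF _ hc
            rw [Fintype.expect_eq_sum_div_card, e3, e4, abs_div, zero_add]
            simp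
      _ = _ := by
          rw [expect_add_distrib, Fintype.expect_const, Fintype.expect_eq_sum_div_card]
          simp; ring
  calc _ ≤ (𝔼 s, a s ^ 2) * (𝔼 s, (𝔼 t, χ (d + (s - t) * m) * b t) ^ 2) := by
        rw [e1]; exact expect_mul_sq_le_sq_mul_sq _ _ _
    _ ≤ 1 * (2 / Fintype.card F) :=
        mul_le_mul h1 h2 (expect_nonneg fun _ _ => sq_nonneg _) zero_le_one
    _ = _ := one_mul _

theorem signStmt : SignStmt := by
  intro δ hδ
  obtain ⟨q₀, hq₀⟩ := exists_nat_gt (max (14 / δ) (8 / δ ^ 2))
  refine ⟨q₀, fun F _ _ _ hF hq α β hα hβ => ?_⟩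
  have hq1 : max (14 / δ) (8 / δ ^ 2) < Fintype.card F := hq₀.trans_le (by exact_mod_cast hq)
  have hq0 : (0 : ℝ) < Fintype.card F := by exact_mod_cast Fintype.card_pos
  have h1 : 7 / (Fintype.card F : ℝ) ≤ δ / 2 := by
    have := (max_lt_iff.1 hq1).1
    rw [div_lt_iff₀ hδ] at this
    rw [div_le_iff₀ hq0]; linarith
  have h2 : 2 / (Fintype.card F : ℝ) ≤ (δ / 2) ^ 2 := by
    have := (max_lt_iff.1 hq1).2
    rw [div_lt_iff₀ (by positivity)] at this
    rw [div_le_iff₀ hq0]; nlinarith
  have e1 : (𝔼 x, 𝔼 y, sg (x - y) * α x * β y) = 𝔼 x : Sy F 8, 𝔼 y : Sy F 8, 𝔼 s : F, 𝔼 t : F,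
      sg ((x - y) + (s - t) • E0 7) * α (x + s • E0 7) * β (y + t • E0 7) := by
    rw [exp_line (n := 7)]
    refine expect_congr rfl fun x _ => ?_
    rw [expect_comm]
    conv_rhs => rw [expect_comm]
    rw [expect_comm]
    refine expect_congr rfl fun s _ => ?_
    rw [exp_line (n := 7)]
    refine expect_congr rfl fun y _ => expect_congr rfl fun t _ => ?_
    congr 3
    have : ∀ (x y e : Sy F 8), x + s • e - (y + t • e) = x - y + (s - t) • e := by
      intro x y e; ext i j; simp; ring
    exact this _ _ _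
  rw [e1]
  calc _ ≤ 𝔼 x : Sy F 8, 𝔼 y : Sy F 8, ((if (mn (n := 7) (x - y)).1.det = 0 then (1 : ℝ) else 0) +
        δ / 2) := by
        refine le_trans (abs_expect_le _ _) (expect_le_expect fun x _ => ?_)
        refine le_trans (abs_expect_le _ _) (expect_le_expect fun y _ => ?_)
        split_ifs with h
        · refine le_trans (le_trans (abs_expect_le _ _) (expect_le univ_nonempty fun s _ =>
            le_trans (abs_expect_le _ _) (expect_le univ_nonempty fun t _ => ?_)))
            (le_add_of_nonneg_right (by positivity))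
          rw [abs_mul, abs_mul]
          exact mul_le_one₀ (mul_le_one₀ (chi_abs _) (abs_nonneg _) (hα _)) (abs_nonneg _) (hβ _)
        · rw [zero_add]
          refine abs_le_of_sq_le_sq' (le_trans ?_ h2) (by positivity) |> abs_le.2
          have := paley hF (x - y).1.det _ h (fun s => α (x + s • E0 7)) (fun t => β (y + t • E0 7))
            (fun _ => hα _) (fun _ => hβ _)
          simp only [sg, det_shift (n := 7)]
          exact this
    _ ≤ δ := by
        simp only [expect_add_distrib, Fintype.expect_const]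
        have : (𝔼 x : Sy F 8, 𝔼 y : Sy F 8,
            if (mn (n := 7) (x - y)).1.det = 0 then (1 : ℝ) else 0) ≤ 7 / Fintype.card F := by
          rw [expect_comm]
          refine expect_le univ_nonempty fun y _ => ?_
          simp only [sub_eq_add_neg]
          rw [exp_shift (fun x : Sy F 8 => if (mn (n := 7) x).1.det = 0 then (1 : ℝ) else 0),
            exp_surj (mn (n := 7)) mn_surj (fun N : Sy F 7 => if N.1.det = 0 then (1 : ℝ) else 0)]
          exact_mod_cast sing_le 7
        linarith

end Crest.Agent.H1.Sid
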