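import Crest.Agent.H1.CubeA

/-! Probabilistic existence lemmas and a counting calculus. -/

set_option autoImplicit false

noncomputable section

namespace Crest.Agent.H1.Vdw

open Finset Crest.Agent.H1.Cube

lemma exists_pot {X I : Type*} [DecidableEq X] {p : ℝ} (h0 : 0 ≤ p) (h1 : p ≤ 1) (F : Finset I)
    (J : I → Finset X) (g : I → Bool → ℝ) (c : I → ℝ)
    (h : ∑ i ∈ F, c i * (p * g i true + (1 - p) * g i false) ^ (J i).card < 1) :
    ∃ x : X → Bool, ∑ i ∈ F, c i * ∏ e ∈ J i, g i (x e) < 1 := by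
  classical
  set U := F.biUnion J with hU
  let ext : (U → Bool) → X → Bool := fun z e => if he : e ∈ U then z ⟨e, he⟩ else false
  by_contra hcon
  push Not at hcon
  have key : Ex p (fun z : U → Bool => ∑ i ∈ F, c i * ∏ e ∈ J i, g i (ext z e)) =
      ∑ i ∈ F, c i * (p * g i true + (1 - p) * g i false) ^ (J i).card := by
    rw [Ex_sum]
    refine sum_congr rfl fun i hi => ?_
    rw [Ex_const_mul]
    congr 1
    have hsub : J i ⊆ U := subset_biUnion_of_mem J hi
    have e1 : ∀ G : X → ℝ, ∏ e ∈ J i, G e = ∏ e : U, if e.1 ∈ J i then G e.1 else 1 := fun G => by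
      rw [prod_coe_sort U (fun e => if e ∈ J i then G e else 1), ← prod_filter,
        filter_mem_eq_inter, inter_eq_right.2 hsub]
    have e2 : ∀ z : U → Bool, ∏ e ∈ J i, g i (ext z e) =
        ∏ e : U, (fun (e : U) b => if e.1 ∈ J i then g i b else 1) e (z e) := fun z => by
      rw [e1]
      refine prod_congr rfl fun e _ => ?_
      simp [ext, e.2]
    simp only [e2]
    rw [Ex_prod (fun (e : U) b => if e.1 ∈ J i then g i b else 1), ← prod_const, e1]
    refine prod_congr rfl fun e _ => ?_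
    split_ifs <;> ring
  have := Ex_mono h0 h1 (f := fun _ : U → Bool => (1 : ℝ)) (fun z => hcon (ext z))
  rw [Ex_const, key] at this
  linarith

lemma prod_bool {X : Type*} (J : Finset X) (x : X → Bool) (b : Bool) (u v : ℝ) :
    ∏ e ∈ J, (if x e = b then u else v) =
      u ^ (J.filter (fun e => x e = b)).card * v ^ (J.card - (J.filter (fun e => x e = b)).card) := by
  rw [prod_ite, prod_const, prod_const]
  congr 2
  have := card_filter_add_card_filter_not (s := J) (fun e => x e = b)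
  omega

/-- A balanced two-colouring. -/
lemma exists_balanced {X : Type*} [DecidableEq X] (F : Finset (Finset X))
    (h : ∑ J ∈ F, (8 / 9 : ℝ) ^ J.card < 1 / 2) :
    ∃ x : X → Bool, ∀ J ∈ F, ∀ b, J.card ≤ 4 * (J.filter (fun e => x e = b)).card := by
  obtain ⟨x, hx⟩ := exists_pot (p := 1 / 2) (by norm_num) (by norm_num) (F ×ˢ (univ : Finset Bool))
    (fun i => i.1) (fun i b => if b = i.2 then 27 / 64 else 4 / 3) (fun _ => 1) (by
      rw [sum_product]
      calc _ ≤ ∑ J ∈ F, 2 * (8 / 9 : ℝ) ^ J.card := by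
            refine sum_le_sum fun J _ => ?_
            have : ((1 / 2 : ℝ) * (27 / 64) + (1 - 1 / 2) * (4 / 3)) ^ J.card ≤ (8 / 9) ^ J.card := by
              gcongr; norm_num
            have h2 : ((1 / 2 : ℝ) * (4 / 3) + (1 - 1 / 2) * (27 / 64)) ^ J.card ≤
                (8 / 9) ^ J.card := by
              gcongr; norm_num
            simp only [Fintype.sum_bool, if_true, Bool.false_eq_true, if_false, one_mul,
              Bool.true_eq_false]
            linarith
        _ < 1 := by rw [← mul_sum]; linarith)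
  refine ⟨x, fun J hJ b => ?_⟩
  by_contra hc
  push Not at hc
  have h1 := single_le_sum (f := fun i : Finset X × Bool => (1 : ℝ) * ∏ e ∈ i.1,
    (if x e = i.2 then (27 / 64 : ℝ) else 4 / 3)) (s := F ×ˢ univ)
    (fun i _ => by
      refine mul_nonneg zero_le_one (prod_nonneg fun e _ => ?_)
      split_ifs <;> norm_num) (a := (J, b)) (by simp [hJ])
  simp only [one_mul] at h1 hx
  rw [prod_bool] at h1
  set n := (J.filter (fun e => x e = b)).card
  have h3 : (4 / 3 : ℝ) ^ (3 * n) ≤ (4 / 3) ^ (J.card - n) :=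
    pow_le_pow_right₀ (by norm_num) (by omega)
  have h4 : (27 / 64 : ℝ) ^ n * (4 / 3) ^ (3 * n) = 1 := by
    rw [pow_mul, ← mul_pow]; norm_num
  have h5 : (27 / 64 : ℝ) ^ n * (4 / 3) ^ (3 * n) ≤ (27 / 64) ^ n * (4 / 3) ^ (J.card - n) := by
    gcongr
  linarith

/-- A sparse set meeting one family and meeting another family rarely. -/
lemma exists_sparse {X : Type*} [DecidableEq X] (H G : Finset (Finset X)) {σ : ℝ} (h0 : 0 < σ)
    (h1 : σ ≤ 1) (m : ℕ)
    (h : ∑ J ∈ H, (1 - σ) ^ J.card + ∑ J ∈ G, σ ^ m * 2 ^ J.card < 1) :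
    ∃ x : X → Bool, (∀ J ∈ H, ∃ e ∈ J, x e = true) ∧
      ∀ J ∈ G, (J.filter (fun e => x e = true)).card < m := by
  obtain ⟨x, hx⟩ := exists_pot (p := σ) h0.le h1 (H.disjSum G) (Sum.elim id id)
    (Sum.elim (fun _ b => if b = true then 0 else 1) (fun _ b => if b = true then σ⁻¹ else 1))
    (Sum.elim (fun _ => 1) (fun _ => σ ^ m)) (by
      rw [sum_disjSum]
      refine lt_of_le_of_lt (add_le_add (le_of_eq (sum_congr rfl fun J _ => by simp))
        (sum_le_sum fun J _ => ?_)) h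
      simp only [Sum.elim_inr, if_true, Bool.false_eq_true, if_false, mul_one, id]
      rw [mul_inv_cancel₀ h0.ne']
      gcongr
      linarith)
  rw [sum_disjSum] at hx
  simp only [Sum.elim_inl, Sum.elim_inr, id, one_mul] at hx
  have hA : ∀ J ∈ H, 0 ≤ ∏ e ∈ J, (if x e = true then (0 : ℝ) else 1) := fun J _ =>
    prod_nonneg fun e _ => by split_ifs <;> norm_num
  have hB : ∀ J ∈ G, 0 ≤ σ ^ m * ∏ e ∈ J, (if x e = true then σ⁻¹ else 1) := fun J _ =>
    mul_nonneg (by positivity) (prod_nonneg fun e _ => by split_ifs <;> positivity)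
  refine ⟨x, fun J hJ => ?_, fun J hJ => ?_⟩
  · by_contra hc
    push Not at hc
    have h2 := single_le_sum hA hJ
    rw [prod_congr rfl (g := fun _ => (1 : ℝ)) (fun e he => by simp [hc e he]),
      prod_const_one] at h2
    linarith [sum_nonneg hB]
  · by_contra hc
    push Not at hc
    have h2 := single_le_sum hB hJ
    rw [prod_bool, one_pow, mul_one] at h2
    have h3 : σ⁻¹ ^ m ≤ σ⁻¹ ^ (J.filter (fun e => x e = true)).card :=
      pow_le_pow_right₀ (one_le_inv_iff₀.2 ⟨h0, h1⟩) hc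
    have h4 : σ ^ m * σ⁻¹ ^ m = 1 := by rw [← mul_pow, mul_inv_cancel₀ h0.ne', one_pow]
    have h5 : σ ^ m * σ⁻¹ ^ m ≤ σ ^ m * σ⁻¹ ^ (J.filter (fun e => x e = true)).card := by gcongr
    linarith [sum_nonneg hA]

lemma sum_le_eighth {X : Type*} (F : Finset X) (f : X → ℝ) (T : ℕ) (hF : F.card ≤ 2 ^ T)
    (hf : ∀ J ∈ F, f J ≤ (1 / 2) ^ (T + 3)) : ∑ J ∈ F, f J ≤ 1 / 8 := by
  refine (sum_le_card_nsmul F f _ hf).trans ?_
  rw [nsmul_eq_mul]
  have : (F.card : ℝ) ≤ 2 ^ T := by exact_mod_cast hF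
  calc (F.card : ℝ) * (1 / 2) ^ (T + 3) ≤ 2 ^ T * (1 / 2) ^ (T + 3) := by gcongr
    _ = 1 / 8 := by rw [pow_add, ← mul_assoc, ← mul_pow]; norm_num

lemma pow_89 {n T : ℕ} (h : 6 * T ≤ n) : (8 / 9 : ℝ) ^ n ≤ (1 / 2) ^ T :=
  calc (8 / 9 : ℝ) ^ n ≤ (8 / 9) ^ (6 * T) := pow_le_pow_of_le_one (by norm_num) (by norm_num) h
    _ = ((8 / 9) ^ 6) ^ T := pow_mul _ _ _
    _ ≤ (1 / 2) ^ T := by gcongr; norm_num

lemma pow_one_sub {s n T : ℕ} (hs : 0 < s) (h : s * T ≤ n) :
    (1 - 1 / (s : ℝ)) ^ n ≤ (1 / 2) ^ T := by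
  have hs' : (1 : ℝ) ≤ s := by exact_mod_cast hs
  have h0 : 0 ≤ 1 - 1 / (s : ℝ) := by
    rw [sub_nonneg, div_le_one (by linarith)]; exact hs'
  have h1 : 1 - 1 / (s : ℝ) ≤ 1 := by
    have : 0 ≤ 1 / (s : ℝ) := by positivity
    linarith
  have h2 : (1 - 1 / (s : ℝ)) ^ s ≤ 1 / 2 := by
    have h3 : 1 - 1 / (s : ℝ) ≤ Real.exp (-(1 / s)) := by
      have := Real.add_one_le_exp (-(1 / (s : ℝ))); linarith
    calc (1 - 1 / (s : ℝ)) ^ s ≤ Real.exp (-(1 / s)) ^ s := by gcongr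
      _ = Real.exp (-1) := by
        rw [← Real.exp_nat_mul]; congr 1; field_simp
      _ ≤ 1 / 2 := by
        rw [Real.exp_neg, one_div]
        have := Real.add_one_le_exp (1 : ℝ)
        exact inv_anti₀ (by norm_num) (by linarith)
  calc (1 - 1 / (s : ℝ)) ^ n ≤ (1 - 1 / (s : ℝ)) ^ (s * T) := pow_le_pow_of_le_one h0 h1 h
    _ = ((1 - 1 / (s : ℝ)) ^ s) ^ T := pow_mul _ _ _
    _ ≤ (1 / 2) ^ T := by gcongr

/-- `R` is implied by equality of a code with `T` bits. -/
def Cd {P : Type*} (R : P → P → Prop) (T : ℕ) : Prop :=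
  ∃ c : P → ℕ, (∀ p, c p < 2 ^ T) ∧ ∀ p p', c p = c p' → R p p'

variable {P : Type*}

lemma Cd.mono {R R' : P → P → Prop} {T T' : ℕ} (h : Cd R T) (hR : ∀ p p', R p p' → R' p p')
    (hT : T ≤ T') : Cd R' T' := by
  obtain ⟨c, h1, h2⟩ := h
  exact ⟨c, fun p => (h1 p).trans_le (Nat.pow_le_pow_right (by norm_num) hT),
    fun p p' e => hR _ _ (h2 _ _ e)⟩

lemma Cd.and {R R' : P → P → Prop} {T T' : ℕ} (h : Cd R T) (h' : Cd R' T') :
    Cd (fun p p' => R p p' ∧ R' p p') (T + T') := by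
  obtain ⟨c, h1, h2⟩ := h
  obtain ⟨c', h1', h2'⟩ := h'
  refine ⟨fun p => c p + 2 ^ T * c' p, fun p => ?_, fun p p' e => ?_⟩
  · have := h1 p
    have := h1' p
    rw [pow_add]
    nlinarith
  · have e1 : c p = c p' := by
      have := congrArg (· % 2 ^ T) e
      simpa [Nat.mod_eq_of_lt (h1 p), Nat.mod_eq_of_lt (h1 p')] using this
    have e2 : c' p = c' p' := by
      simp only [e1, add_right_inj] at e
      exact Nat.eq_of_mul_eq_mul_left (by positivity) e
    exact ⟨h2 _ _ e1, h2' _ _ e2⟩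

lemma Cd.all {t T : ℕ} {R : Fin t → P → P → Prop} (h : ∀ j, Cd (R j) T) :
    Cd (fun p p' => ∀ j, R j p p') (t * T) := by
  induction t with
  | zero => exact ⟨fun _ => 0, fun _ => by simp, fun _ _ _ j => j.elim0⟩
  | succ t ih =>
    refine ((h 0).and (ih fun j => h j.succ)).mono (fun p p' hp j => ?_) (le_of_eq (by ring))
    exact Fin.cases hp.1 hp.2 j

lemma Cd.comp {P' : Type*} {R : P → P → Prop} {T : ℕ} (h : Cd R T) (f : P' → P) :
    Cd (fun p p' => R (f p) (f p')) T := by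
  obtain ⟨c, h1, h2⟩ := h
  exact ⟨fun p => c (f p), fun p => h1 _, fun p p' e => h2 _ _ e⟩

lemma Cd.of_lt {T : ℕ} (f : P → ℕ) (h : ∀ p, f p < 2 ^ T) : Cd (fun p p' => f p = f p') T :=
  ⟨f, h, fun _ _ e => e⟩

lemma Cd.of_bool (f : P → Bool) : Cd (fun p p' => f p = f p') 1 :=
  ⟨fun p => (f p).toNat, fun p => by beta_reduce; cases f p <;> simp, fun p p' e => by
    revert e; beta_reduce; cases f p <;> cases f p' <;> simp⟩

/-- A coded family is a finite family. -/
lemma Cd.family {Y : Type*} {T : ℕ} {A : P → Prop} {f : P → Y}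
    (h : Cd (fun p p' => A p → A p' → f p = f p') T) :
    ∃ F : Finset Y, F.card ≤ 2 ^ T ∧ (∀ p, A p → f p ∈ F) ∧ ∀ y ∈ F, ∃ p, A p ∧ f p = y := by
  classical
  obtain ⟨c, h1, h2⟩ := h
  let g : ∀ n, (∃ p, A p ∧ c p = n) → Y := fun n hn => f hn.choose
  set W := (range (2 ^ T)).filter (fun n => ∃ p, A p ∧ c p = n) with hW
  have hWm : ∀ n ∈ W, ∃ p, A p ∧ c p = n := fun n hn => (mem_filter.1 hn).2
  refine ⟨W.attach.image (fun n => g n.1 (hWm n.1 n.2)), ?_, fun p hp => ?_, fun y hy => ?_⟩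
  · refine card_image_le.trans ?_
    rw [card_attach]
    exact (card_filter_le _ _).trans (by simp)
  · refine mem_image.2 ⟨⟨c p, mem_filter.2 ⟨mem_range.2 (h1 p), p, hp, rfl⟩⟩, mem_attach _ _, ?_⟩
    have hn : ∃ q, A q ∧ c q = c p := ⟨p, hp, rfl⟩
    exact h2 _ _ hn.choose_spec.2 hn.choose_spec.1 hp
  · obtain ⟨n, -, rfl⟩ := mem_image.1 hy
    exact ⟨_, (hWm n.1 n.2).choose_spec.1, rfl⟩

lemma window (Pr : ℕ → Prop) [DecidablePred Pr] (Q c n : ℕ)
    (h : ∀ w < n, Q ≤ c * ((range Q).filter (fun i => Pr (w * Q + i))).card) :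
    n * Q ≤ c * ((range (n * Q)).filter Pr).card := by
  induction n with
  | zero => simp
  | succ n ih =>
    have h1 := ih fun w hw => h w (by omega)
    have h2 := h n (by omega)
    have h3 : ((range ((n + 1) * Q)).filter Pr).card = ((range (n * Q)).filter Pr).card +
        ((range Q).filter (fun i => Pr (n * Q + i))).card := by
      rw [add_mul, one_mul, card_filter, card_filter, card_filter, sum_range_add]
    rw [h3]
    nlinarith

end Crest.Agent.H1.Vdw
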