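import Crest.Agent.H1.VdwA

/-! Cells cut out by thresholds, and the number of cell sequences along progressions. -/

set_option autoImplicit false

noncomputable section

namespace Crest.Agent.H1.Vdw

open Finset

def cell (T : Finset ℕ) (y : ℕ) : Finset ℕ := T.filter (· ≤ y)

lemma eq_of_card_mono {L : Type*} (f : ℕ → Finset L) (hf : Monotone f ∨ Antitone f) {b b' : ℕ}
    (h : (f b).card = (f b').card) : f b = f b' := by
  rcases le_total b b' with hb | hb <;> rcases hf with hf | hf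
  · exact eq_of_subset_of_card_le (hf hb) h.ge
  · exact (eq_of_subset_of_card_le (hf hb) h.le).symm
  · exact (eq_of_subset_of_card_le (hf hb) h.le).symm
  · exact eq_of_subset_of_card_le (hf hb) h.ge

def gl (B : ℕ) (l : ℕ × ℕ × ℕ) (β : ℕ) : ℤ := l.2.2 + l.2.1 * B - l.1 * β

lemma cd_cell (T : Finset ℕ) (hT : 0 ∈ T) (B k w : ℕ) (hw : k * ((k + 1) * T.card) + 1 ≤ 2 ^ w) :
    Cd (fun p p' : ℕ × ℕ => p.1 < B → p.2 < B → p'.1 < B → p'.2 < B → ∀ i < k,
      cell T ((p.1 + i * p.2) % B) = cell T ((p'.1 + i * p'.2) % B)) (5 * w) := by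
  classical
  set L := range k ×ˢ range (k + 1) ×ˢ T with hL
  have hLc : L.card + 1 ≤ 2 ^ w := by simpa [hL] using hw
  set U : ℕ → Finset _ := fun β => (L ×ˢ L).filter
    (fun q => q.2.1 ≤ q.1.1 ∧ gl B q.1 β ≤ gl B q.2 β) with hU
  set D : ℕ → Finset _ := fun β => (L ×ˢ L).filter
    (fun q => q.1.1 < q.2.1 ∧ gl B q.1 β ≤ gl B q.2 β) with hD
  set Pt : ℕ × ℕ → Finset _ := fun p => L.filter (fun l => gl B l p.2 ≤ p.1) with hPt
  have hsq : ∀ S : Finset _, S ⊆ L ×ˢ L → S.card < 2 ^ (2 * w) := fun S hS => by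
    have := card_le_card hS
    rw [card_product] at this
    rw [two_mul, pow_add]
    nlinarith
  have hUm : Monotone U := fun β β' hb q hq => by
    simp only [hU, mem_filter, gl] at hq ⊢
    refine ⟨hq.1, hq.2.1, ?_⟩
    have h1 : (q.2.1 : ℤ) ≤ q.1.1 := by exact_mod_cast hq.2.1
    have h2 : (β : ℤ) ≤ β' := by exact_mod_cast hb
    nlinarith [hq.2.2]
  have hDm : Antitone D := fun β β' hb q hq => by
    simp only [hD, mem_filter, gl] at hq ⊢
    refine ⟨hq.1, hq.2.1, ?_⟩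
    have h1 : (q.1.1 : ℤ) ≤ q.2.1 := by exact_mod_cast hq.2.1.le
    have h2 : (β : ℤ) ≤ β' := by exact_mod_cast hb
    nlinarith [hq.2.2]
  have c1 := Cd.of_lt (T := 2 * w) (fun p : ℕ × ℕ => (U p.2).card)
    fun p => hsq _ (filter_subset _ _)
  have c2 := Cd.of_lt (T := 2 * w) (fun p : ℕ × ℕ => (D p.2).card)
    fun p => hsq _ (filter_subset _ _)
  have c3 := Cd.of_lt (T := w) (fun p : ℕ × ℕ => (Pt p).card)
    fun p => lt_of_le_of_lt (card_filter_le _ _) (by omega)
  refine ((c1.and c2).and c3).mono (fun p p' h => ?_) (by omega)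
  obtain ⟨⟨e1, e2⟩, e3⟩ := h
  have eU := eq_of_card_mono U (Or.inl hUm) e1
  have eD := eq_of_card_mono D (Or.inr hDm) e2
  have hO : ∀ l ∈ L, ∀ l' ∈ L, gl B l p.2 ≤ gl B l' p.2 ↔ gl B l p'.2 ≤ gl B l' p'.2 :=
    fun l hl l' hl' => by
      have a1 := congrArg (fun S => (l, l') ∈ S) eU
      have a2 := congrArg (fun S => (l, l') ∈ S) eD
      simp only [hU, hD, mem_filter, mem_product, hl, hl', true_and, eq_iff_iff] at a1 a2
      rcases le_or_gt l'.1 l.1 with hc | hc
      · simpa [hc] using a1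
      · simpa [hc] using a2
  have eP : Pt p = Pt p' := by
    by_cases hs : Pt p ⊆ Pt p'
    · exact eq_of_subset_of_card_le hs e3.ge
    · obtain ⟨l, hl, hl'⟩ := not_subset.1 hs
      refine (eq_of_subset_of_card_le (fun l' hm => ?_) e3.le).symm
      simp only [hPt, mem_filter] at hl hl' hm ⊢
      refine ⟨hm.1, le_trans ((hO l' hm.1 l hl.1).2 ?_) hl.2⟩
      have : ¬ gl B l p'.2 ≤ p'.1 := fun hc => hl' ⟨hl.1, hc⟩
      linarith [hm.2]
  intro h1 h2 h3 h4 i hi
  have hB : 0 < B := by omega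
  have hmem : ∀ m ≤ k, ∀ τ ∈ T, τ + m * B ≤ p.1 + i * p.2 ↔ τ + m * B ≤ p'.1 + i * p'.2 :=
    fun m hm τ hτ => by
      have a1 := congrArg (fun S => (i, m, τ) ∈ S) eP
      have hl : (i, m, τ) ∈ L := by simp [hL, hi, hτ]; omega
      simp only [hPt, mem_filter, hl, true_and, eq_iff_iff, gl] at a1
      zify
      constructor <;> intro hh
      · linarith [a1.1 (by linarith)]
      · linarith [a1.2 (by linarith)]
  have hdiv : ∀ α β : ℕ, α < B → β < B → (α + i * β) / B ≤ k := fun α β ha hb => by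
    apply Nat.div_le_of_le_mul
    nlinarith
  have em : (p.1 + i * p.2) / B = (p'.1 + i * p'.2) / B := by
    apply le_antisymm
    · rw [Nat.le_div_iff_mul_le hB]
      have := (hmem _ (hdiv _ _ h1 h2) 0 hT).1 (by simpa using Nat.div_mul_le_self _ _)
      simpa using this
    · rw [Nat.le_div_iff_mul_le hB]
      have := (hmem _ (hdiv _ _ h3 h4) 0 hT).2 (by simpa using Nat.div_mul_le_self _ _)
      simpa using this
  refine filter_congr fun τ hτ => ?_
  have a1 := hmem _ (hdiv _ _ h1 h2) τ hτ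
  have a2 := Nat.div_add_mod (p.1 + i * p.2) B
  have a3 := Nat.div_add_mod (p'.1 + i * p'.2) B
  rw [← em, mul_comm] at a3
  rw [mul_comm] at a2
  omega

def thr0 (K E : ℕ) : Finset ℕ := (range (2 * K + 1) ×ˢ range (E + 1)).image fun q => q.1 * 2 ^ q.2

def thr (K E B : ℕ) : Finset ℕ := thr0 K E ∪ (thr0 K E).image fun τ => B + 1 - τ

lemma zero_mem_thr (K E B : ℕ) : 0 ∈ thr K E B :=
  mem_union_left _ (mem_image.2 ⟨(0, 0), by simp, by simp⟩)

lemma card_thr (K E B : ℕ) : (thr K E B).card ≤ 2 * ((2 * K + 1) * (E + 1)) := by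
  have h : (thr0 K E).card ≤ (2 * K + 1) * (E + 1) := card_image_le.trans (by simp)
  have := card_union_le (thr0 K E) ((thr0 K E).image fun τ => B + 1 - τ)
  have h2 := card_image_le (s := thr0 K E) (f := fun τ => B + 1 - τ)
  unfold thr
  omega

lemma exists_thr0 {K E y y' : ℕ} (h : y < y') (hE : y' ≤ 2 ^ E) (hK : y' ≤ K * (y' - y)) :
    ∃ τ ∈ thr0 K E, y < τ ∧ τ ≤ y' := by
  set e := Nat.log 2 (y' - y)
  have h1 : 2 ^ e ≤ y' - y := Nat.pow_log_le_self 2 (by omega)
  have h2 : y' - y < 2 ^ (e + 1) := Nat.lt_pow_succ_log_self (by norm_num) _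
  have h3 : e ≤ E := by
    have : 2 ^ e ≤ 2 ^ E := by omega
    exact (Nat.pow_le_pow_iff_right (by norm_num)).1 this
  have hp : 0 < 2 ^ e := by positivity
  refine ⟨y' / 2 ^ e * 2 ^ e, mem_image.2 ⟨(y' / 2 ^ e, e), ?_, rfl⟩, ?_, Nat.div_mul_le_self _ _⟩
  · simp only [mem_product, mem_range]
    refine ⟨Nat.lt_succ_of_le (Nat.div_le_of_le_mul ?_), by omega⟩
    rw [pow_succ] at h2
    nlinarith
  · have := Nat.div_add_mod y' (2 ^ e)
    have := Nat.mod_lt y' hp
    rw [mul_comm]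
    omega

lemma cell_sep {K E B y y' : ℕ} (hB : B ≤ 2 ^ E) (h : y < y') (hy : y' < B)
    (hc : cell (thr K E B) y = cell (thr K E B) y') :
    K * (y' - y) < y' ∧ K * (y' - y) < B - y := by
  have key : ∀ τ ∈ thr K E B, y < τ → τ ≤ y' → False := fun τ hτ h1 h2 => by
    have : τ ∈ cell (thr K E B) y' := mem_filter.2 ⟨hτ, h2⟩
    rw [← hc] at this
    have := (mem_filter.1 this).2
    omega
  constructor
  · by_contra hcon
    obtain ⟨τ, hτ, h1, h2⟩ := exists_thr0 (K := K) (E := E) h (by omega) (by omega)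
    exact key τ (mem_union_left _ hτ) h1 h2
  · by_contra hcon
    have e : B - y - (B - y') = y' - y := by omega
    obtain ⟨τ, hτ, h1, h2⟩ := exists_thr0 (K := K) (E := E) (y := B - y') (y' := B - y)
      (by omega) (by omega) (by rw [e]; omega)
    exact key (B + 1 - τ) (mem_union_right _ (mem_image_of_mem _ hτ)) (by omega) (by omega)

/-- integer form: equal cells force closeness, relative to the distance to either wall -/
lemma cell_close {K E B y y' : ℕ} (hB : B ≤ 2 ^ E) (hy : y < B) (hy' : y' < B)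
    (hc : cell (thr K E B) y = cell (thr K E B) y') :
    (K : ℤ) * |(y' : ℤ) - y| ≤ B ∧ (y ≠ y' → (K : ℤ) * |(y' : ℤ) - y| < y + |(y' : ℤ) - y| ∧
      (K : ℤ) * |(y' : ℤ) - y| < B - y + |(y' : ℤ) - y|) := by
  rcases lt_trichotomy y y' with h | h | h
  · obtain ⟨h1, h2⟩ := cell_sep hB h hy' hc
    have e : |(y' : ℤ) - y| = y' - y := abs_of_nonneg (by omega)
    rw [e]
    zify [h.le, hy.le] at h1 h2 hy' h
    refine ⟨by linarith, fun _ => ⟨by linarith, by linarith⟩⟩
  · subst h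
    simp
  · obtain ⟨h1, h2⟩ := cell_sep hB h hy hc.symm
    have e : |(y' : ℤ) - y| = y - y' := by rw [abs_sub_comm]; exact abs_of_nonneg (by omega)
    rw [e]
    zify [h.le, hy'.le] at h1 h2 hy h
    refine ⟨by linarith, fun _ => ⟨by linarith, by linarith⟩⟩

end Crest.Agent.H1.Vdw
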