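import Crest.Agent.H1.VdwB

/-! Progressions in a product of cyclic groups. -/

set_option autoImplicit false

noncomputable section

namespace Crest.Agent.H1.Vdw

open Finset

variable {t : ℕ} (B : Fin t → ℕ)

def yy (lam n : ℕ) (j : Fin t) : ℕ := lam * n % B j

def cl (E K lam n : ℕ) : Fin t → Finset ℕ := fun j => cell (thr K E (B j)) (yy B lam n j)

def FF (lam n : ℕ) : ℕ := ∑ j, yy B lam n j ^ 2

def Sm (K D h : ℕ) (η : Fin t → ℤ) : Prop :=
  ∀ j, (B j : ℤ) ∣ η j - h * D ∧ (K : ℤ) * |η j| ≤ B j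

def Str (k lam a d : ℕ) : Prop :=
  ∃ δ : Fin t → ℤ, ∀ i < k, ∀ j, (yy B lam (a + i * d) j : ℤ) = yy B lam a j + i * δ j

variable {B}

lemma yy_dvd (lam n : ℕ) (j : Fin t) : (B j : ℤ) ∣ (yy B lam n j : ℤ) - lam * n := by
  unfold yy
  push_cast
  exact Int.dvd_self_sub_emod.neg_right.trans (dvd_of_eq (neg_sub _ _))

lemma yy_lt {j : Fin t} (h : 0 < B j) (lam n : ℕ) : yy B lam n j < B j := Nat.mod_lt _ h

lemma Sm.anti {K K' D h : ℕ} {η : Fin t → ℤ} (hs : Sm B K D h η) (hK : K' ≤ K) : Sm B K' D h η :=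
  fun j => ⟨(hs j).1, le_trans (by gcongr) (hs j).2⟩

lemma cl_eq_sm {E K lam a d i i' : ℕ} (hB : ∀ j, 0 < B j ∧ B j ≤ 2 ^ E) (hi : i ≤ i')
    (h : cl B E K lam (a + i * d) = cl B E K lam (a + i' * d)) :
    Sm B K (lam * d) (i' - i)
      (fun j => (yy B lam (a + i' * d) j : ℤ) - yy B lam (a + i * d) j) := fun j => by
  refine ⟨?_, (cell_close (hB j).2 (yy_lt (hB j).1 _ _) (yy_lt (hB j).1 _ _) (congrFun h j)).1⟩
  have := (yy_dvd (B := B) lam (a + i' * d) j).sub (yy_dvd (B := B) lam (a + i * d) j)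
  exact this.trans (dvd_of_eq (by push_cast [hi]; ring))

lemma sm_prop {K D h h' k : ℕ} {η η' : Fin t → ℤ} (hB : ∀ j, 0 < B j) (hs : Sm B K D h η)
    (hs' : Sm B K D h' η') (hh : h ≤ k) (hh' : h' ≤ k) (hK : 2 * k < K) (j : Fin t) :
    h' * η j = h * η' j := by
  obtain ⟨a1, a2⟩ := hs j
  obtain ⟨b1, b2⟩ := hs' j
  have hd : (B j : ℤ) ∣ h' * η j - h * η' j := by
    have := (a1.mul_left h').sub (b1.mul_left h)
    exact this.trans (dvd_of_eq (by ring))
  have h1 : |h' * η j - h * η' j| ≤ k * |η j| + k * |η' j| := by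
    refine (abs_sub _ _).trans ?_
    rw [abs_mul, abs_mul, Nat.abs_cast, Nat.abs_cast]
    gcongr
  have h2 : (2 * k + 1 : ℤ) ≤ K := by exact_mod_cast hK
  have h3 : (0 : ℤ) < B j := by exact_mod_cast hB j
  have h4 : |h' * η j - h * η' j| < B j := by
    by_contra hc
    push Not at hc
    have := abs_nonneg (η j)
    have := abs_nonneg (η' j)
    have hk : (0 : ℤ) ≤ k := by positivity
    have h5 : (K : ℤ) * B j ≤ K * (k * |η j| + k * |η' j|) := by gcongr; linarith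
    nlinarith
  exact sub_eq_zero.1 (Int.eq_zero_of_abs_lt_dvd hd h4)

lemma sm_min {K D q h k : ℕ} {δ η : Fin t → ℤ} (hB : ∀ j, 0 < B j) (hq : 0 < q)
    (hs : Sm B K D q δ) (hmin : ∀ r, 0 < r → r < q → ∀ ζ, ¬ Sm B K D r ζ) (hs' : Sm B K D h η)
    (hh : h ≤ k) (hqk : q ≤ k) (hK : 2 * k < K) : q ∣ h ∧ ∀ j, η j = (h / q : ℕ) * δ j := by
  have hp := sm_prop hB hs hs' hqk hh hK
  have hdm : (q : ℤ) * (h / q : ℕ) + (h % q : ℕ) = h := by exact_mod_cast Nat.div_add_mod h q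
  have hq' : (0 : ℤ) < q := by exact_mod_cast hq
  have hz : ∀ j, q * (η j - (h / q : ℕ) * δ j) = (h % q : ℕ) * δ j := fun j => by
    linear_combination -hp j - δ j * hdm
  have h0 : h % q = 0 := by
    by_contra hc
    refine hmin (h % q) (Nat.pos_of_ne_zero hc) (Nat.mod_lt _ hq)
      (fun j => η j - (h / q : ℕ) * δ j) fun j => ⟨?_, le_trans ?_ (hs j).2⟩
    · have := (hs' j).1.sub ((hs j).1.mul_left (h / q : ℕ))
      exact this.trans (dvd_of_eq (by linear_combination (D : ℤ) * hdm))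
    · have h1 := congrArg abs (hz j)
      rw [abs_mul, abs_mul, Nat.abs_cast, Nat.abs_cast] at h1
      have h2 : ((h % q : ℕ) : ℤ) ≤ q := by exact_mod_cast (Nat.mod_lt _ hq).le
      have h3 : |η j - (h / q : ℕ) * δ j| ≤ |δ j| := by
        refine le_of_mul_le_mul_left ?_ hq'
        rw [h1]
        gcongr
      gcongr
  refine ⟨Nat.dvd_of_mod_eq_zero h0, fun j => ?_⟩
  have := hz j
  rw [h0] at this
  simp only [Nat.cast_zero, zero_mul, mul_eq_zero, hq'.ne', false_or] at this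
  linarith

lemma no_three {E K lam a d k i1 i2 i3 : ℕ} (hB : ∀ j, 0 < B j ∧ B j ≤ 2 ^ E) (hK : 2 * k < K)
    (hnd : ∀ h, 0 < h → h ≤ k → ∃ j, ¬ B j ∣ h * (lam * d)) (h12 : i1 < i2) (h23 : i2 < i3)
    (h3 : i3 < k) (c2 : cl B E K lam (a + i1 * d) = cl B E K lam (a + i2 * d))
    (c3 : cl B E K lam (a + i1 * d) = cl B E K lam (a + i3 * d))
    (f2 : FF B lam (a + i1 * d) = FF B lam (a + i2 * d))
    (f3 : FF B lam (a + i1 * d) = FF B lam (a + i3 * d)) : False := by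
  have s2 := cl_eq_sm hB h12.le c2
  have s3 := cl_eq_sm hB (h12.trans h23).le c3
  have hp := sm_prop (fun j => (hB j).1) s2 s3 (k := k) (by omega) (by omega) hK
  set y : Fin t → ℤ := fun j => yy B lam (a + i1 * d) j with hy
  set η : Fin t → ℤ := fun j => (yy B lam (a + i2 * d) j : ℤ) - yy B lam (a + i1 * d) j with hη
  set η' : Fin t → ℤ := fun j => (yy B lam (a + i3 * d) j : ℤ) - yy B lam (a + i1 * d) j with hη'
  set h : ℤ := ((i2 - i1 : ℕ) : ℤ) with hh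
  set h' : ℤ := ((i3 - i1 : ℕ) : ℤ) with hh'
  have g2 : ∑ j, (2 * y j * η j + η j ^ 2) = 0 := by
    have : ((FF B lam (a + i2 * d) : ℕ) : ℤ) - FF B lam (a + i1 * d) = 0 := by rw [f2]; ring
    rw [← this, FF, FF]
    push_cast
    rw [← sum_sub_distrib]
    exact sum_congr rfl fun j _ => by simp only [hy, hη]; ring
  have g3 : ∑ j, (2 * y j * η' j + η' j ^ 2) = 0 := by
    have : ((FF B lam (a + i3 * d) : ℕ) : ℤ) - FF B lam (a + i1 * d) = 0 := by rw [f3]; ring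
    rw [← this, FF, FF]
    push_cast
    rw [← sum_sub_distrib]
    exact sum_congr rfl fun j _ => by simp only [hy, hη']; ring
  have g4 : h' * (h' - h) * ∑ j, η j ^ 2 = 0 := by
    have e : h' * (h' - h) * ∑ j, η j ^ 2 = h ^ 2 * ∑ j, (2 * y j * η' j + η' j ^ 2) -
        h * h' * ∑ j, (2 * y j * η j + η j ^ 2) := by
      rw [mul_sum, mul_sum, mul_sum, ← sum_sub_distrib]
      refine sum_congr rfl fun j _ => ?_
      have := hp j
      linear_combination (2 * h * y j + h' * η j + h * η' j) * this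
    rw [e, g2, g3]
    ring
  have p1 : 0 < h' := by rw [hh']; exact_mod_cast (by omega : 0 < i3 - i1)
  have p2 : 0 < h' - h := by
    rw [hh, hh', sub_pos]; exact_mod_cast (by omega : i2 - i1 < i3 - i1)
  have g5 : ∑ j, η j ^ 2 = 0 := by
    rcases mul_eq_zero.1 g4 with hc | hc
    · exact absurd hc (mul_pos p1 p2).ne'
    · exact hc
  obtain ⟨j, hj⟩ := hnd (i2 - i1) (by omega) (by omega)
  have g6 : η j = 0 := pow_eq_zero_iff (two_ne_zero) |>.1
    ((sum_eq_zero_iff_of_nonneg fun j _ => sq_nonneg _).1 g5 j (mem_univ _))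
  have := (s2 j).1
  rw [g6, zero_sub, dvd_neg] at this
  exact hj (by exact_mod_cast this)

lemma card_le_two {X : Type*} [DecidableEq X] (f : ℕ → X) (I : Finset ℕ)
    (h : ∀ i1 ∈ I, ∀ i2 ∈ I, ∀ i3 ∈ I, i1 < i2 → i2 < i3 → f i1 = f i2 → f i1 = f i3 → False) :
    I.card ≤ 2 * (I.image f).card := by
  refine card_le_mul_card_image I 2 fun x _ => ?_
  by_contra hc
  obtain ⟨a, b, c, ha, hb, hc, h1, h2, h3⟩ := two_lt_card_iff.1 (not_le.1 hc)
  simp only [mem_filter] at ha hb hc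
  have e1 := ha.2.trans hb.2.symm
  have e2 := ha.2.trans hc.2.symm
  have e3 := hb.2.trans hc.2.symm
  rcases lt_or_gt_of_ne h1 with l1 | l1 <;> rcases lt_or_gt_of_ne h2 with l2 | l2 <;>
    rcases lt_or_gt_of_ne h3 with l3 | l3
  · exact h a ha.1 b hb.1 c hc.1 l1 l3 e1 e2
  · exact h a ha.1 c hc.1 b hb.1 l2 l3 e2 e1
  · omega
  · exact h c hc.1 a ha.1 b hb.1 l2 l1 e2.symm e3.symm
  · exact h b hb.1 a ha.1 c hc.1 l1 l2 e1.symm e3
  · omega
  · exact h b hb.1 c hc.1 a ha.1 l3 l2 e3 e1.symm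
  · exact h c hc.1 b hb.1 a ha.1 l3 l1 e3.symm e2.symm

lemma str_or_inj {E lam a d k : ℕ} (hB : ∀ j, 0 < B j ∧ B j ≤ 2 ^ E) {δ : Fin t → ℤ}
    (hs : Sm B (4 * k) (lam * d) 1 δ) : Str B k lam a d ∨
      ∀ i i', i < i' → i' < k → cl B E (4 * k) lam (a + i * d) ≠ cl B E (4 * k) lam (a + i' * d) := by
  by_cases hc : ∀ i < k, ∀ j, (yy B lam (a + i * d) j : ℤ) = yy B lam a j + i * δ j
  · exact Or.inl ⟨δ, hc⟩
  right
  push Not at hc
  obtain ⟨i0, hi0, j, hj⟩ := hc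
  intro i i' hi hi' hcl
  have hBj : (0 : ℤ) < B j := by exact_mod_cast (hB j).1
  have hdv : ∀ i : ℕ, (B j : ℤ) ∣ (yy B lam (a + i * d) j : ℤ) - (yy B lam a j + i * δ j) :=
    fun i => by
      have := ((yy_dvd (B := B) lam (a + i * d) j).sub (yy_dvd (B := B) lam a j)).sub
        ((hs j).1.mul_left i)
      exact this.trans (dvd_of_eq (by push_cast; ring))
  have hlt : ∀ n, (yy B lam n j : ℤ) < B j := fun n => by exact_mod_cast yy_lt (hB j).1 lam n
  have hge : ∀ n, (0 : ℤ) ≤ yy B lam n j := fun n => by positivity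
  have hδ := (hs j).2
  push_cast at hδ
  set Δ := |δ j| with hΔ
  have hΔ0 : 0 ≤ Δ := abs_nonneg _
  have hle : ∀ i : ℕ, i ≤ k → |(i : ℤ) * δ j| ≤ k * Δ := fun i hi => by
    rw [abs_mul, Nat.abs_cast]; gcongr
  -- the starting point is near a wall
  have hout : yy B lam a j + i0 * δ j < 0 ∨ (B j : ℤ) ≤ yy B lam a j + i0 * δ j := by
    by_contra hcon
    push Not at hcon
    refine hj (sub_eq_zero.1 (Int.eq_zero_of_abs_lt_dvd (hdv i0) ?_))
    rw [abs_lt]
    constructor <;> linarith [hlt (a + i0 * d), hge (a + i0 * d), hcon.1, hcon.2]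
  have hwall : (yy B lam (a + i * d) j : ℤ) ≤ 2 * k * Δ ∨
      (B j : ℤ) - 2 * k * Δ ≤ yy B lam (a + i * d) j := by
    obtain ⟨m, hm⟩ := hdv i
    have b0 := abs_le.1 (hle i0 hi0.le)
    have b1 := abs_le.1 (hle i (by omega))
    have b2 := hlt (a + i * d)
    have b3 := hge (a + i * d)
    have b4 := hlt a
    have b5 := hge a
    rcases hout with ho | ho
    · rcases le_or_gt m 0 with hm0 | hm0
      · left; nlinarith
      · right; nlinarith
    · rcases le_or_gt m (-1) with hm0 | hm0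
      · left; nlinarith
      · right; nlinarith
  have hcc := cell_close (hB j).2 (yy_lt (hB j).1 _ _) (yy_lt (hB j).1 _ _) (congrFun hcl j)
  push_cast at hcc
  set y : ℤ := ((yy B lam (a + i * d) j : ℕ) : ℤ) with hy
  set y' : ℤ := ((yy B lam (a + i' * d) j : ℕ) : ℤ) with hy'
  have hk : (1 : ℤ) ≤ k := by exact_mod_cast (by omega : 1 ≤ k)
  have hii : (1 : ℤ) ≤ (i' : ℤ) - i := by omega
  have he : y' - y = ((i' - i : ℕ) : ℤ) * δ j := by
    have hd : (B j : ℤ) ∣ y' - y - ((i' - i : ℕ) : ℤ) * δ j := by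
      have := (hdv i').sub (hdv i)
      exact this.trans (dvd_of_eq (by push_cast [hi.le]; ring))
    refine sub_eq_zero.1 (Int.eq_zero_of_abs_lt_dvd hd ((abs_sub _ _).trans_lt ?_))
    have b1 := hle (i' - i) (by omega)
    have b2 := abs_nonneg (y' - y)
    nlinarith [hcc.1]
  have hge' : Δ ≤ |y' - y| := by
    rw [he, abs_mul, Nat.abs_cast]
    push_cast [hi.le]
    nlinarith
  have hΔp : 0 < Δ := by
    rcases hΔ0.eq_or_lt with h0 | h0
    · have : δ j = 0 := abs_eq_zero.1 h0.symm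
      rw [this] at hout
      rcases hout with ho | ho <;> linarith [hlt a, hge a]
    · exact h0
  have hne : yy B lam (a + i * d) j ≠ yy B lam (a + i' * d) j := fun hh => by
    have : y' - y = 0 := by rw [hy, hy', hh]; ring
    rw [this, abs_zero] at hge'
    linarith
  obtain ⟨c1, c2⟩ := hcc.2 hne
  rcases hwall with hw | hw <;> nlinarith

lemma str_quad {k lam a d : ℕ} (h : Str B k lam a d) :
    ∃ c l A : ℤ, ∀ i < k, (FF B lam (a + i * d) : ℤ) = c + l * i + A * i ^ 2 := by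
  obtain ⟨δ, hδ⟩ := h
  refine ⟨∑ j, (yy B lam a j : ℤ) ^ 2, ∑ j, 2 * (yy B lam a j : ℤ) * δ j, ∑ j, δ j ^ 2,
    fun i hi => ?_⟩
  rw [FF]
  push_cast
  rw [sum_mul, sum_mul, ← sum_add_distrib, ← sum_add_distrib]
  exact sum_congr rfl fun j _ => by rw [hδ i hi j]; ring

lemma FF_lt {E φ : ℕ} (hB : ∀ j, 0 < B j ∧ B j ≤ 2 ^ E) (ht : t ≤ 2 ^ φ) (lam n : ℕ) :
    FF B lam n < 2 ^ (2 * E + φ + 1) := by
  have : FF B lam n ≤ t * (2 ^ E) ^ 2 := by
    have := sum_le_card_nsmul univ (fun j => yy B lam n j ^ 2) ((2 ^ E) ^ 2) fun j _ => by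
      have := yy_lt (hB j).1 lam n
      have := (hB j).2
      gcongr
      omega
    simpa [FF] using this
  have h2 : t * (2 ^ E) ^ 2 ≤ 2 ^ φ * (2 ^ E) ^ 2 := by gcongr
  have h3 : 2 ^ (2 * E + φ + 1) = 2 * (2 ^ φ * (2 ^ E) ^ 2) := by ring
  have h4 : 0 < 2 ^ φ * (2 ^ E) ^ 2 := by positivity
  omega

lemma cd_FF {E φ k : ℕ} (hB : ∀ j, 0 < B j ∧ B j ≤ 2 ^ E) (ht : t ≤ 2 ^ φ) (hk : 3 ≤ k)
    (lam : ℕ × ℕ × Bool × Bool → ℕ) :
    Cd (fun p p' : ℕ × ℕ × Bool × Bool => Str B k (lam p) p.1 p.2.1 → Str B k (lam p') p'.1 p'.2.1 →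
      ∀ i < k, FF B (lam p) (p.1 + i * p.2.1) = FF B (lam p') (p'.1 + i * p'.2.1))
      (3 * (2 * E + φ + 1)) := by
  have c := fun i => Cd.of_lt (fun p : ℕ × ℕ × Bool × Bool => FF B (lam p) (p.1 + i * p.2.1))
    fun p => FF_lt hB ht _ _
  refine (((c 0).and (c 1)).and (c 2)).mono (fun p p' h s s' i hi => ?_) (by omega)
  obtain ⟨c, l, A, h1⟩ := str_quad s
  obtain ⟨c', l', A', h2⟩ := str_quad s'
  obtain ⟨⟨e0, e1⟩, e2⟩ := h
  zify at e0 e1 e2 ⊢
  have a0 := h1 0 (by omega)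
  have a1 := h1 1 (by omega)
  have a2 := h1 2 (by omega)
  have b0 := h2 0 (by omega)
  have b1 := h2 1 (by omega)
  have b2 := h2 2 (by omega)
  push_cast at a0 a1 a2 b0 b1 b2
  have : c = c' := by linarith
  have : A = A' := by linarith
  have : l = l' := by linarith
  rw [h1 i hi, h2 i hi]
  simp [*]

lemma cd_cl {E K k w : ℕ} (hB : ∀ j, 0 < B j)
    (hw : k * ((k + 1) * (2 * ((2 * K + 1) * (E + 1)))) + 1 ≤ 2 ^ w) (lam : ℕ) :
    Cd (fun p p' : ℕ × ℕ => ∀ i < k, cl B E K lam (p.1 + i * p.2) = cl B E K lam (p'.1 + i * p'.2))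
      (t * (5 * w)) := by
  have c := fun j => (cd_cell (thr K E (B j)) (zero_mem_thr _ _ _) (B j) k w (by
    have := card_thr K E (B j)
    refine le_trans ?_ hw
    gcongr)).comp (fun p : ℕ × ℕ => (lam * p.1 % B j, lam * p.2 % B j))
  refine (Cd.all c).mono (fun p p' h i hi => funext fun j => ?_) le_rfl
  have := h j (Nat.mod_lt _ (hB j)) (Nat.mod_lt _ (hB j)) (Nat.mod_lt _ (hB j))
    (Nat.mod_lt _ (hB j)) i hi
  have e : ∀ q : ℕ × ℕ, (lam * q.1 % B j + i * (lam * q.2 % B j)) % B j =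
      yy B lam (q.1 + i * q.2) j := fun q => by
    unfold yy
    have : lam * (q.1 + i * q.2) = lam * q.1 + i * (lam * q.2) := by ring
    rw [this]
    exact ((Nat.mod_modEq _ _).add ((Nat.mod_modEq _ _).mul_left i))
  simpa only [e, cl] using this

lemma cd_yy {E : ℕ} (hB : ∀ j, 0 < B j ∧ B j ≤ 2 ^ E) :
    Cd (fun p p' : ℕ × ℕ => ∀ lam i, yy B lam (p.1 + i * p.2) = yy B lam (p'.1 + i * p'.2))
      (t * (E + E)) := by
  have c := fun j => (Cd.of_lt (T := E) (fun p : ℕ × ℕ => p.1 % B j)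
    fun p => (Nat.mod_lt _ (hB j).1).trans_le (hB j).2).and
      (Cd.of_lt (T := E) (fun p : ℕ × ℕ => p.2 % B j)
        fun p => (Nat.mod_lt _ (hB j).1).trans_le (hB j).2)
  refine (Cd.all c).mono (fun p p' h lam i => funext fun j => ?_) le_rfl
  exact (Nat.ModEq.add (h j).1 (Nat.ModEq.mul_left i (h j).2)).mul_left lam

end Crest.Agent.H1.Vdw
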