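import Crest.Agent.H1.VdwC

/-! The two-colouring. -/

set_option autoImplicit false

noncomputable section

namespace Crest.Agent.H1.Vdw

open Finset

lemma card_filter_image_le {X : Type*} [DecidableEq X] (I : Finset ℕ) (f : ℕ → X) (x : X → Bool)
    (b : Bool) : ((I.image f).filter (fun e => x e = b)).card ≤
      (I.filter (fun i => x (f i) = b)).card := by
  rw [filter_image]
  exact card_image_le

lemma card_image_of_ne {X : Type*} [DecidableEq X] (I : Finset ℕ) (f : ℕ → X)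
    (h : ∀ i ∈ I, ∀ i' ∈ I, i < i' → f i ≠ f i') : (I.image f).card = I.card := by
  refine card_image_of_injOn fun i hi i' hi' e => ?_
  rcases lt_trichotomy i i' with l | l | l
  · exact absurd e (h i hi i' hi' l)
  · exact l
  · exact absurd e.symm (h i' hi' i hi l)

variable {t : ℕ} {B : Fin t → ℕ}

lemma deep {E k q L a d : ℕ} (hB : ∀ j, 0 < B j ∧ B j ≤ 2 ^ E) {K : ℕ} {δ : Fin t → ℤ}
    (hs : Sm B K (1 * d) q δ) (hq0 : 0 < q) (hq : q ∣ L)
    (hd : ∀ j, ((4 * k * L : ℕ) : ℤ) * |δ j| ≤ B j) :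
    Str B k L a d ∨
      ∀ i i', i < i' → i' < k → cl B E (4 * k) L (a + i * d) ≠ cl B E (4 * k) L (a + i' * d) := by
  obtain ⟨u, rfl⟩ := hq
  refine str_or_inj hB (δ := fun j => u * δ j) fun j => ⟨?_, ?_⟩
  · exact ((hs j).1.mul_left u).trans (dvd_of_eq (by push_cast; ring))
  · refine le_trans ?_ (hd j)
    rw [abs_mul, Nat.abs_cast]
    push_cast
    have : (1 : ℤ) ≤ q := by exact_mod_cast hq0
    have h2 : (0 : ℤ) ≤ 4 * k * (u * |δ j|) := by positivity
    nlinarith

lemma medium {E k q K K' a d : ℕ} (hB : ∀ j, 0 < B j ∧ B j ≤ 2 ^ E) {δ : Fin t → ℤ}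
    (hs : Sm B (4 * k) (1 * d) q δ) (hq0 : 0 < q) (hqk : q ≤ k)
    (hmin : ∀ r, 0 < r → r < q → ∀ ζ, ¬ Sm B (4 * k) (1 * d) r ζ) (hK : 4 * k ≤ K) (hK' : K ≤ K')
    (hd : ¬ ∀ j, (K : ℤ) * |δ j| ≤ B j) {i i' : ℕ} (hi : i < i') (hi' : i' < k) :
    cl B E K' 1 (a + i * d) ≠ cl B E K' 1 (a + i' * d) := fun hc => by
  have h1 := cl_eq_sm hB hi.le hc
  obtain ⟨h2, h3⟩ := sm_min (k := k) (fun j => (hB j).1) hq0 hs hmin (h1.anti (hK.trans hK'))
    (by omega) hqk (by omega)
  refine hd fun j => le_trans ?_ ((h1.anti hK') j).2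
  rw [h3 j, abs_mul, Nat.abs_cast]
  have : 1 ≤ (i' - i) / q := Nat.div_pos (Nat.le_of_dvd (by omega) h2) hq0
  have h4 : (1 : ℤ) ≤ ((i' - i) / q : ℕ) := by exact_mod_cast this
  have h5 : (0 : ℤ) ≤ K * |δ j| := by positivity
  nlinarith

lemma far {E k Q K a d : ℕ} (hB : ∀ j, 0 < B j ∧ B j ≤ 2 ^ E)
    (hno : ∀ r, 0 < r → r ≤ Q → ∀ ζ, ¬ Sm B (4 * k) (1 * d) r ζ) (hK : 4 * k ≤ K)
    {i i' : ℕ} (hi : i < i') (hi' : i' < Q) :
    cl B E K 1 (a + i * d) ≠ cl B E K 1 (a + i' * d) := fun hc =>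
  hno (i' - i) (by omega) (by omega) _ ((cl_eq_sm hB hi.le hc).anti hK)

theorem core {E k Q0 Q1 n0 n1 LA LB w0 wA wB φ u m : ℕ}
    (hB : ∀ j, 0 < B j ∧ B j ≤ 2 ^ E) (hQ1 : Q1 = n0 * Q0) (hk : k = n1 * Q1)
    (hLA : ∀ q, 0 < q → q ≤ Q0 → q ∣ LA) (hLB : ∀ q, 0 < q → q ≤ Q1 → q ∣ LB) (hAB : LA ≤ LB)
    (hLA0 : 0 < LA)
    (hcop : ∀ j h d, 0 < h → h ≤ k → (B j ∣ h * (LA * d) → B j ∣ d) ∧ (B j ∣ h * (LB * d) → B j ∣ d))
    (hw0 : k * ((k + 1) * (2 * ((2 * (4 * k) + 1) * (E + 1)))) + 1 ≤ 2 ^ w0)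
    (hwA : k * ((k + 1) * (2 * ((2 * (4 * k * LA) + 1) * (E + 1)))) + 1 ≤ 2 ^ wA)
    (hwB : k * ((k + 1) * (2 * ((2 * (4 * k * LB) + 1) * (E + 1)))) + 1 ≤ 2 ^ wB)
    (ht : t ≤ 2 ^ φ) (hk3 : 3 ≤ k) (h1 : 6 * (t * (5 * w0) + 3) ≤ Q0)
    (h2 : 24 * (t * (5 * (2 * w0 + wA)) + 3) ≤ Q1)
    (h4 : 24 * 2 ^ u * (t * (5 * (3 * w0 + wA + wB)) + 3 * (2 * E + φ + 1) + 5) ≤ k)
    (h5 : t * (E + E) + k + 4 ≤ u * m) (hm : 64 * m ≤ k) :
    ∃ c : ℕ → Bool, ∀ a d, (∃ j, ¬ B j ∣ d) → ∃ i < k, c (a + i * d) ≠ c a := by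
  classical
  have hB0 : ∀ j, 0 < B j := fun j => (hB j).1
  have hn1 : 0 < n1 := Nat.pos_of_ne_zero (by rintro rfl; omega)
  have hn0 : 0 < n0 := Nat.pos_of_ne_zero (by rintro rfl; omega)
  have hQ1k : Q1 ≤ k := by rw [hk]; exact Nat.le_mul_of_pos_left _ hn1
  have hQ01 : Q0 ≤ Q1 := by rw [hQ1]; exact Nat.le_mul_of_pos_left _ hn0
  have hKA : 4 * k ≤ 4 * k * LA := Nat.le_mul_of_pos_right _ hLA0
  have hKB : 4 * k * LA ≤ 4 * k * LB := Nat.mul_le_mul_left _ hAB
  have c01 := cd_cl hB0 hw0 1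
  have c0A := cd_cl hB0 hw0 LA
  have c0B := cd_cl hB0 hw0 LB
  have cA := cd_cl hB0 hwA 1
  have cB := cd_cl hB0 hwB 1
  -- the gate
  obtain ⟨γ, hγ⟩ : ∃ γ : (Fin t → Finset ℕ) → Bool, ∀ a d : ℕ,
      (∀ r, 0 < r → r ≤ Q0 → ∀ ζ, ¬ Sm B (4 * k) (1 * d) r ζ) → ∀ b n, n * Q0 ≤
        4 * ((range (n * Q0)).filter (fun i => γ (cl B E (4 * k) 1 (a + i * d)) = b)).card := by
    obtain ⟨F, f1, f2, f3⟩ := Cd.family (A := fun p : ℕ × ℕ => Q0 ≤
        ((range Q0).image (fun i => cl B E (4 * k) 1 (p.1 + i * p.2))).card)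
      (f := fun p => (range Q0).image (fun i => cl B E (4 * k) 1 (p.1 + i * p.2)))
      (c01.mono (fun p p' h _ _ => image_congr fun i hi => h i (by simp at hi; omega)) le_rfl)
    obtain ⟨γ, hγ⟩ := exists_balanced F (lt_of_le_of_lt (sum_le_eighth F _ _ f1 fun J hJ => by
      obtain ⟨p, hp, rfl⟩ := f3 J hJ
      exact pow_89 (h1.trans hp)) (by norm_num))
    refine ⟨γ, fun a d hno b n => window _ Q0 4 n fun w _ => ?_⟩
    have e := card_image_of_ne (range Q0) (fun i => cl B E (4 * k) 1 (a + w * Q0 * d + i * d))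
      fun i _ i' hi' l => far hB hno le_rfl l (mem_range.1 hi')
    rw [card_range] at e
    have h6 := hγ _ (f2 (a + w * Q0 * d, d) e.ge) b
    have h7 := card_filter_image_le (range Q0)
      (fun i => cl B E (4 * k) 1 (a + w * Q0 * d + i * d)) γ b
    simp only [e] at h6
    have e2 : ∀ i, a + (w * Q0 + i) * d = a + w * Q0 * d + i * d := fun i => by ring
    simp only [e2]
    omega
  set κ : ℕ → Bool × (Fin t → Finset ℕ) × (Fin t → Finset ℕ) × (Fin t → Finset ℕ) := fun n =>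
    if γ (cl B E (4 * k) 1 n) = true then
      (true, cl B E (4 * k * LB) 1 n, cl B E (4 * k) LA n, cl B E (4 * k) LB n)
    else (false, cl B E (4 * k * LA) 1 n, cl B E (4 * k) LA n, fun _ => ∅) with hκ
  have cκ : Cd (fun p p' : ℕ × ℕ => ∀ i < k, κ (p.1 + i * p.2) = κ (p'.1 + i * p'.2) ∧
      cl B E (4 * k) LA (p.1 + i * p.2) = cl B E (4 * k) LA (p'.1 + i * p'.2) ∧
      cl B E (4 * k) LB (p.1 + i * p.2) = cl B E (4 * k) LB (p'.1 + i * p'.2))
      (t * (5 * (3 * w0 + wA + wB))) := by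
    refine ((((c01.and c0A).and c0B).and cA).and cB).mono (fun p p' h i hi => ?_)
      (le_of_eq (by ring))
    obtain ⟨⟨⟨⟨a1, a2⟩, a3⟩, a4⟩, a5⟩ := h
    refine ⟨?_, a2 i hi, a3 i hi⟩
    simp only [hκ, a1 i hi, a2 i hi, a3 i hi, a4 i hi, a5 i hi]
  have hu : 1 ≤ 2 ^ u := Nat.one_le_two_pow
  -- the dense part
  obtain ⟨ε, hεC, hεK⟩ : ∃ ε : Bool × (Fin t → Finset ℕ) × (Fin t → Finset ℕ) ×
      (Fin t → Finset ℕ) → Bool, (∀ a d : ℕ,
      (∀ r, 0 < r → r ≤ Q1 → ∀ ζ, ¬ Sm B (4 * k) (1 * d) r ζ) → ∀ b,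
        k ≤ 16 * ((range k).filter (fun i => ε (κ (a + i * d)) = b)).card) ∧ ∀ a d : ℕ,
      k ≤ 4 * ((range k).image (fun i => κ (a + i * d))).card → ∀ b,
        k ≤ 16 * ((range k).filter (fun i => ε (κ (a + i * d)) = b)).card := by
    obtain ⟨F, f1, f2, f3⟩ := Cd.family (T := t * (5 * (2 * w0 + wA)))
      (A := fun p : ℕ × ℕ => Q1 ≤ 4 * (((range Q1).filter (fun i =>
        γ (cl B E (4 * k) 1 (p.1 + i * p.2)) = false)).image (fun i => κ (p.1 + i * p.2))).card)
      (f := fun p => ((range Q1).filter (fun i =>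
        γ (cl B E (4 * k) 1 (p.1 + i * p.2)) = false)).image (fun i => κ (p.1 + i * p.2)))
      (((c01.and c0A).and cA).mono (fun p p' h _ _ => by
        obtain ⟨⟨a1, a2⟩, a4⟩ := h
        have e : (range Q1).filter (fun i => γ (cl B E (4 * k) 1 (p.1 + i * p.2)) = false) =
            (range Q1).filter (fun i => γ (cl B E (4 * k) 1 (p'.1 + i * p'.2)) = false) :=
          filter_congr fun i hi => by rw [a1 i (by simp at hi; omega)]
        rw [← e]
        refine image_congr fun i hi => ?_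
        simp only [coe_filter, mem_range, Set.mem_ofPred_eq] at hi
        have hik : i < k := by omega
        have := hi.2
        simp only [hκ, ← a1 i hik, ← a2 i hik, ← a4 i hik, this, Bool.false_eq_true, if_false])
        (le_of_eq (by ring)))
    obtain ⟨F', g1, g2, g3⟩ := Cd.family
      (A := fun p : ℕ × ℕ => k ≤ 4 * ((range k).image (fun i => κ (p.1 + i * p.2))).card)
      (f := fun p => (range k).image (fun i => κ (p.1 + i * p.2)))
      (cκ.mono (fun p p' h _ _ => image_congr fun i hi => (h i (by simpa using hi)).1) le_rfl)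
    obtain ⟨ε, hε⟩ := exists_balanced (F ∪ F') (by
      have s1 := sum_le_eighth F (fun J => (8 / 9 : ℝ) ^ J.card) _ f1 fun J hJ => by
        obtain ⟨p, hp, rfl⟩ := f3 J hJ
        exact pow_89 (by omega)
      have s2 := sum_le_eighth F' (fun J => (8 / 9 : ℝ) ^ J.card) _ g1 fun J hJ => by
        obtain ⟨p, hp, rfl⟩ := g3 J hJ
        exact pow_89 (by nlinarith)
      have s3 := sum_union_inter (s₁ := F) (s₂ := F') (f := fun J => (8 / 9 : ℝ) ^ J.card)
      have s4 : 0 ≤ ∑ J ∈ F ∩ F', (8 / 9 : ℝ) ^ J.card := sum_nonneg fun _ _ => by positivity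
      linarith)
    refine ⟨ε, fun a d hno b => ?_, fun a d h b => ?_⟩
    · have := window (fun i => ε (κ (a + i * d)) = b) Q1 16 n1 fun w _ => ?_
      · rwa [← hk] at this
      have e2 : ∀ i, a + (w * Q1 + i) * d = a + w * Q1 * d + i * d := fun i => by ring
      simp only [e2]
      set a' := a + w * Q1 * d
      have h6 := hγ a' d (fun r r0 r1 => hno r r0 (r1.trans hQ01)) false n0
      rw [← hQ1] at h6
      set I := (range Q1).filter (fun i => γ (cl B E (4 * k) 1 (a' + i * d)) = false) with hI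
      have e := card_image_of_ne I (fun i => κ (a' + i * d)) fun i hi i' hi' l hc => by
        simp only [hI, mem_filter, mem_range] at hi hi'
        simp only [hκ, hi.2, hi'.2, Bool.false_eq_true, if_false, Prod.mk.injEq] at hc
        exact far hB hno hKA l hi'.1 hc.2.1
      have h7 := hε _ (mem_union_left _ (f2 (a', d) (h6.trans (by rw [← e])))) b
      have h8 := card_filter_image_le I (fun i => κ (a' + i * d)) ε b
      have h9 : (I.filter (fun i => ε (κ (a' + i * d)) = b)).card ≤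
          ((range Q1).filter (fun i => ε (κ (a' + i * d)) = b)).card :=
        card_le_card (filter_subset_filter _ (filter_subset _ _))
      simp only [← hI, e] at h7
      omega
    · have h7 := hε _ (mem_union_right _ (g2 (a, d) h)) b
      have h8 := card_filter_image_le (range k) (fun i => κ (a + i * d)) ε b
      simp only at h7
      omega
  set L : Bool → ℕ := fun b => if b = true then LB else LA with hL
  set sk : Bool → ℕ → Bool × (Fin t → Finset ℕ) × ℕ := fun b n =>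
    (b, cl B E (4 * k) (L b) n, FF B (L b) n) with hsk
  have two : ∀ a d, (∃ j, ¬ B j ∣ d) → ∀ b, ∀ I ⊆ range k,
      I.card ≤ 2 * (I.image (fun i => sk b (a + i * d))).card := fun a d hd b I hI => by
    refine card_le_two _ I fun i1 _ i2 _ i3 m3 l1 l2 e1 e2 => ?_
    simp only [hsk, Prod.mk.injEq, true_and] at e1 e2
    refine no_three (k := k) hB (by omega) (fun h h0 hh => ?_) l1 l2 (mem_range.1 (hI m3))
      e1.1 e2.1 e1.2 e2.2
    obtain ⟨j, hj⟩ := hd
    refine ⟨j, fun hc => hj ?_⟩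
    cases b
    · exact (hcop j h d h0 hh).1 hc
    · exact (hcop j h d h0 hh).2 hc
  -- the sparse part
  obtain ⟨R, hRH, hRG⟩ : ∃ R : Bool × (Fin t → Finset ℕ) × ℕ → Bool, (∀ a d b c,
      Str B k (L b) a d → k ≤ 4 * (((range k).filter (fun i => ε (κ (a + i * d)) = c)).image
        (fun i => sk b (a + i * d))).card →
      ∃ i < k, ε (κ (a + i * d)) = c ∧ R (sk b (a + i * d)) = true) ∧ ∀ a d b,
      (((range k).image (fun i => sk b (a + i * d))).filter (fun e => R e = true)).card < m := by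
    obtain ⟨F, f1, f2, f3⟩ := Cd.family
      (T := t * (5 * (3 * w0 + wA + wB)) + 3 * (2 * E + φ + 1) + 1 + 1)
      (A := fun p : ℕ × ℕ × Bool × Bool => Str B k (L p.2.2.1) p.1 p.2.1 ∧
        k ≤ 4 * (((range k).filter (fun i => ε (κ (p.1 + i * p.2.1)) = p.2.2.2)).image
          (fun i => sk p.2.2.1 (p.1 + i * p.2.1))).card)
      (f := fun p => ((range k).filter (fun i => ε (κ (p.1 + i * p.2.1)) = p.2.2.2)).image
          (fun i => sk p.2.2.1 (p.1 + i * p.2.1)))
      (((((cκ.comp (fun p : ℕ × ℕ × Bool × Bool => (p.1, p.2.1))).and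
        (cd_FF hB ht hk3 (fun p => L p.2.2.1))).and (Cd.of_bool fun p => p.2.2.1)).and
        (Cd.of_bool fun p => p.2.2.2)).mono (fun p p' h s s' => by
          obtain ⟨⟨⟨a1, a2⟩, a3⟩, a4⟩ := h
          have a5 := a2 s.1 s'.1
          simp only at a1 a3 a4 a5
          have e : (range k).filter (fun i => ε (κ (p.1 + i * p.2.1)) = p.2.2.2) =
              (range k).filter (fun i => ε (κ (p'.1 + i * p'.2.1)) = p'.2.2.2) :=
            filter_congr fun i hi => by rw [(a1 i (by simpa using hi)).1, a4]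
          rw [← e]
          refine image_congr fun i hi => ?_
          simp only [coe_filter, mem_range, Set.mem_ofPred_eq] at hi
          have a6 := a5 i hi.1
          rw [a3] at a6
          simp only [hsk, a6, Prod.mk.injEq, a3, true_and, and_true]
          cases p'.2.2.1
          · exact (a1 i hi.1).2.1
          · exact (a1 i hi.1).2.2) le_rfl)
    obtain ⟨F', g1, g2, g3⟩ := Cd.family (T := t * (E + E) + 1)
      (A := fun _ : ℕ × ℕ × Bool => True)
      (f := fun p => (range k).image (fun i => sk p.2.2 (p.1 + i * p.2.1)))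
      ((((cd_yy hB).comp (fun p : ℕ × ℕ × Bool => (p.1, p.2.1))).and
        (Cd.of_bool fun p => p.2.2)).mono (fun p p' h _ _ => image_congr fun i _ => by
          obtain ⟨a1, a2⟩ := h
          simp only at a1 a2
          simp only [hsk, a2, FF, a1]
          unfold cl
          simp only [a1]) le_rfl)
    have hs : (1 : ℝ) ≤ (2 ^ u : ℕ) := by exact_mod_cast hu
    obtain ⟨R, r1, r2⟩ := exists_sparse F F' (σ := 1 / (2 ^ u : ℕ)) (by positivity)
      (by rw [div_le_one (by linarith)]; exact hs) m (by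
      have s1 := sum_le_eighth F (fun J => (1 - 1 / ((2 ^ u : ℕ) : ℝ)) ^ J.card) _ f1 fun J hJ => by
        obtain ⟨p, hp, rfl⟩ := f3 J hJ
        exact pow_one_sub (by omega) (by nlinarith [hp.2])
      have s2 := sum_le_eighth F' (fun J => (1 / ((2 ^ u : ℕ) : ℝ)) ^ m * 2 ^ J.card) _ g1
        fun J hJ => by
          obtain ⟨p, hp, rfl⟩ := g3 J hJ
          have e1 : ((range k).image (fun i => sk p.2.2 (p.1 + i * p.2.1))).card ≤ k :=
            card_image_le.trans (by simp)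
          have e2 : (1 / ((2 ^ u : ℕ) : ℝ)) ^ m = (1 / 2) ^ (u * m) := by
            push_cast
            rw [pow_mul, one_div_pow (2 : ℝ) u]
          have e3 : (1 / 2 : ℝ) ^ (u * m) ≤ (1 / 2) ^ (t * (E + E) + 1 + 3 + k) :=
            pow_le_pow_of_le_one (by norm_num) (by norm_num) (by omega)
          calc _ ≤ (1 / 2 : ℝ) ^ (t * (E + E) + 1 + 3 + k) * 2 ^ k := by
                rw [e2]; gcongr; norm_num
            _ = _ := by rw [pow_add, mul_assoc, ← mul_pow]; norm_num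
      linarith)
    refine ⟨R, fun a d b c hs hc => ?_, fun a d b => r2 _ (g2 (a, d, b) trivial)⟩
    obtain ⟨e, he, hR⟩ := r1 _ (f2 (a, d, b, c) ⟨hs, hc⟩)
    obtain ⟨i, hi, rfl⟩ := mem_image.1 he
    simp only [mem_filter, mem_range] at hi
    exact ⟨i, hi.1, hi.2, hR⟩
  refine ⟨fun n => xor (ε (κ n)) (R (sk false n) || R (sk true n)), fun a d hd => ?_⟩
  by_contra hcon
  push Not at hcon
  set c0 := xor (ε (κ a)) (R (sk false a) || R (sk true a)) with hc0
  have hS : ∀ b, ((range k).filter (fun i => R (sk b (a + i * d)) = true)).card < 2 * m :=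
    fun b => by
      have h6 := two a d hd b _ (filter_subset (fun i => R (sk b (a + i * d)) = true) (range k))
      have h7 := hRG a d b
      rw [filter_image] at h7
      omega
  have hfew : 16 * ((range k).filter (fun i => ε (κ (a + i * d)) = !c0)).card < k := by
    have : (range k).filter (fun i => ε (κ (a + i * d)) = !c0) ⊆
        (range k).filter (fun i => R (sk false (a + i * d)) = true) ∪
        (range k).filter (fun i => R (sk true (a + i * d)) = true) := fun i hi => by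
      simp only [mem_filter, mem_range, mem_union] at hi ⊢
      have h6 := hcon i hi.1
      rw [hi.2] at h6
      revert h6
      cases c0 <;> cases R (sk false (a + i * d)) <;> cases R (sk true (a + i * d)) <;> simp [hi.1]
    have h6 := (card_le_card this).trans (card_union_le _ _)
    have := hS false
    have := hS true
    omega
  have hstr : ∀ b, ¬ Str B k (L b) a d := fun b hs => by
    have h6 := two a d hd b _ (filter_subset (fun i => ε (κ (a + i * d)) = c0) (range k))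
    have h7 := card_filter_add_card_filter_not (s := range k) (fun i => ε (κ (a + i * d)) = c0)
    have e : (range k).filter (fun i => ¬ ε (κ (a + i * d)) = c0) =
        (range k).filter (fun i => ε (κ (a + i * d)) = !c0) :=
      filter_congr fun i _ => by cases c0 <;> simp
    rw [e, card_range] at h7
    obtain ⟨i, hi, e1, e2⟩ := hRH a d b c0 hs (by omega)
    have h8 := hcon i hi
    rw [e1] at h8
    revert h8
    cases b <;> cases c0 <;> simp [e2]
  have hpoor : ∀ I ⊆ range k, k ≤ 4 * I.card →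
      (∀ i ∈ I, ∀ i' ∈ I, i < i' → κ (a + i * d) ≠ κ (a + i' * d)) → False := fun I hI h6 h7 => by
    have h8 := card_image_of_ne I _ h7
    have h9 := card_le_card (image_subset_image (f := fun i => κ (a + i * d)) hI)
    have := hεK a d (by omega) (!c0)
    omega
  by_cases hex : ∃ q, 0 < q ∧ q ≤ Q1 ∧ ∃ δ, Sm B (4 * k) (1 * d) q δ
  swap
  · have := hεC a d (fun r r0 r1 ζ hζ => hex ⟨r, r0, r1, ζ, hζ⟩) (!c0)
    omega
  obtain ⟨q0, q1, δ, hδ⟩ := Nat.find_spec hex
  set q := Nat.find hex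
  have hmin : ∀ r, 0 < r → r < q → ∀ ζ, ¬ Sm B (4 * k) (1 * d) r ζ := fun r r0 r1 ζ hζ =>
    Nat.find_min hex r1 ⟨r0, by omega, ζ, hζ⟩
  by_cases hq : q ≤ Q0
  · refine hpoor (range k) Subset.rfl (by simp; omega) fun i _ i' hi' l hc => ?_
    have hi' := mem_range.1 hi'
    have hc' : (cl B E (4 * k * LB) 1 (a + i * d) = cl B E (4 * k * LB) 1 (a + i' * d) ∨
        cl B E (4 * k * LA) 1 (a + i * d) = cl B E (4 * k * LA) 1 (a + i' * d)) ∧
        cl B E (4 * k) LA (a + i * d) = cl B E (4 * k) LA (a + i' * d) := by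
      simp only [hκ] at hc
      split_ifs at hc <;> simp only [Prod.mk.injEq] at hc
      · exact ⟨Or.inl hc.2.1, hc.2.2.1⟩
      · exact absurd hc.1 (by simp)
      · exact absurd hc.1 (by simp)
      · exact ⟨Or.inr hc.2.1, hc.2.2.1⟩
    by_cases hd' : ∀ j, ((4 * k * LA : ℕ) : ℤ) * |δ j| ≤ B j
    · rcases deep (a := a) hB hδ q0 (hLA q q0 hq) hd' with h6 | h6
      · exact hstr false h6
      · exact h6 i i' l hi' hc'.2
    · rcases hc'.1 with h6 | h6
      · exact medium hB hδ q0 (by omega) hmin hKA hKB hd' l hi' h6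
      · exact medium hB hδ q0 (by omega) hmin hKA le_rfl hd' l hi' h6
  · have h6 := hγ a d (fun r r0 r1 => hmin r r0 (by omega)) true (n1 * n0)
    rw [mul_assoc, ← hQ1, ← hk] at h6
    refine hpoor _ (filter_subset _ _) h6 fun i hi i' hi' l hc => ?_
    simp only [mem_filter, mem_range] at hi hi'
    simp only [hκ, hi.2, hi'.2, if_true, Prod.mk.injEq] at hc
    by_cases hd' : ∀ j, ((4 * k * LB : ℕ) : ℤ) * |δ j| ≤ B j
    · rcases deep (a := a) hB hδ q0 (hLB q q0 q1) hd' with h6 | h6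
      · exact hstr true h6
      · exact h6 i i' l hi'.1 hc.2.2.2
    · exact medium hB hδ q0 (by omega) hmin (hKA.trans hKB) le_rfl hd' l hi'.1 hc.2.1

end Crest.Agent.H1.Vdw
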