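import Crest.Agent.H1.VdwD

/-! Choice of parameters. -/

set_option autoImplicit false

noncomputable section

namespace Crest.Agent.H1.Vdw

open Finset

lemma hw_bound {k l E y : ℕ} (hk : k = 2 ^ l) (hE : E ≤ k) {L : ℕ} (hL : L ≤ 2 ^ y) :
    k * ((k + 1) * (2 * ((2 * (4 * k * L) + 1) * (E + 1)))) + 1 ≤ 2 ^ (4 * l + 7 + y) := by
  have h1 : 1 ≤ k := hk ▸ Nat.one_le_two_pow
  have h2 : 1 ≤ 2 ^ y := Nat.one_le_two_pow
  have e : 2 ^ (4 * l + 7 + y) = 128 * (k ^ 4 * 2 ^ y) := by rw [hk]; ring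
  rw [e]
  generalize 2 ^ y = Y at *
  have a1 : 2 * (4 * k * L) + 1 ≤ 9 * (k * Y) := by nlinarith [Nat.mul_le_mul h1 h2]
  have a2 : k * ((k + 1) * (2 * ((2 * (4 * k * L) + 1) * (E + 1)))) ≤
      k * ((2 * k) * (2 * ((9 * (k * Y)) * (2 * k)))) := by
    gcongr <;> omega
  have a3 : 1 ≤ k ^ 4 * Y := Nat.mul_pos (by positivity) h2
  have a4 : k * ((2 * k) * (2 * ((9 * (k * Y)) * (2 * k)))) = 72 * (k ^ 4 * Y) := by ring
  omega

lemma fact_le (u e : ℕ) : ((2 ^ u) ^ e).factorial ≤ 2 ^ (e * u * (2 ^ u) ^ e) := by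
  refine (Nat.factorial_le_pow _).trans (le_of_eq ?_)
  generalize hN : (2 ^ u) ^ e = N
  rw [pow_mul 2 (e * u) N, ← hN, ← pow_mul 2 u e, mul_comm u e]

lemma big {u : ℕ} (hu : 100 ≤ u) : 1000000 * (u + 1) ≤ 2 ^ u := by
  obtain ⟨v, rfl⟩ := Nat.exists_eq_add_of_le' (show 30 ≤ u by omega)
  have := Nat.lt_two_pow_self (n := v)
  rw [pow_add]
  omega

lemma ineqs {s u l w b0 : ℕ} (hu : 100 ≤ u) (hs : 1000000 * (u + 1) ≤ s) (hl : l < 20 * u + 20)
    (hw : 1 ≤ w) (hb : 50000 * s ^ 3 * b0 ≤ (l + 1) * (s ^ 20 * w)) :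
    b0 + 1 + s ^ 3 + 1 ≤ s ^ 20 * w ∧ 6 * (s ^ 3 * (5 * (4 * l + 7 + 0)) + 3) ≤ s ^ 5 ∧
    24 * (s ^ 3 * (5 * (2 * (4 * l + 7 + 0) + (4 * l + 7 + 5 * u * s ^ 5))) + 3) ≤ s ^ 10 ∧
    24 * s * (s ^ 3 * (5 * (3 * (4 * l + 7 + 0) + (4 * l + 7 + 5 * u * s ^ 5) +
      (4 * l + 7 + 10 * u * s ^ 10))) + 3 * (2 * (b0 + 1 + s ^ 3 + 1) + 3 * u + 1) + 5) ≤
      s ^ 20 * w ∧
    s ^ 3 * ((b0 + 1 + s ^ 3 + 1) + (b0 + 1 + s ^ 3 + 1)) + s ^ 20 * w + 4 ≤
      u * (s ^ 20 * w / 64) ∧ 50000 * s ^ 3 ≤ s ^ 20 * w := by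
  have s1 : 1000000 ≤ s := by omega
  have step : ∀ n, 1000000 * s ^ n ≤ s ^ (n + 1) := fun n => by
    rw [pow_succ, mul_comm]; exact Nat.mul_le_mul_left _ s1
  have stepu : ∀ n, 1000000 * (u * s ^ n) ≤ s ^ (n + 1) := fun n => by
    rw [pow_succ, ← mul_assoc, mul_comm (s ^ n)]
    exact Nat.mul_le_mul_right _ (by omega)
  have mono : ∀ a b, a ≤ b → s ^ a ≤ s ^ b := fun a b h => Nat.pow_le_pow_right (by omega) h
  have k1 : s ^ 20 ≤ s ^ 20 * w := Nat.le_mul_of_pos_right _ hw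
  generalize s ^ 20 * w = k at *
  have l1 : 4 * l + 7 ≤ s := by omega
  have p1 : s ≤ s ^ 5 := by simpa using mono 1 5 (by norm_num)
  have p0 : 1 ≤ s ^ 3 := by simpa using mono 0 3 (by norm_num)
  have b1 : s ^ 2 * b0 ≤ k := by
    have : s * (s ^ 2 * b0) ≤ s * k := by
      have : (l + 1) * k ≤ s * k := Nat.mul_le_mul_right _ (by omega)
      nlinarith
    exact Nat.le_of_mul_le_mul_left this (by omega)
  have b2 : 1000000 * (s * b0) ≤ k := by
    have := Nat.mul_le_mul_right b0 (step 1)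
    nlinarith
  have b3 : b0 ≤ s * b0 := Nat.le_mul_of_pos_left _ (by omega)
  have q3 := step 3
  have q4 := step 4
  have q5 := step 5
  have q6 := step 6
  have q9 := step 9
  have q15 := step 15
  have m4 := mono 4 20 (by norm_num)
  have m7 := mono 7 20 (by norm_num)
  have m16 := mono 16 20 (by norm_num)
  have m36 := mono 3 6 (by norm_num)
  have m510 := mono 6 10 (by norm_num)
  have u5 := stepu 5
  have u10 := stepu 10
  have q10 := step 10
  norm_num at q3 q4 q5 q6 q9 q15 u5 u10 q10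
  refine ⟨by omega, ?_, ?_, ?_, ?_, by omega⟩
  · have : s ^ 3 * (5 * (4 * l + 7 + 0)) ≤ s ^ 3 * (5 * s) := Nat.mul_le_mul_left _ (by omega)
    have e : s ^ 3 * (5 * s) = 5 * s ^ 4 := by ring
    omega
  · have h1 : 2 * (4 * l + 7 + 0) + (4 * l + 7 + 5 * u * s ^ 5) ≤ s ^ 6 := by
      have : 5 * u * s ^ 5 = 5 * (u * s ^ 5) := by ring
      omega
    have : s ^ 3 * (5 * (2 * (4 * l + 7 + 0) + (4 * l + 7 + 5 * u * s ^ 5))) ≤
        s ^ 3 * (5 * s ^ 6) := by gcongr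
    have e : s ^ 3 * (5 * s ^ 6) = 5 * s ^ 9 := by ring
    have := mono 3 9 (by norm_num)
    omega
  · have h1 : 3 * (4 * l + 7 + 0) + (4 * l + 7 + 5 * u * s ^ 5) +
        (4 * l + 7 + 10 * u * s ^ 10) ≤ s ^ 11 := by
      have : 5 * u * s ^ 5 = 5 * (u * s ^ 5) := by ring
      have : 10 * u * s ^ 10 = 10 * (u * s ^ 10) := by ring
      omega
    have h2 : s ^ 3 * (5 * (3 * (4 * l + 7 + 0) + (4 * l + 7 + 5 * u * s ^ 5) +
        (4 * l + 7 + 10 * u * s ^ 10))) ≤ s ^ 3 * (5 * s ^ 11) := by gcongr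
    have e : s ^ 3 * (5 * s ^ 11) = 5 * s ^ 14 := by ring
    have h3 := mono 4 14 (by norm_num)
    have h4 : s ≤ s ^ 3 := by simpa using mono 1 3 (by norm_num)
    calc _ ≤ 24 * s * (6 * s ^ 14 + 6 * b0) := Nat.mul_le_mul_left _ (by omega)
      _ = 144 * s ^ 15 + 144 * (s * b0) := by ring
      _ ≤ k := by omega
  · have e : s ^ 3 * ((b0 + 1 + s ^ 3 + 1) + (b0 + 1 + s ^ 3 + 1)) =
        2 * (s ^ 3 * b0) + 2 * s ^ 6 + 4 * s ^ 3 := by ring
    have h1 : 50000 * (s ^ 3 * b0) ≤ 20 * (u * k) + 20 * k := by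
      have : (l + 1) * k ≤ (20 * u + 20) * k := Nat.mul_le_mul_right _ (by omega)
      nlinarith
    have h2 : u * k ≤ 64 * (u * (k / 64)) + 64 * u := by
      have : k ≤ 64 * (k / 64) + 64 := by omega
      nlinarith
    have h3 : 100 * k ≤ u * k := Nat.mul_le_mul_right _ hu
    have h4 : s ≤ s ^ 6 := by simpa using mono 1 6 (by norm_num)
    omega

theorem two_col {l : ℕ} (hl : 2000 ≤ l) : ∃ (M e : ℕ) (c : ℕ → Bool), (l + 1) * 2 ^ l ≤ 50000 * e ∧
    2 ^ e ≤ M ∧ ∀ a d, ¬ M ∣ d → ∃ i < 2 ^ l, c (a + i * d) ≠ c a := by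
  set u := l / 20 with hu
  set s := 2 ^ u with hs
  set w := 2 ^ (l - 20 * u) with hw
  have hk : 2 ^ l = s ^ 20 * w := by
    rw [hs, hw, ← pow_mul, ← pow_add]; congr 1; omega
  set b0 := (l + 1) * (s ^ 20 * w) / (50000 * s ^ 3) with hb0
  have hs0 : 0 < s := by positivity
  have hsb := big (u := u) (by omega)
  obtain ⟨i1, i2, i3, i4, i5, i6⟩ := ineqs (s := s) (u := u) (l := l) (w := w) (b0 := b0) (by omega)
    hsb (by omega) Nat.one_le_two_pow (Nat.mul_div_le _ _)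
  choose B hBp hB1 hB2 using fun j : Fin (s ^ 3) =>
    Nat.exists_prime_lt_and_le_two_mul (2 ^ (b0 + 1 + j)) (by positivity)
  have hlb : l + 1 ≤ b0 := (Nat.le_div_iff_mul_le (by positivity)).2 (Nat.mul_le_mul_left _ i6)
  have hBk : ∀ j, s ^ 20 * w < B j := fun j =>
    lt_of_le_of_lt (hk ▸ Nat.pow_le_pow_right (by norm_num) (by omega)) (hB1 j)
  have hw1 : 1 ≤ w := Nat.one_le_two_pow
  have h510 : s ^ 5 ≤ s ^ 10 := Nat.pow_le_pow_right hs0 (by norm_num)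
  have h1020 : s ^ 10 ≤ s ^ 20 * w :=
    (Nat.pow_le_pow_right hs0 (by norm_num)).trans (Nat.le_mul_of_pos_right _ hw1)
  have hp3 : 0 < s ^ 3 := by positivity
  obtain ⟨c, hc⟩ := core (B := B) (E := b0 + 1 + s ^ 3 + 1) (k := s ^ 20 * w) (Q0 := s ^ 5)
    (Q1 := s ^ 10) (n0 := s ^ 5) (n1 := s ^ 10 * w) (LA := (s ^ 5).factorial)
    (LB := (s ^ 10).factorial) (φ := 3 * u) (u := u) (m := s ^ 20 * w / 64)
    (fun j => ⟨(hBp j).pos, (hB2 j).trans (by
      rw [← pow_succ']; exact Nat.pow_le_pow_right (by norm_num) (by omega))⟩)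
    (by ring) (by ring) (fun q h1 h2 => Nat.dvd_factorial h1 h2)
    (fun q h1 h2 => Nat.dvd_factorial h1 h2) (Nat.factorial_le h510) (Nat.factorial_pos _)
    (fun j h d h0 h1 => by
      have := hBk j
      constructor <;> intro hd
      all_goals
        rcases (Nat.Prime.dvd_mul (hBp j)).1 hd with h2 | h2
        · have := Nat.le_of_dvd h0 h2; omega
        · rcases (Nat.Prime.dvd_mul (hBp j)).1 h2 with h3 | h3
          · have := (Nat.Prime.dvd_factorial (hBp j)).1 h3; omega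
          · exact h3)
    (by simpa using hw_bound (y := 0) (L := 1) hk.symm i1 le_rfl)
    (hw_bound hk.symm i1 (fact_le u 5)) (hw_bound hk.symm i1 (fact_le u 10))
    (by rw [hs, ← pow_mul, mul_comm]) (by omega) i2 i3 i4 i5 (Nat.mul_div_le _ _)
  refine ⟨∏ j, B j, s ^ 3 * (b0 + 1), c, ?_, ?_, fun a d hd => ?_⟩
  · rw [hk]
    have := Nat.lt_div_mul_add (a := (l + 1) * (s ^ 20 * w)) (b := 50000 * s ^ 3) (by positivity)
    rw [← hb0] at this
    nlinarith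
  · have := pow_card_le_prod univ B (2 ^ (b0 + 1)) fun j _ =>
      le_trans (Nat.pow_le_pow_right (by norm_num) (by omega)) (hB1 j).le
    rw [card_univ, Fintype.card_fin, ← pow_mul, mul_comm] at this
    exact this
  · rw [hk]
    refine hc a d ?_
    by_contra hcon
    push Not at hcon
    refine hd (Fintype.prod_dvd_of_isRelPrime (fun i j hij => ?_) hcon)
    refine Nat.coprime_iff_isRelPrime.1 ((Nat.coprime_primes (hBp i) (hBp j)).2 ?_)
    have key : ∀ i j : Fin (s ^ 3), i < j → B i < B j := fun i j h =>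
      lt_of_le_of_lt ((hB2 i).trans (by
        rw [← pow_succ']; exact Nat.pow_le_pow_right (by norm_num) (by omega))) (hB1 j)
    rcases lt_or_gt_of_ne hij with h | h
    · exact (key _ _ h).ne
    · exact (key _ _ h).ne'

end Crest.Agent.H1.Vdw
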